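import Vale.Agent.P167.H718.Dob
import Vale.Agent.P167.CL.Enl

/-!
# P167, general `q`: Dobrushin boundary conditions in enlarged lattice polygons

The `N`-fold enlargement, `N ≥ 2`, of a lattice polygon has no chords; hence the outside
configuration `etaW` gives Dobrushin boundary conditions with arbitrary marks.
-/

namespace Vale.Agent.P167.H718

open Vale.Agent.P167.E6 (IsPolygon Encloses dir face)
open Vale.Agent.P167.CL (pe re pe_eq pe_succ pe_mod re_nat re_poly re_encl diff_dir)

variable {m : ℕ} {q : ZMod m → ℤ × ℤ} {N : ℕ}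

theorem mul_eq_add {N a b c : ℤ} (h : N * a = N * b + c) (h1 : -N < c) (h2 : c < N) : c = 0 := by
  have h3 : N * (a - b) = c := by linarith
  by_contra hc
  rcases lt_trichotomy (a - b) 0 with h4 | h4 | h4
  · nlinarith
  · rw [h4, mul_zero] at h3
    exact hc h3.symm
  · nlinarith

theorem perp_of : ∀ r s : Fin 4, ¬ (s = r ∨ s = r + 2) →
    (r = 0 ∨ r = 2) ∧ (s = 1 ∨ s = 3) ∨ (r = 1 ∨ r = 3) ∧ (s = 0 ∨ s = 2) := by
  decide

/-- A point inside of an enlarged side. -/
theorem nbr_inner {v v' : ℤ × ℤ} {r r' s : Fin 4} {j j' N : ℤ} (hN : 2 ≤ N) (h0 : 0 < j) (h1 : j < N)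
    (h : N • v' + j' • dir r' = N • v + j • dir r + dir s) :
    s = r ∨ s = r + 2 := by
  obtain ⟨a, b⟩ := v
  obtain ⟨c, d⟩ := v'
  have e0 : dir 0 = (1, 0) := rfl
  have e1 : dir 1 = (0, 1) := rfl
  have e2 : dir 2 = (-1, 0) := rfl
  have e3 : dir 3 = (0, -1) := rfl
  have f1 := congrArg Prod.fst h
  have f2 := congrArg Prod.snd h
  by_contra hcon
  have hr' : r' = 0 ∨ r' = 1 ∨ r' = 2 ∨ r' = 3 := by fin_cases r' <;> simp
  have key : ∀ a b c : ℤ, N * a = N * b + c → -N < c → c < N → c = 0 :=
    fun a b c => mul_eq_add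
  have hrs : (r = 0 ∨ r = 2) ∧ (s = 1 ∨ s = 3) ∨ (r = 1 ∨ r = 3) ∧ (s = 0 ∨ s = 2) := by
    exact perp_of r s hcon
  rcases hrs with ⟨hr | hr, hs | hs⟩ | ⟨hr | hr, hs | hs⟩ <;> rcases hr' with hr' | hr' | hr' | hr' <;>
    subst hr <;> subst hs <;> subst hr' <;>
    simp only [e0, e1, e2, e3, Prod.smul_mk, smul_eq_mul, Prod.mk_add_mk, mul_one, mul_zero,
      add_zero, mul_neg] at f1 f2
  all_goals first
    | (have := key _ _ _ f1 (by omega) (by omega); omega)
    | (have := key _ _ _ f2 (by omega) (by omega); omega)
    | (have := key c a (-j) (by linarith) (by omega) (by omega); omega)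
    | (have := key d b (-j) (by linarith) (by omega) (by omega); omega)
    | (have := key c a j (by linarith) (by omega) (by omega); omega)
    | (have := key d b j (by linarith) (by omega) (by omega); omega)
    | (have := key c a 1 (by linarith) (by omega) (by omega); omega)
    | (have := key d b 1 (by linarith) (by omega) (by omega); omega)
    | (have := key c a (-1) (by linarith) (by omega) (by omega); omega)
    | (have := key d b (-1) (by linarith) (by omega) (by omega); omega)

theorem dir_add_two (r : Fin 4) : dir (r + 2) = -dir r := by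
  fin_cases r <;> rfl

/-- The neighbour of a point inside of an enlarged side. -/
theorem nbr_pe (hq : IsPolygon q) (hN : 2 ≤ N) {t t' : ℕ} {s : Fin 4} (ht : 0 < t % N)
    (h : pe q N t' = pe q N t + dir s) :
    pe q N t' = pe q N (t + 1) ∨ pe q N t' = pe q N (t - 1) := by
  have hN0 : 0 < N := by omega
  obtain ⟨r, hr⟩ := diff_dir hq ((t / N : ℕ) : ZMod m)
  obtain ⟨r', hr'⟩ := diff_dir hq ((t' / N : ℕ) : ZMod m)
  have h1 := h
  rw [pe_eq, pe_eq, hr, hr'] at h1
  have h2 := nbr_inner (by exact_mod_cast hN) (by exact_mod_cast ht)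
    (by exact_mod_cast Nat.mod_lt t hN0) h1
  rcases h2 with h2 | h2
  · left
    rw [h, pe_succ hN0, hr, h2]
  · right
    have h3 := pe_succ (q := q) hN0 (t - 1)
    have e1 : t - 1 + 1 = t := by
      have : 0 < t := by
        rcases Nat.eq_zero_or_pos t with h4 | h4
        · rw [h4, Nat.zero_mod] at ht
          omega
        · exact h4
      omega
    have e2 : (t - 1) / N = t / N := by
      have h4 := Nat.div_add_mod t N
      have h5 : t - 1 = N * (t / N) + (t % N - 1) := by omega
      have h6 : t % N - 1 < N := by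
        have h7 := Nat.mod_lt t hN0
        omega
      rw [h5, Nat.mul_add_div hN0, Nat.div_eq_of_lt h6, add_zero]
    rw [e1, e2, hr] at h3
    rw [h, h3, h2, dir_add_two]
    abel

/-- Two points at distance one are not both vertices of the enlarged lattice. -/
theorem not_both (hN : 2 ≤ N) {t t' : ℕ} {s : Fin 4} (h : pe q N t' = pe q N t + dir s)
    (h1 : t % N = 0) (h2 : t' % N = 0) : False := by
  rw [pe_eq, pe_eq, h1, h2, Nat.cast_zero, zero_smul, zero_smul, add_zero, add_zero] at h
  have f1 := congrArg Prod.fst h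
  have f2 := congrArg Prod.snd h
  simp only [Prod.fst_add, Prod.snd_add, Prod.smul_fst, Prod.smul_snd, smul_eq_mul] at f1 f2
  have hN' : (2 : ℤ) ≤ N := by exact_mod_cast hN
  rcases dir4 s with h3 | h3 | h3 | h3 <;> rw [h3] at f1 f2
  · have := mul_eq_add f1 (by simp only; omega) (by simp only; omega); simp at this
  · have := mul_eq_add f2 (by simp only; omega) (by simp only; omega); simp at this
  · have := mul_eq_add f1 (by simp only; omega) (by simp only; omega); simp at this
  · have := mul_eq_add f2 (by simp only; omega) (by simp only; omega); simp at this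

/-- **Enlarged polygons have no chords.** -/
theorem chordless_re (hq : IsPolygon q) (hN : 2 ≤ N) (s : ℕ) : Chordless (re q N s) := by
  have hN0 : 0 < N := by omega
  have hm : 2 < m := hq.1
  have hne : NeZero (N * m) := ⟨by positivity⟩
  have hp := re_poly hq hN0 s
  -- a neighbour of an inner point
  have key : ∀ (x y : ZMod (N * m)) (r : Fin 4), 0 < (x.val + s) % N →
      re q N s y = re q N s x + dir r → y = x + 1 ∨ x = y + 1 := by
    intro x y r hx h
    rcases nbr_pe hq hN hx h with h1 | h1
    · left
      apply hp.2.1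
      rw [CL.re_succ hq hN0]
      exact h1
    · right
      have hpos : 0 < x.val + s := by
        rcases Nat.eq_zero_or_pos (x.val + s) with h4 | h4
        · rw [h4, Nat.zero_mod] at hx
          omega
        · exact h4
      have e1 : re q N s (x - 1) = pe q N (x.val + s - 1) := by
        have h2 := re_nat (q := q) hN0 s (x.val + (N * m - 1))
        have hbig : 1 ≤ N * m := Nat.one_le_iff_ne_zero.2 (by positivity)
        have h3 : ((x.val + (N * m - 1) : ℕ) : ZMod (N * m)) = x - 1 := by
          rw [Nat.cast_add, Nat.cast_sub hbig, ZMod.natCast_zmod_val, ZMod.natCast_self]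
          push_cast
          ring
        rw [h3] at h2
        rw [h2]
        have h4 := CL.pe_add (q := q) hN0 (x.val + s - 1) 1
        rw [mul_one] at h4
        rw [← h4]
        congr 1
        omega
      have h5 : re q N s y = re q N s (x - 1) := by rw [e1]; exact h1
      have h6 := hp.2.1 h5
      rw [h6]
      ring
  rintro x y ⟨r, hr⟩
  by_cases hx : 0 < (x.val + s) % N
  · exact key x y r hx hr
  · by_cases hy : 0 < (y.val + s) % N
    · have hr' : re q N s x = re q N s y + dir (r + 2) := by
        rw [hr, dir_add_two]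
        abel
      exact (key y x (r + 2) hy hr').symm
    · exact absurd (not_both hN hr (by omega) (by omega)) id

/-- **Dobrushin boundary conditions in enlarged polygons**, with arbitrary marks. -/
theorem dob_re {S : Finset (ℤ × ℤ)} (hq : IsPolygon q) (hE : Encloses q S) (hN : 2 ≤ N) (s k : ℕ) :
    Dob (etaW (CA.enl S N) (re q N s) k) (CA.enl S N) (re q N s) k :=
  dob_etaW (re_poly hq (by omega) s) (re_encl hq hE (by omega) s) (chordless_re hq hN s)

end Vale.Agent.P167.H718
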