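import Vale.Agent.P167.H718.E2b

/-!
# P167, general `q`, block Q-E2: the random-cluster measure with Dobrushin boundary conditions as a
product over the pieces

* `Dob η D q k`: outside of `D` the primal boundary sites `q k, …, q n` are joined and no other two
  sites of `D` are joined (the sites `q 0, …, q k` are free);
* `IsCl D q k A`: the piece `A` is a loop, or a strand which is closed by the boundary arcs: both
  sides in the free part and leaving before entering, or both in the wired part and entering before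
  leaving;
* `LD_eq`, `pow_LD`: `Q ^ LD D ω = c ∏ (Q if IsCl, else 1)`, `Ex_eq`.
-/

namespace Vale.Agent.P167.H718

open Finset Relation Vale.Agent.P167.BR Vale.Agent.P167.FK
open Vale.Agent.P145.FB (PStep)
open Vale.Agent.P167.E6 (IsPolygon Encloses dir face)

variable {ω ω' η : Cfg} {D : Finset (ℤ × ℤ)} {a : ℤ × ℤ} {e e' : Ed} {A B : Finset Ed}
variable {n k : ℕ} {q : ZMod n → ℤ × ℤ}

/-- Connection by open squares outside of `D`. -/
def OutC (η : Cfg) (D : Finset (ℤ × ℤ)) (s t : ℤ × ℤ) : Prop :=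
  ReflTransGen (PStep (op η ∩ (↑D : Set (ℤ × ℤ))ᶜ)) s t

/-- Connection by open squares of `D`. -/
def InC (ω : Cfg) (D : Finset (ℤ × ℤ)) (s t : ℤ × ℤ) : Prop :=
  ReflTransGen (PStep (op ω ∩ (↑D : Set (ℤ × ℤ)))) s t

/-- The configuration `η` outside of `D` wires the primal boundary sites `q k, …, q n`. -/
structure Dob (η : Cfg) (D : Finset (ℤ × ℤ)) (q : ZMod n → ℤ × ℤ) (k : ℕ) : Prop where
  good : Good η
  join : ∀ i j : ℕ, k ≤ i → i ≤ n → k ≤ j → j ≤ n → Even ((q i).1 + (q i).2) →
    Even ((q j).1 + (q j).2) → OutC η D (q i) (q j)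
  sep : ∀ s ∈ sites D, ∀ t ∈ sites D, Even (s.1 + s.2) → OutC η D s t → s ≠ t →
    ∃ i j : ℕ, k ≤ i ∧ i ≤ n ∧ k ≤ j ∧ j ≤ n ∧ q i = s ∧ q j = t

theorem OutC.PC (h : ∀ v ∉ D, ω v = η v) {s t : ℤ × ℤ} (hs : OutC η D s t) : PC ω s t := by
  unfold OutC at hs
  unfold FK.PC
  induction hs with
  | refl => exact ReflTransGen.refl
  | tail _ hxy ih =>
    obtain ⟨h1, h2, h3, h4⟩ := hxy
    refine ih.tail ⟨h1, h2, ?_⟩
    show ω _ = true
    rw [h _ h4]
    exact h3

theorem corners_of_step {v s t : ℤ × ℤ} (h : PStep {v} s t) :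
    ((s.1 = v.1 ∨ s.1 = v.1 + 1) ∧ (s.2 = v.2 ∨ s.2 = v.2 + 1)) ∧
      ((t.1 = v.1 ∨ t.1 = v.1 + 1) ∧ (t.2 = v.2 ∨ t.2 = v.2 + 1)) := by
  obtain ⟨h1, h2, h3⟩ := h
  have h4 := congrArg Prod.fst h3
  have h5 := congrArg Prod.snd h3
  simp only at h4 h5
  omega

theorem mem_sites_of_step {F : Set (ℤ × ℤ)} {s t : ℤ × ℤ}
    (h : PStep (F ∩ (↑D : Set (ℤ × ℤ))) s t) : s ∈ sites D ∧ t ∈ sites D := by
  have hv := h.2.2.2
  have h1 := corners_of_step (v := (min s.1 t.1, min s.2 t.2)) ⟨h.1, h.2.1, rfl⟩
  exact ⟨mem_sites.2 ⟨_, hv, h1.1⟩, mem_sites.2 ⟨_, hv, h1.2⟩⟩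

/-- Connections in the plane. -/
theorem PC_split (hη : Dob η D q k) (h : ∀ v ∉ D, ω v = η v) {s t : ℤ × ℤ} (hs : s ∈ sites D)
    (ht : t ∈ sites D) (hev : Even (s.1 + s.2)) (hst : PC ω s t) :
    InC ω D s t ∨ (∃ i j : ℕ, k ≤ i ∧ i ≤ n ∧ k ≤ j ∧ j ≤ n ∧ InC ω D s (q i) ∧
      InC ω D (q j) t) := by
  classical
  set P : ℤ × ℤ → Prop := fun t' => InC ω D s t' ∨ (∃ i j : ℕ, k ≤ i ∧ i ≤ n ∧ k ≤ j ∧ j ≤ n ∧
      InC ω D s (q i) ∧ InC ω D (q j) t') with hP
  have hevC : ∀ x y, Even (x.1 + x.2) → InC ω D x y → Even (y.1 + y.2) := by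
    intro x y hx hxy
    induction hxy with
    | refl => exact hx
    | tail _ h1 ih => exact even_step h1 ih
  -- joining outside of `D`
  have hjoin : ∀ t' ∈ sites D, ∀ t'' ∈ sites D, Even (t'.1 + t'.2) → P t' → OutC η D t' t'' →
      P t'' := by
    intro t' ht' t'' ht'' hev' hPt hout
    by_cases heq : t' = t''
    · rw [← heq]; exact hPt
    · obtain ⟨i, j, h1, h2, h3, h4, h5, h6⟩ := hη.sep t' ht' t'' ht'' hev' hout heq
      rcases hPt with h7 | ⟨i', j', h7, h8, h9, h10, h11, h12⟩
      · exact Or.inr ⟨i, j, h1, h2, h3, h4, by rw [h5]; exact h7, by rw [h6]; exact ReflTransGen.refl⟩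
      · exact Or.inr ⟨i', j, h7, h8, h3, h4, h11, by rw [h6]; exact ReflTransGen.refl⟩
  have key : ∀ t, PC ω s t → ∃ t' ∈ sites D, Even (t'.1 + t'.2) ∧ P t' ∧ OutC η D t' t := by
    intro t hst
    induction hst with
    | refl => exact ⟨s, hs, hev, Or.inl ReflTransGen.refl, ReflTransGen.refl⟩
    | @tail x y _ hxy ih =>
      obtain ⟨t', ht', hev', hPt, hout⟩ := ih
      by_cases hv : (min x.1 y.1, min x.2 y.2) ∈ D
      · have hxy' : PStep (op ω ∩ (↑D : Set (ℤ × ℤ))) x y := ⟨hxy.1, hxy.2.1, hxy.2.2, hv⟩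
        obtain ⟨hx, hy⟩ := mem_sites_of_step hxy'
        have hPx := hjoin t' ht' x hx hev' hPt hout
        have hevx : Even (x.1 + x.2) := by
          clear hPx hPt hxy hxy' hv
          induction hout with
          | refl => exact hev'
          | @tail y' z' hyz hz ih2 =>
            have h1 : Even (y'.1 + y'.2) := by
              clear ih2 hz
              induction hyz with
              | refl => exact hev'
              | tail _ h3 ih3 => exact even_step h3 ih3
            exact even_step hz h1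
        refine ⟨y, hy, even_step hxy' hevx, ?_, ReflTransGen.refl⟩
        rcases hPx with h7 | ⟨i', j', h7, h8, h9, h10, h11, h12⟩
        · exact Or.inl (h7.tail hxy')
        · exact Or.inr ⟨i', j', h7, h8, h9, h10, h11, h12.tail hxy'⟩
      · refine ⟨t', ht', hev', hPt, hout.tail ⟨hxy.1, hxy.2.1, ?_, hv⟩⟩
        show η _ = true
        rw [← h _ hv]
        exact hxy.2.2
  obtain ⟨t', ht', hev', hPt, hout⟩ := key t hst
  exact hjoin t' ht' t ht hev' hPt hout

/-- Potentials are constant on the clusters of `D`. -/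
theorem pot_InC {u : ℤ × ℤ → ℤ} (hA : A ∈ pcs ω D) (hu : PotD D A u) {s t : ℤ × ℤ}
    (hev : Even (s.1 + s.2)) (h : InC ω D s t) : u s = u t := by
  have key : u s = u t ∧ Even (t.1 + t.2) := by
    induction h with
    | refl => exact ⟨rfl, hev⟩
    | tail _ h1 ih => exact ⟨ih.1.trans (pot_stp hA hu (Or.inl ⟨ih.2, h1⟩)), even_step h1 ih.2⟩
  exact key.1

/-! ### Closed pieces -/

/-- Loops, and strands which are closed by the boundary arcs. -/
def IsCl (D : Finset (ℤ × ℤ)) (q : ZMod n → ℤ × ℤ) (k : ℕ) (A : Finset Ed) : Prop :=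
  IsLp D A ∨ ∃ x y, IsXY q A x y ∧ Cl k x y

open Classical in
/-- The number of closed pieces. -/
noncomputable def NC (ω : Cfg) (D : Finset (ℤ × ℤ)) (q : ZMod n → ℤ × ℤ) (k : ℕ) : ℕ :=
  ((pcs ω D).filter fun A => IsCl D q k A).card

section

variable (hq : IsPolygon q) (hD : Encloses q D)
include hq hD

theorem isCl_strand (hA : A ∈ pcs ω D) (hl : ¬ IsLp D A) {x y : ℕ} (h : IsXY q A x y) :
    IsCl D q k A ↔ Cl k x y := by
  constructor
  · rintro (h1 | ⟨x', y', h1, h2⟩)
    · exact absurd h1 hl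
    · obtain ⟨rfl, rfl⟩ := h.unique hq hD hA h1
      exact h2
  · intro h1
    exact Or.inr ⟨x, y, h, h1⟩

/-- A loop which is added to a piece does not matter. -/
theorem isCl_union (hA : A ∈ pcs ω D) (hl : IsLp D A) : IsCl D q k (A ∪ B) ↔ IsCl D q k B := by
  have h1 : ∀ z : ℕ, be q z ∉ A := by
    intro z hz
    rcases be_bd hq hD z with ⟨_, h2⟩ | ⟨_, h2⟩
    · exact h2 (hl.tl hA hz)
    · exact h2 (hl _ hz)
  unfold IsCl
  refine or_congr ?_ ?_
  · constructor
    · exact fun h e he => h e (Finset.mem_union_right _ he)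
    · intro h e he
      rcases Finset.mem_union.1 he with h2 | h2
      · exact hl e h2
      · exact h e h2
  · refine exists_congr fun x => exists_congr fun y => and_congr_left fun _ => ?_
    unfold IsXY
    rw [Finset.mem_union, Finset.mem_union]
    have := h1 x
    have := h1 y
    tauto

omit hq hD in
theorem NC_decomp (ha : a ∈ D) [DecidablePred fun A => IsCl D q k A] :
    NC ω D q k = ((rest ω D a).filter fun A => IsCl D q k A).card +
      (({piece ω D (ia a), piece ω D (ib a)} : Finset (Finset Ed)).filter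
        fun A => IsCl D q k A).card := by
  classical
  unfold NC
  rw [← Finset.card_union_of_disjoint
    (Finset.disjoint_filter_filter (rest_disj ha)), ← Finset.filter_union, ← pcs_decomp ha]
  congr!

theorem NC_one (h : Flp ω ω' D a) (h1 : One ω ω' D a) : NC ω' D q k = NC ω D q k + 1 := by
  classical
  obtain ⟨h2, h3, h4⟩ := h1
  have hA' := piece_mem_pcs (ω := ω') (ia_mem h.mem)
  have hB' := piece_mem_pcs (ω := ω') (ib_mem h.mem)
  have hU := h.union_eq
  rw [← h2, Finset.union_self] at hU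
  rw [NC_decomp h.mem, NC_decomp h.mem, h.rest_eq, ← h2, Finset.pair_eq_singleton,
    Finset.filter_singleton, Finset.filter_insert, Finset.filter_singleton]
  rcases h4 with h4 | h4
  · have h5 : IsCl D q k (piece ω' D (ia a)) := Or.inl h4
    have h6 := isCl_union (k := k) (B := piece ω' D (ib a)) hq hD hA' h4
    rw [hU] at h6
    rw [if_pos h5]
    by_cases h7 : IsCl D q k (piece ω D (ia a))
    · rw [if_pos h7, if_pos (h6.1 h7), Finset.card_singleton, Finset.card_pair h3]
    · rw [if_neg h7, if_neg (fun h8 => h7 (h6.2 h8)), Finset.card_empty]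
      simp
  · have h5 : IsCl D q k (piece ω' D (ib a)) := Or.inl h4
    have h6 := isCl_union (k := k) (B := piece ω' D (ia a)) hq hD hB' h4
    rw [Finset.union_comm, hU] at h6
    rw [if_pos h5]
    by_cases h7 : IsCl D q k (piece ω D (ia a))
    · rw [if_pos h7, if_pos (h6.1 h7), Finset.card_singleton, Finset.card_pair h3]
    · rw [if_neg h7, if_neg (fun h8 => h7 (h6.2 h8)), Finset.card_singleton, Finset.card_empty]

/-- The change of the numbers of loops in the plane and of closed pieces of `D` is the same. -/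
theorem flip_eq (hk : k ≤ n) (hη : Dob η D q k) (hω : ∀ v ∉ D, ω v = η v) (hG : Good ω)
    (ha : a ∈ D) (h0 : ω a = false) :
    LD D (Function.update ω a true) + NC ω D q k =
      LD D ω + NC (Function.update ω a true) D q k := by
  classical
  obtain ⟨f1, f2⟩ := f_flip D ω a hG ha h0
  set ω' := Function.update ω a true with hω'
  have hF : Flp ω ω' D a := flp_update D ha h0
  have hpA := piece_mem_pcs (ω := ω) (ia_mem ha)
  have hpB := piece_mem_pcs (ω := ω) (ib_mem ha)
  have hsa := self_mem_piece (ω := ω) (ia_mem ha)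
  have hsb := self_mem_piece (ω := ω) (ib_mem ha)
  rcases hF.trichotomy with h1 | h1 | h1
  · -- one piece of `ω`
    have h2 := NC_one (k := k) hq hD hF h1
    have h3 : PC ω (pa a) (pb a) := by
      rw [← ls_ia, ← ls_ib]
      exact PC_piece hpA hsa (by rw [h1.1]; exact hsb)
    have := f1 h3
    omega
  · -- one piece of `ω'`
    have h2 := NC_one (k := k) hq hD hF.symm h1
    have h3 : ¬ PC ω (pa a) (pb a) := by
      intro hPC
      rcases h1.2.2 with h4 | h4
      · have h5 := IsLp.isLoop hpA h4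
        have h6 := (same_loop_iff h5 h0 hsa).2 hPC
        exact h1.2.1 (eq_of_mem_pcs hpA hpB h6 hsb)
      · have h5 := IsLp.isLoop hpB h4
        obtain ⟨ℓ, hℓ, haℓ⟩ := hG (ia a)
        have h6 := (same_loop_iff hℓ h0 haℓ).2 hPC
        have h7 : ℓ = piece ω D (ib a) := hℓ.eq_of_mem h5 h6 hsb
        rw [h7] at haℓ
        exact h1.2.1 (eq_of_mem_pcs hpA hpB hsa haℓ)
    have := f2 h3
    omega
  · -- four strands
    obtain ⟨g₁, g₂, f₁, f₂, hg1, hg2, hf1, hf2, hgne, hfne, m1, m2, m3, m4, m5, m6, m7, m8⟩ := h1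
    have hpA' := piece_mem_pcs (ω := ω') (ia_mem ha)
    have hpB' := piece_mem_pcs (ω := ω') (ib_mem ha)
    have hin : ∀ {g : Ed} {X : Finset Ed} {w : Cfg}, X ∈ pcs w D → g ∈ X → tlv g ∉ D →
        ∃ x : ℕ, x < n ∧ be q x = g ∧ Even ((q x).1 + (q x).2) := fun hX hg hgt =>
      exists_in hq hD ((mem_eds.1 (subset_eds hX hg)).resolve_right hgt) hgt
    have hout : ∀ {g : Ed} {X : Finset Ed} {w : Cfg}, X ∈ pcs w D → g ∈ X → hdv g ∉ D →
        ∃ x : ℕ, x < n ∧ be q x = g ∧ ¬ Even ((q x).1 + (q x).2) := fun hX hg hgt =>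
      exists_out hq hD ((mem_eds.1 (subset_eds hX hg)).resolve_left hgt) hgt
    obtain ⟨x₁, hx1, rfl, ex1⟩ := hin hpA m1 hg1
    obtain ⟨x₂, hx2, rfl, ex2⟩ := hin hpB m3 hg2
    obtain ⟨y₁, hy1, rfl, ey1⟩ := hout hpA m2 hf1
    obtain ⟨y₂, hy2, rfl, ey2⟩ := hout hpB m4 hf2
    have i1 : IsXY q (piece ω D (ia a)) x₁ y₁ := ⟨hx1, hy1, m1, m2, ex1, ey1⟩
    have i2 : IsXY q (piece ω D (ib a)) x₂ y₂ := ⟨hx2, hy2, m3, m4, ex2, ey2⟩
    have i3 : IsXY q (piece ω' D (ia a)) x₁ y₂ := ⟨hx1, hy2, m5, m6, ex1, ey2⟩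
    have i4 : IsXY q (piece ω' D (ib a)) x₂ y₁ := ⟨hx2, hy1, m7, m8, ex2, ey1⟩
    have l1 : ¬ IsLp D (piece ω D (ia a)) := fun h => hf1 (h _ m2)
    have l2 : ¬ IsLp D (piece ω D (ib a)) := fun h => hf2 (h _ m4)
    have l3 : ¬ IsLp D (piece ω' D (ia a)) := fun h => hf2 (h _ m6)
    have l4 : ¬ IsLp D (piece ω' D (ib a)) := fun h => hf1 (h _ m8)
    have hne : piece ω D (ia a) ≠ piece ω D (ib a) := by
      intro h
      rw [h] at m1
      exact hgne (entry_unique hpB m1 m3 hg1 hg2)
    have hne' : piece ω' D (ia a) ≠ piece ω' D (ib a) := by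
      intro h
      rw [h] at m5
      exact hgne (entry_unique hpB' m5 m7 hg1 hg2)
    obtain ⟨u, hu⟩ := exists_pot hq hD hpA
    obtain ⟨v, hv⟩ := exists_pot hq hD hpB
    obtain ⟨b1, b2, b3, b4⟩ := facing hq hD hne ha h0 hu i1 i2
    -- the same with the roles exchanged
    have c : ¬ lft x₂ y₂ x₁ ∧ ¬ lft x₂ y₂ y₁ ∧ v (ls (ib a)) = v (rs (be q x₂)) + 1 ∧
        v (ls (ia a)) = v (rs (be q x₂)) := by
      have hnA : ∀ e ∈ piece ω D (ia a), e ∉ piece ω D (ib a) := fun e he he' =>
        hne (eq_of_mem_pcs hpA hpB he he')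
      have e1 := (side_const hpB hv hpB hsb i2.2.2.1).2
      have e2 := pot_closed hpB hv ha h0
      have e3 := hv.eq (ia_mem ha) (hnA _ hsa)
      have e4 := hv.eq_add (ib_mem ha) hsb
      have e5 := (side_const hpB hv hpA hsa i1.2.2.1).1
      have e6 := (side_const hpB hv hpA hsa i1.2.2.2.1).2
      have e7 := pot_lft hq hD hpB hv i2 i1.1.le
      have e8 := pot_lft hq hD hpB hv i2 i1.2.1.le
      have e9 : ls (be q x₁) = q x₁ := (be_even hq hD ex1).1
      have e10 : rs (be q y₁) = q y₁ := (be_odd hq hD ey1).1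
      rw [e9] at e5
      rw [e10] at e6
      refine ⟨fun h => ?_, fun h => ?_, by omega, by omega⟩
      · rw [if_pos h] at e7
        omega
      · rw [if_pos h] at e8
        omega
    obtain ⟨c1, c2, c3, c4⟩ := c
    have hord := order_of i1.ne i2.ne (fun h => hgne (by rw [h])) (fun h => hfne (by rw [h]))
      i3.ne i4.ne b1 b2 c1 c2
    have hch : Chg n k x₁ y₁ x₂ y₂ := arith hord
    -- the numbers of closed pieces
    have hcard : ∀ (X Y : Finset Ed), X ≠ Y → ∀ (s t : Prop) [Decidable s] [Decidable t],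
        (IsCl D q k X ↔ s) → (IsCl D q k Y ↔ t) →
        (({X, Y} : Finset (Finset Ed)).filter fun A => IsCl D q k A).card =
          (if s then 1 else 0) + (if t then 1 else 0) := by
      intro X Y hXY s t _ _ hs ht
      rw [Finset.filter_insert, Finset.filter_singleton]
      by_cases hs' : IsCl D q k X <;> by_cases ht' : IsCl D q k Y
      · rw [if_pos hs', if_pos ht', if_pos (hs.1 hs'), if_pos (ht.1 ht'), Finset.card_pair hXY]
      · rw [if_pos hs', if_neg ht', if_pos (hs.1 hs'), if_neg (fun h => ht' (ht.2 h))]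
        simp
      · rw [if_neg hs', if_pos ht', if_neg (fun h => hs' (hs.2 h)), if_pos (ht.1 ht')]
        simp
      · rw [if_neg hs', if_neg ht', if_neg (fun h => hs' (hs.2 h)),
          if_neg (fun h => ht' (ht.2 h))]
        simp
    have n1 := NC_decomp (ω := ω) (q := q) (k := k) ha
    have n2 := NC_decomp (ω := ω') (q := q) (k := k) ha
    rw [hcard _ _ hne (Cl k x₁ y₁) (Cl k x₂ y₂) (isCl_strand hq hD hpA l1 i1)
      (isCl_strand hq hD hpB l2 i2)] at n1
    rw [hcard _ _ hne' (Cl k x₁ y₂) (Cl k x₂ y₁) (isCl_strand hq hD hpA' l3 i3)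
      (isCl_strand hq hD hpB' l4 i4), ← hF.rest_eq] at n2
    have hsab : pa a ∈ sites D := by rw [← ls_ia]; exact ls_mem_sites (ia_mem ha)
    have hsbb : pb a ∈ sites D := by rw [← ls_ib]; exact ls_mem_sites (ib_mem ha)
    have heva : Even ((pa a).1 + (pa a).2) := by rw [← ls_ia]; exact FK.even_ls _
    rcases hch with ⟨d1, d2, d3⟩ | ⟨d1, d2⟩
    · -- connected through the wired part
      have hends : ∀ (w : Cfg) (X : Finset Ed) (g : Ed) (x y : ℕ), X ∈ pcs w D → g ∈ X →
          IsXY q X x y → (k ≤ x ∨ x = 0 ∨ k ≤ y + 1) → (∀ v ∉ D, w v = η v) →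
          ∃ i : ℕ, k ≤ i ∧ i ≤ n ∧ Even ((q i).1 + (q i).2) ∧ PC w (ls g) (q i) := by
        intro w X g x y hX hg hxy hor hw
        have hls : ls (be q x) = q x := (be_even hq hD hxy.2.2.2.2.1).1
        have hls' : ls (be q y) = q ((y : ZMod n) + 1) := (be_odd hq hD hxy.2.2.2.2.2).2.1
        have p1 := PC_piece hX hg hxy.2.2.1
        have p2 := PC_piece hX hg hxy.2.2.2.1
        rw [hls] at p1
        rcases hor with h | h | h
        · exact ⟨x, h, hxy.1.le, hxy.2.2.2.2.1, p1⟩
        · refine ⟨n, hk, le_rfl, ?_, ?_⟩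
          · have := hxy.2.2.2.2.1
            rw [h] at this
            simpa using this
          · rw [h] at p1
            simpa using p1
        · refine ⟨y + 1, h, hxy.2.1, ?_, ?_⟩
          · have := FK.even_ls (be q y)
            rw [hls'] at this
            push_cast
            exact this
          · rw [hls'] at p2
            push_cast
            exact p2
      obtain ⟨i, hi1, hi2, hi3, hi4⟩ := hends ω _ (ia a) x₁ y₁ hpA hsa i1 d2 hω
      obtain ⟨j, hj1, hj2, hj3, hj4⟩ := hends ω _ (ib a) x₂ y₂ hpB hsb i2 d3 hω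
      have hsymm : ∀ {s t : ℤ × ℤ}, PC ω s t → PC ω t s := by
        intro s t h
        unfold PC at h ⊢
        induction h with
        | refl => exact ReflTransGen.refl
        | tail _ h1 ih => exact ReflTransGen.head h1.symm ih
      have hPC : PC ω (pa a) (pb a) := by
        rw [← ls_ia, ← ls_ib]
        exact (hi4.trans ((hη.join i j hi1 hi2 hj1 hj2 hi3 hj3).PC hω)).trans (hsymm hj4)
      have := f1 hPC
      omega
    · -- not connected
      have hPC : ¬ PC ω (pa a) (pb a) := by
        intro hPC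
        rcases PC_split hη hω hsab hsbb heva hPC with h5 | ⟨i, j, hi1, hi2, hj1, hj2, h5, h6⟩
        · have h6 := pot_InC hpA hu heva h5
          rw [← ls_ia, ← ls_ib] at h6
          omega
        · have h7 := pot_InC hpA hu heva h5
          have hevj : Even ((q j).1 + (q j).2) := by
            have h8 : ∀ x y, InC ω D x y → Even (y.1 + y.2) → Even (x.1 + x.2) := by
              intro x y hxy
              induction hxy with
              | refl => exact fun h => h
              | tail _ h1 ih =>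
                intro h2
                refine ih ?_
                exact even_step h1.symm h2
            have hevb : Even ((pb a).1 + (pb a).2) := by rw [← ls_ib]; exact FK.even_ls _
            exact h8 _ _ h6 hevb
          have h8 := pot_InC hpB hv hevj h6
          rw [← ls_ia] at h7
          rw [← ls_ib] at h8
          have h9 := pot_lft hq hD hpA hu i1 hi2
          have h10 := pot_lft hq hD hpB hv i2 hj2
          have k1 : lft x₁ y₁ i := by
            by_contra h11
            rw [if_neg h11] at h9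
            omega
          have k2 : lft x₂ y₂ j := by
            by_contra h11
            rw [if_neg h11] at h10
            omega
          exact d2 i j hi1 hi2 hj1 hj2 k1 k2
      have := f2 hPC
      omega

/-- The number of the loops of the plane which visit `D` and the number of the closed pieces. -/
theorem LD_eq (hk : k ≤ n) (hη : Dob η D q k) (S : Finset (ℤ × ℤ)) :
    LD D (cf D η S) + NC (cf D η ∅) D q k = LD D (cf D η ∅) + NC (cf D η S) D q k := by
  classical
  induction S using Finset.induction_on with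
  | empty => rfl
  | insert v S hvS ih =>
    by_cases hv : v ∈ D
    · have h1 : cf D η (insert v S) = Function.update (cf D η S) v true := by
        funext w
        by_cases hw : w = v
        · subst hw
          rw [Function.update_self]
          unfold cf
          rw [if_pos hv]
          simp
        · rw [Function.update_of_ne hw]
          unfold cf
          by_cases hwD : w ∈ D
          · rw [if_pos hwD, if_pos hwD]
            simp [Finset.mem_insert, hw]
          · rw [if_neg hwD, if_neg hwD]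
      have h2 : cf D η S v = false := by
        unfold cf
        rw [if_pos hv]
        simpa using hvS
      have h3 := flip_eq (ω := cf D η S) hq hD hk hη
        (fun w hw => by unfold cf; rw [if_neg hw]) (good_cf D hη.good S) hv h2
      rw [← h1] at h3
      omega
    · have h1 : cf D η (insert v S) = cf D η S := by
        funext w
        unfold cf
        by_cases hwD : w ∈ D
        · rw [if_pos hwD, if_pos hwD]
          have : w ≠ v := fun h => hv (h ▸ hwD)
          simp [Finset.mem_insert, this]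
        · rw [if_neg hwD, if_neg hwD]
      rw [h1]
      exact ih

open Classical in
/-- **The product form of the weights.** -/
theorem pow_LD (hk : k ≤ n) (hη : Dob η D q k) {Q : ℝ} (hQ : 0 < Q) : ∃ c : ℝ, 0 < c ∧
    ∀ S, Q ^ LD D (cf D η S) =
      c * ∏ A ∈ pcs (cf D η S) D, if IsCl D q k A then Q else 1 := by
  refine ⟨Q ^ LD D (cf D η ∅) / Q ^ NC (cf D η ∅) D q k, by positivity, fun S => ?_⟩
  have h1 := LD_eq hq hD hk hη S
  have h2 : (∏ A ∈ pcs (cf D η S) D, if IsCl D q k A then Q else 1) =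
      Q ^ NC (cf D η S) D q k := by
    rw [Finset.prod_ite, Finset.prod_const, Finset.prod_const_one, mul_one]
    rfl
  rw [h2, div_mul_eq_mul_div, eq_div_iff (by positivity), ← pow_add, ← pow_add, h1]

open Classical in
/-- **The random-cluster measure with Dobrushin boundary conditions**: the expectation of a function
of the configuration. -/
theorem Ex_eq (hk : k ≤ n) (hη : Dob η D q k) {Q : ℝ} (hQ : 0 < Q) (F : Cfg → ℝ) :
    Ex Q D η F =
      (∑ S ∈ D.powerset, (∏ A ∈ pcs (cf D η S) D, if IsCl D q k A then Q else 1) *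
        F (cf D η S)) /
      ∑ S ∈ D.powerset, ∏ A ∈ pcs (cf D η S) D, if IsCl D q k A then Q else 1 := by
  obtain ⟨c, hc, h⟩ := pow_LD hq hD hk hη hQ
  unfold Ex Zq
  simp only [h]
  rw [← Finset.mul_sum]
  have h1 : ∀ S ∈ D.powerset, (c * ∏ A ∈ pcs (cf D η S) D, if IsCl D q k A then Q else 1) *
      F (cf D η S) = c * ((∏ A ∈ pcs (cf D η S) D, if IsCl D q k A then Q else 1) *
        F (cf D η S)) := fun S _ => by ring
  rw [Finset.sum_congr rfl h1, ← Finset.mul_sum, mul_div_mul_left _ _ hc.ne']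

end

end Vale.Agent.P167.H718
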