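import Vale.Agent.P167.Final.Question
import Vale.Agent.P167.H192.Dict2
import Vale.Agent.P167.FK.Flip
import Vale.Agent.P167.H519.RcMerge

/-!
# P167, general `q`: the Dobrushin random-cluster measure of a polygon is a loop measure of the plane

* `wE p k`: the edges of the wired arc `p k, …, p (n - 1)`;
* `Dq S p k`: the squares of the edges of the domain which are not in the wired arc;
* `etaQ p k`: the configuration of the plane where exactly the edges of the wired arc are open;
* `mean_eq_Ex`: the mean of a function of the open edges together with the wired arc under the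
  random-cluster measure of `Final.Question` is `FK.Ex (√q) (Dq S p k) (etaQ p k)`.
-/

namespace Vale.Agent.P167.H718

open Finset Relation Vale.Agent.P167.H192 Vale.Agent.P167.FK
open Vale.Agent.P145.FB (PStep)
open Vale.Agent.P167.E6 (wiredOpen edges Encloses IsPolygon dir face)
open Vale.Agent.P167.H519 (card_same card_merge)

variable {n : ℕ} {p : ZMod n → ℤ × ℤ} {k : ℕ} {S : Finset (ℤ × ℤ)}

/-- the edges of the wired arc -/
def wE (p : ZMod n → ℤ × ℤ) (k : ℕ) : Finset (Sym2 (ℤ × ℤ)) :=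
  (Finset.Ico k (n - 1)).image fun i : ℕ => s(p i, p (i + 1))

theorem mem_wE {e : Sym2 (ℤ × ℤ)} :
    e ∈ wE p k ↔ ∃ i : ℕ, k ≤ i ∧ i + 1 < n ∧ e = s(p i, p (i + 1)) := by
  unfold wE
  rw [Finset.mem_image]
  constructor
  · rintro ⟨i, hi, rfl⟩
    rw [Finset.mem_Ico] at hi
    exact ⟨i, hi.1, by omega, rfl⟩
  · rintro ⟨i, h1, h2, rfl⟩
    exact ⟨i, Finset.mem_Ico.2 ⟨h1, by omega⟩, rfl⟩

theorem mem_wiredOpen {A : Finset (Sym2 (ℤ × ℤ))} {e : Sym2 (ℤ × ℤ)} :
    e ∈ wiredOpen p k A ↔ e ∈ A ∨ e ∈ wE p k := by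
  rw [mem_wE]
  rfl

/-- the squares of the edges which are not in the wired arc -/
def Dq (S : Finset (ℤ × ℤ)) (p : ZMod n → ℤ × ℤ) (k : ℕ) : Finset (ℤ × ℤ) :=
  (edges S \ wE p k).image sq

/-- the edges of the wired arc are open -/
noncomputable def etaQ (p : ZMod n → ℤ × ℤ) (k : ℕ) : Cfg :=
  cfg ((wE p k : Finset (Sym2 (ℤ × ℤ))) : Set (Sym2 (ℤ × ℤ)))

theorem mem_Dq {e : Sym2 (ℤ × ℤ)} (he : IsEdge e) : sq e ∈ Dq S p k ↔ e ∈ edges S ∧ e ∉ wE p k := by
  unfold Dq
  rw [Finset.mem_image]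
  constructor
  · rintro ⟨e', h1, h2⟩
    rw [Finset.mem_sdiff] at h1
    rw [← sq_inj (isEdge_edges h1.1) he h2]
    exact h1
  · rintro ⟨h1, h2⟩
    exact ⟨e, Finset.mem_sdiff.2 ⟨h1, h2⟩, rfl⟩

theorem mem_Dq' {v : ℤ × ℤ} : v ∈ Dq S p k ↔ ed v ∈ edges S ∧ ed v ∉ wE p k := by
  rw [← mem_Dq (isEdge_ed v), sq_ed]

theorem good_of_finite (O : Finset (Sym2 (ℤ × ℤ))) :
    Good (cfg ((O : Finset (Sym2 (ℤ × ℤ))) : Set (Sym2 (ℤ × ℤ)))) := by
  classical
  have h : cfg ((O : Finset (Sym2 (ℤ × ℤ))) : Set (Sym2 (ℤ × ℤ))) =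
      cf (O.image sq) eta0 ((O.image sq).filter fun v => ed v ∈ O) := by
    funext v
    unfold cf
    by_cases hv : v ∈ O.image sq
    · rw [if_pos hv, Bool.eq_iff_iff, cfg_true, decide_eq_true_iff, Finset.mem_filter,
        Finset.mem_coe]
      exact ⟨fun h => ⟨hv, h⟩, fun h => h.2⟩
    · rw [if_neg hv, Bool.eq_iff_iff, cfg_true]
      constructor
      · intro h
        exact absurd (Finset.mem_image.2 ⟨ed v, Finset.mem_coe.1 h, sq_ed v⟩) hv
      · intro h
        exact absurd h (by simp [eta0])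
  rw [h]
  exact good_cf _ good_eta0 _

theorem good_etaQ : Good (etaQ p k) := good_of_finite _

/-- the configuration of the plane -/
theorem cf_eq {B : Finset (Sym2 (ℤ × ℤ))} (hB : B ⊆ edges S \ wE p k) :
    cf (Dq S p k) (etaQ p k) (B.image sq) = cfg (wiredOpen p k B) := by
  classical
  funext v
  unfold cf
  by_cases hv : v ∈ Dq S p k
  · rw [if_pos hv, Bool.eq_iff_iff, cfg_true, decide_eq_true_iff, mem_wiredOpen]
    have h1 := mem_Dq'.1 hv
    constructor
    · intro h
      obtain ⟨e, he, rfl⟩ := Finset.mem_image.1 h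
      rw [ed_sq (isEdge_edges (Finset.mem_sdiff.1 (hB he)).1)]
      exact Or.inl he
    · rintro (h | h)
      · exact Finset.mem_image.2 ⟨ed v, h, sq_ed v⟩
      · exact absurd h h1.2
  · rw [if_neg hv, Bool.eq_iff_iff]
    unfold etaQ
    rw [cfg_true, cfg_true, mem_wiredOpen, Finset.mem_coe]
    constructor
    · exact Or.inr
    · rintro (h | h)
      · have h1 := Finset.mem_sdiff.1 (hB h)
        exact absurd (mem_Dq'.2 h1) hv
      · exact h

/-! ### the polygon -/

theorem face_edge {v : ℤ × ℤ} {r : Fin 4} (h : face v r ∈ S) : s(v, v + dir r) ∈ edges S := by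
  unfold edges
  rw [Finset.mem_biUnion]
  refine ⟨_, h, ?_⟩
  simp only [Finset.mem_insert, Finset.mem_singleton, Sym2.eq_iff]
  obtain ⟨a, b⟩ := v
  rcases fin4_cases r with rfl | rfl | rfl | rfl
  · simp [face, dir]
  · simp only [face, dir]
    right; right; left; left
    constructor <;> ext <;> simp
  · simp only [face, dir]
    right; right; right; right
    constructor <;> ext <;> simp
  · simp only [face, dir]
    right; left; right
    constructor <;> ext <;> simp

theorem poly_edge (hp : IsPolygon p) (hE : Encloses p S) (i : ZMod n) :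
    s(p i, p (i + 1)) ∈ edges S := by
  obtain ⟨r, hr⟩ := hp.2.2 i
  rw [hr]
  exact face_edge ((hE (p i) r).1 ⟨i, rfl, hr⟩).1

theorem wE_sub (hp : IsPolygon p) (hE : Encloses p S) : wE p k ⊆ edges S := by
  intro e he
  obtain ⟨i, -, -, rfl⟩ := mem_wE.1 he
  exact poly_edge hp hE i

theorem ends_verts {u v : ℤ × ℤ} (h : s(u, v) ∈ edges S) :
    u ∈ Final.verts S ∧ v ∈ Final.verts S := by
  unfold edges at h
  unfold Final.verts
  rw [Finset.mem_biUnion] at h ⊢
  rw [Finset.mem_biUnion]
  obtain ⟨f, hf, h⟩ := h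
  simp only [Finset.mem_insert, Finset.mem_singleton, Sym2.eq_iff] at h
  refine ⟨⟨f, hf, ?_⟩, ⟨f, hf, ?_⟩⟩ <;>
  · simp only [Finset.mem_insert, Finset.mem_singleton]
    tauto

/-- the graph with the open edges `B` and the wired arc -/
noncomputable def gr (S : Finset (ℤ × ℤ)) (p : ZMod n → ℤ × ℤ) (k : ℕ)
    (B : Finset (Sym2 (ℤ × ℤ))) :
    SimpleGraph ((Final.verts S : Finset (ℤ × ℤ)) : Set (ℤ × ℤ)) :=
  (SimpleGraph.fromEdgeSet (wiredOpen p k B)).induce
    ((Final.verts S : Finset (ℤ × ℤ)) : Set (ℤ × ℤ))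

theorem clusters_eq (B : Finset (Sym2 (ℤ × ℤ))) :
    Final.clusters p k S B = Nat.card (gr S p k B).ConnectedComponent := rfl

theorem open_sub (hp : IsPolygon p) (hE : Encloses p S) {B : Finset (Sym2 (ℤ × ℤ))}
    (hB : B ⊆ edges S) {e : Sym2 (ℤ × ℤ)} (he : e ∈ wiredOpen p k B) : e ∈ edges S := by
  rcases mem_wiredOpen.1 he with h | h
  · exact hB h
  · exact wE_sub hp hE h

theorem reach_iff (hp : IsPolygon p) (hE : Encloses p S) {B : Finset (Sym2 (ℤ × ℤ))}
    (hB : B ⊆ edges S) (x y : ((Final.verts S : Finset (ℤ × ℤ)) : Set (ℤ × ℤ))) :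
    (gr S p k B).Reachable x y ↔ PC (cfg (wiredOpen p k B)) (ro x) (ro y) := by
  have hO : ∀ e ∈ wiredOpen p k B, IsEdge e := fun e he => isEdge_edges (open_sub hp hE hB he)
  unfold PC
  rw [← reachable_iff hO]
  constructor
  · intro h
    exact h.map (SimpleGraph.Embedding.induce _).toHom
  · intro h
    rw [SimpleGraph.reachable_iff_reflTransGen] at h
    have key : ∀ w, ReflTransGen (SimpleGraph.fromEdgeSet (wiredOpen p k B)).Adj x.1 w →
        ∃ hw : w ∈ ((Final.verts S : Finset (ℤ × ℤ)) : Set (ℤ × ℤ)),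
          (gr S p k B).Reachable x ⟨w, hw⟩ := by
      intro w hw
      induction hw with
      | refl => exact ⟨x.2, SimpleGraph.Reachable.refl _⟩
      | @tail a b _ hab ih =>
        obtain ⟨ha, ih⟩ := ih
        have h1 : s(a, b) ∈ wiredOpen p k B := ((SimpleGraph.fromEdgeSet_adj _).1 hab).1
        have h2 := (ends_verts (open_sub hp hE hB h1)).2
        exact ⟨Finset.mem_coe.2 h2, ih.trans (SimpleGraph.Adj.reachable (by exact hab))⟩
    obtain ⟨_, h3⟩ := key _ h
    exact h3

theorem ends (v : ℤ × ℤ) : (ro (ea v) = pa v ∧ ro (eb v) = pb v) ∨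
    (ro (ea v) = pb v ∧ ro (eb v) = pa v) := by
  by_cases h : Even (v.1 + v.2)
  · left
    have h' := h
    rw [Int.even_iff] at h'
    simp only [ro, ea, eb, FK.pa, FK.pb, h, if_true]
    constructor <;> ext <;> dsimp only <;> omega
  · right
    have h' := h
    rw [Int.even_iff] at h'
    simp only [ro, ea, eb, FK.pa, FK.pb, h, if_false]
    constructor <;> ext <;> dsimp only <;> omega

theorem PC_symm {ω : Cfg} {s t : ℤ × ℤ} (h : PC ω s t) : PC ω t s := by
  have hs : ∀ a b, PStep (op ω) a b → PStep (op ω) b a := by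
    rintro a b ⟨h1, h2, h3⟩
    refine ⟨by omega, by omega, ?_⟩
    rw [min_comm, min_comm b.2 a.2]
    exact h3
  unfold PC at h ⊢
  induction h with
  | refl => exact ReflTransGen.refl
  | tail _ h1 ih => exact ReflTransGen.head (hs _ _ h1) ih

/-- the number of loops and the number of components -/
theorem LD_k (hp : IsPolygon p) (hE : Encloses p S) (B : Finset (Sym2 (ℤ × ℤ)))
    (hB : B ⊆ edges S \ wE p k) :
    LD (Dq S p k) (cfg (wiredOpen p k B)) + 2 * Final.clusters p k S ∅ =
      LD (Dq S p k) (cfg (wiredOpen p k ∅)) + 2 * Final.clusters p k S B + B.card := by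
  classical
  induction B using Finset.induction_on with
  | empty => simp
  | insert e B heB ih =>
    have hB' : B ⊆ edges S \ wE p k := fun v hv => hB (Finset.mem_insert_of_mem hv)
    have heD : e ∈ edges S \ wE p k := hB (Finset.mem_insert_self _ _)
    specialize ih hB'
    have he1 : e ∈ edges S := (Finset.mem_sdiff.1 heD).1
    have he2 : e ∉ wE p k := (Finset.mem_sdiff.1 heD).2
    have heE : IsEdge e := isEdge_edges he1
    have hBe : B ⊆ edges S := fun v hv => (Finset.mem_sdiff.1 (hB' hv)).1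
    set a := sq e with ha
    have hed : s(ea a, eb a) = e := ed_sq heE
    have hvs := ends_verts (S := S) (u := ea a) (v := eb a) (by rw [hed]; exact he1)
    set x : ((Final.verts S : Finset (ℤ × ℤ)) : Set (ℤ × ℤ)) := ⟨ea a, hvs.1⟩ with hx
    set y : ((Final.verts S : Finset (ℤ × ℤ)) : Set (ℤ × ℤ)) := ⟨eb a, hvs.2⟩ with hy
    have hne : ea a ≠ eb a := by
      intro h
      obtain ⟨v, r, hv⟩ := heE
      rw [← hed, h, Sym2.eq_iff] at hv
      have h5 : v = v + dir r := by
        rcases hv with ⟨h1, h2⟩ | ⟨h1, h2⟩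
        · exact h1.symm.trans h2
        · exact h2.symm.trans h1
      rcases dir_cases r with h6 | h6 | h6 | h6 <;> rw [h6] at h5 <;>
        have h7 := congrArg Prod.fst h5 <;> have h8 := congrArg Prod.snd h5 <;> simp at h7 h8
    have hadj : ∀ u v, (gr S p k (insert e B)).Adj u v ↔
        (gr S p k B).Adj u v ∨ (u = x ∧ v = y) ∨ (u = y ∧ v = x) := by
      intro u v
      have hxy : x ≠ y := fun h => hne (congrArg Subtype.val h)
      have hA : ∀ (B' : Finset (Sym2 (ℤ × ℤ))), (gr S p k B').Adj u v ↔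
          (s(u.1, v.1) ∈ B' ∨ s(u.1, v.1) ∈ wE p k) ∧ u.1 ≠ v.1 := by
        intro B'
        rw [← mem_wiredOpen, ← SimpleGraph.fromEdgeSet_adj]
        rfl
      rw [hA, hA, Finset.mem_insert]
      constructor
      · rintro ⟨(h1 | h1) | h1, h2⟩
        · rw [← hed, Sym2.eq_iff] at h1
          rcases h1 with ⟨h3, h4⟩ | ⟨h3, h4⟩
          · exact Or.inr (Or.inl ⟨Subtype.ext h3, Subtype.ext h4⟩)
          · exact Or.inr (Or.inr ⟨Subtype.ext h3, Subtype.ext h4⟩)
        · exact Or.inl ⟨Or.inl h1, h2⟩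
        · exact Or.inl ⟨Or.inr h1, h2⟩
      · rintro (⟨h1 | h1, h2⟩ | ⟨rfl, rfl⟩ | ⟨rfl, rfl⟩)
        · exact ⟨Or.inl (Or.inr h1), h2⟩
        · exact ⟨Or.inr h1, h2⟩
        · exact ⟨Or.inl (Or.inl hed), hne⟩
        · exact ⟨Or.inl (Or.inl (by rw [Sym2.eq_swap]; exact hed)), hne.symm⟩
    have hgood : Good (cfg (wiredOpen p k B)) := by
      rw [← cf_eq hB']
      exact good_cf _ good_etaQ _
    have haD : a ∈ Dq S p k := (mem_Dq heE).2 ⟨he1, he2⟩
    have hfalse : cfg (wiredOpen p k B) a = false := by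
      rw [← Bool.not_eq_true, cfg_true, ha, ed_sq heE, mem_wiredOpen]
      tauto
    have hup : Function.update (cfg (wiredOpen p k B)) a true = cfg (wiredOpen p k (insert e B)) := by
      funext v
      by_cases hv : v = a
      · rw [hv, Function.update_self, eq_comm, cfg_true, ha, ed_sq heE, mem_wiredOpen]
        exact Or.inl (Finset.mem_insert_self _ _)
      · rw [Function.update_of_ne hv, Bool.eq_iff_iff, cfg_true, cfg_true, mem_wiredOpen,
          mem_wiredOpen, Finset.mem_insert]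
        have h1 : ed v ≠ e := by
          intro h
          exact hv (by rw [ha, ← h, sq_ed])
        tauto
    obtain ⟨f1, f2⟩ := f_flip (Dq S p k) (cfg (wiredOpen p k B)) a hgood haD hfalse
    rw [hup] at f1 f2
    have hpc : (gr S p k B).Reachable x y ↔ PC (cfg (wiredOpen p k B)) (FK.pa a) (FK.pb a) := by
      rw [reach_iff hp hE hBe x y]
      rcases ends a with ⟨h1, h2⟩ | ⟨h1, h2⟩
      · rw [hx, hy, h1, h2]
      · rw [hx, hy, h1, h2]
        exact ⟨PC_symm, PC_symm⟩
    rw [Finset.card_insert_of_notMem heB]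
    by_cases hr : (gr S p k B).Reachable x y
    · have h1 := f1 (hpc.1 hr)
      have h2 : Final.clusters p k S (insert e B) = Final.clusters p k S B := card_same hadj hr
      omega
    · have h1 := f2 fun h => hr (hpc.2 h)
      have h2 : Final.clusters p k S (insert e B) + 1 = Final.clusters p k S B :=
        card_merge hadj hr
      omega

end Vale.Agent.P167.H718
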