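import Vale.Agent.P167.H718.Rc2

/-!
# P167, general `q`: the interface depends only on the open edges outside of the wired arc
-/

namespace Vale.Agent.P167.H718

open Finset Relation Vale.Agent.P167.H192 Vale.Agent.P167.FK
open Vale.Agent.P167.E6 (wiredOpen edges Encloses IsPolygon dir face IsInterface Medial)

variable {n : ℕ} {p : ZMod n → ℤ × ℤ} {k : ℕ} {S : Finset (ℤ × ℤ)} {q δ : ℝ}

theorem dir_inj {r s : Fin 4} (h : dir r = dir s) : r = s := by
  rcases fin4_cases r with rfl | rfl | rfl | rfl <;> rcases fin4_cases s with rfl | rfl | rfl | rfl <;>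
    first | rfl | (exfalso; simp [dir] at h)

/-- the interface is determined by the open edges together with the wired arc -/
theorem interface_congr {A A' : Finset (Sym2 (ℤ × ℤ))} {γ γ' : C(unitInterval, ℂ)}
    (h : wiredOpen p k A = wiredOpen p k A') (h1 : IsInterface p k δ A γ)
    (h2 : IsInterface p k δ A' γ') : γ = γ' := by
  obtain ⟨m, c, _, hc0, hc1, hc2, hc3, hc4, hc5, hc6⟩ := h1
  obtain ⟨m', c', _, hd0, hd1, hd2, hd3, hd4, hd5, hd6⟩ := h2
  have h0 : c 0 = c' 0 := by
    refine Prod.ext (hc0.trans hd0.symm) ?_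
    have h3 : dir ((c 0).2 + 1) = dir ((c' 0).2 + 1) := add_left_cancel (hc1.trans hd1.symm)
    exact add_right_cancel (dir_inj h3)
  have hcc : ∀ j, c j = c' j := by
    intro j
    induction j with
    | zero => exact h0
    | succ j ih => rw [hc2, hd2, ih, h]
  have hm : m = m' := by
    have h3 := hc3 (m' + 1) (by omega) ⟨by rw [hcc]; exact hd4, by rw [hcc]; exact hd5⟩
    have h4 := hd3 (m + 1) (by omega) ⟨by rw [← hcc]; exact hc4, by rw [← hcc]; exact hc5⟩
    omega
  ext t
  rw [hc6 t, hd6 t, hm, funext hcc]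

/-- **The law of the interface under the random-cluster measure, in the loop model of the
plane.** -/
theorem interface_mean (hq : 0 < q) (hp : IsPolygon p) (hE : Encloses p S)
    (η : Finset (Sym2 (ℤ × ℤ)) → C(unitInterval, ℂ))
    (hη : ∀ A ⊆ edges S, IsInterface p k δ A (η A)) (F : C(unitInterval, ℂ) → ℝ) :
    Final.mean q p k S (fun A => F (η A)) =
      Ex (√q) (Dq S p k) (etaQ p k) fun ω => F (η (As S ω \ wE p k)) := by
  refine mean_eq_Ex' hq hp hE (fun A => F (η A)) fun A hA => ?_
  show F (η A) = F (η (A \ wE p k))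
  rw [interface_congr (wiredOpen_sdiff A).symm (hη A hA)
    (hη _ (Finset.sdiff_subset.trans hA))]

end Vale.Agent.P167.H718
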