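import Vale.Agent.P167.H718.Rc

/-!
# P167, general `q`: the Dobrushin random-cluster measure as a loop measure, part 2
-/

namespace Vale.Agent.P167.H718

open Finset Relation Vale.Agent.P167.H192 Vale.Agent.P167.FK
open Vale.Agent.P145.FB (PStep)
open Vale.Agent.P167.E6 (wiredOpen edges Encloses IsPolygon dir face)

variable {n : ℕ} {p : ZMod n → ℤ × ℤ} {k : ℕ} {S : Finset (ℤ × ℤ)} {q : ℝ}

theorem wiredOpen_union {B C : Finset (Sym2 (ℤ × ℤ))} (hC : C ⊆ wE p k) :
    wiredOpen p k (B ∪ C) = wiredOpen p k B := by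
  ext e
  rw [mem_wiredOpen, mem_wiredOpen, Finset.mem_union]
  constructor
  · rintro ((h | h) | h)
    · exact Or.inl h
    · exact Or.inr (hC h)
    · exact Or.inr h
  · rintro (h | h)
    · exact Or.inl (Or.inl h)
    · exact Or.inr h

theorem wiredOpen_sdiff (A : Finset (Sym2 (ℤ × ℤ))) :
    wiredOpen p k (A \ wE p k) = wiredOpen p k A := by
  ext e
  rw [mem_wiredOpen, mem_wiredOpen, Finset.mem_sdiff]
  tauto

theorem clusters_congr {A B : Finset (Sym2 (ℤ × ℤ))} (h : wiredOpen p k A = wiredOpen p k B) :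
    Final.clusters p k S A = Final.clusters p k S B := by
  have h' : Final.wiredOpen p k A = Final.wiredOpen p k B := h
  unfold Final.clusters
  rw [h']

/-- the weight of the edges outside of the wired arc -/
noncomputable def wB (q : ℝ) (p : ZMod n → ℤ × ℤ) (k : ℕ) (S : Finset (ℤ × ℤ))
    (B : Finset (Sym2 (ℤ × ℤ))) : ℝ :=
  Final.selfDual q ^ B.card * (1 - Final.selfDual q) ^ ((edges S \ wE p k).card - B.card) *
    q ^ Final.clusters p k S B

theorem weight_union (hp : IsPolygon p) (hE : Encloses p S) {B C : Finset (Sym2 (ℤ × ℤ))}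
    (hB : B ⊆ edges S \ wE p k) (hC : C ⊆ wE p k) :
    Final.weight q p k S (B ∪ C) =
      (Final.selfDual q ^ C.card * (1 - Final.selfDual q) ^ ((wE p k).card - C.card)) *
        wB q p k S B := by
  have hd : Disjoint B C := by
    rw [Finset.disjoint_left]
    intro e h1 h2
    exact (Finset.mem_sdiff.1 (hB h1)).2 (hC h2)
  have h1 : (B ∪ C).card = B.card + C.card := Finset.card_union_of_disjoint hd
  have h2 := Finset.card_le_card hB
  have h3 := Finset.card_le_card hC
  have h4 : (edges S \ wE p k).card + (wE p k).card = (edges S).card :=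
    Finset.card_sdiff_add_card_eq_card (wE_sub hp hE)
  have h5 : (Final.edges S).card - (B.card + C.card) =
      ((edges S \ wE p k).card - B.card) + ((wE p k).card - C.card) := by
    have h6 : (Final.edges S).card = (edges S).card := rfl
    omega
  unfold Final.weight wB
  rw [h1, h5, pow_add, pow_add, clusters_congr (wiredOpen_union hC)]
  ring

/-- sums over the sets of edges of the domain -/
theorem sum_split (hp : IsPolygon p) (hE : Encloses p S) (f : Finset (Sym2 (ℤ × ℤ)) → ℝ) :
    ∑ A ∈ (edges S).powerset, f A =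
      ∑ B ∈ (edges S \ wE p k).powerset, ∑ C ∈ (wE p k).powerset, f (B ∪ C) := by
  rw [← Finset.sum_product']
  refine Finset.sum_nbij' (fun A => (A \ wE p k, A ∩ wE p k)) (fun x => x.1 ∪ x.2) ?_ ?_ ?_ ?_ ?_
  · intro A hA
    rw [Finset.mem_powerset] at hA
    rw [Finset.mem_product, Finset.mem_powerset, Finset.mem_powerset]
    exact ⟨Finset.sdiff_subset_sdiff hA (Finset.Subset.refl _), Finset.inter_subset_right⟩
  · rintro ⟨B, C⟩ h
    rw [Finset.mem_product, Finset.mem_powerset, Finset.mem_powerset] at h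
    rw [Finset.mem_powerset]
    exact Finset.union_subset (h.1.trans Finset.sdiff_subset) (h.2.trans (wE_sub hp hE))
  · intro A _
    exact Finset.sdiff_union_inter A _
  · rintro ⟨B, C⟩ h
    rw [Finset.mem_product, Finset.mem_powerset, Finset.mem_powerset] at h
    obtain ⟨h1, h2⟩ := h
    have h1' : B ⊆ edges S \ wE p k := h1
    have h2' : C ⊆ wE p k := h2
    ext e
    · show e ∈ (B ∪ C) \ wE p k ↔ e ∈ B
      rw [Finset.mem_sdiff, Finset.mem_union]
      constructor
      · rintro ⟨h3 | h3, h4⟩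
        · exact h3
        · exact absurd (h2' h3) h4
      · intro h3
        exact ⟨Or.inl h3, (Finset.mem_sdiff.1 (h1' h3)).2⟩
    · show e ∈ (B ∪ C) ∩ wE p k ↔ e ∈ C
      rw [Finset.mem_inter, Finset.mem_union]
      constructor
      · rintro ⟨h3 | h3, h4⟩
        · exact absurd h4 (Finset.mem_sdiff.1 (h1' h3)).2
        · exact h3
      · intro h3
        exact ⟨Or.inr h3, h2' h3⟩
  · intro A _
    exact congrArg f (Finset.sdiff_union_inter A _).symm

/-- sums over the sets of edges and sums over the sets of squares -/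
theorem sum_squares (f : Finset (ℤ × ℤ) → ℝ) :
    ∑ T ∈ (Dq S p k).powerset, f T = ∑ B ∈ (edges S \ wE p k).powerset, f (B.image sq) := by
  classical
  symm
  refine Finset.sum_bij (fun B _ => B.image sq) ?_ ?_ ?_ (fun _ _ => rfl)
  · intro B hB
    rw [Finset.mem_powerset] at hB ⊢
    exact Finset.image_subset_image hB
  · intro B hB C hC h
    rw [Finset.mem_powerset] at hB hC
    have key : ∀ {B C : Finset (Sym2 (ℤ × ℤ))}, B ⊆ edges S \ wE p k → C ⊆ edges S \ wE p k →
        B.image sq = C.image sq → B ⊆ C := by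
      intro B C hB hC h e he
      have h1 : sq e ∈ C.image sq := h ▸ Finset.mem_image_of_mem sq he
      obtain ⟨e', h2, h3⟩ := Finset.mem_image.1 h1
      rwa [← sq_inj (isEdge_edges (Finset.mem_sdiff.1 (hC h2)).1)
        (isEdge_edges (Finset.mem_sdiff.1 (hB he)).1) h3]
    exact Finset.Subset.antisymm (key hB hC h) (key hC hB h.symm)
  · intro T hT
    rw [Finset.mem_powerset] at hT
    obtain ⟨B, hB, hBT⟩ := Finset.subset_image_iff.1 hT
    exact ⟨B, Finset.mem_powerset.2 hB, hBT⟩

/-- the weights agree up to a constant -/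
theorem weight_eq (hq : 0 < q) (hp : IsPolygon p) (hE : Encloses p S) : ∃ c : ℝ, 0 < c ∧
    ∀ B ⊆ edges S \ wE p k, wB q p k S B =
      c * (√q) ^ LD (Dq S p k) (cf (Dq S p k) (etaQ p k) (B.image sq)) := by
  have hQ : 0 < √q := Real.sqrt_pos.2 hq
  have hQ1 : 0 < 1 + √q := by positivity
  refine ⟨(√q) ^ (2 * Final.clusters p k S ∅) /
    ((√q) ^ LD (Dq S p k) (cfg (wiredOpen p k ∅)) * (1 + √q) ^ (edges S \ wE p k).card),
    by positivity, fun B hB => ?_⟩
  have h1 := LD_k hp hE B hB
  have h3 := Finset.card_le_card hB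
  have h4 : 1 - √q / (1 + √q) = 1 / (1 + √q) := by
    field_simp
    ring
  have h5 : q ^ Final.clusters p k S B = (√q) ^ (2 * Final.clusters p k S B) := by
    rw [pow_mul, Real.sq_sqrt hq.le]
  unfold wB Final.selfDual
  rw [cf_eq hB, h4, h5, div_pow, div_pow, one_pow]
  have h6 : (1 + √q) ^ (edges S \ wE p k).card =
      (1 + √q) ^ B.card * (1 + √q) ^ ((edges S \ wE p k).card - B.card) := by
    rw [← pow_add, Nat.add_sub_cancel' h3]
  have h7 : (√q) ^ LD (Dq S p k) (cfg (wiredOpen p k B)) * (√q) ^ (2 * Final.clusters p k S ∅) =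
      (√q) ^ LD (Dq S p k) (cfg (wiredOpen p k ∅)) * (√q) ^ (2 * Final.clusters p k S B) *
        (√q) ^ B.card := by
    rw [← pow_add, h1, pow_add, pow_add]
  rw [h6]
  field_simp
  linear_combination -h7

theorem sum_weight (hp : IsPolygon p) (hE : Encloses p S) (Φ : Cfg → ℝ) :
    ∑ A ∈ (edges S).powerset, Final.weight q p k S A * Φ (cfg (wiredOpen p k A)) =
      ∑ B ∈ (edges S \ wE p k).powerset, wB q p k S B * Φ (cfg (wiredOpen p k B)) := by
  rw [sum_split hp hE]
  refine Finset.sum_congr rfl fun B hB => ?_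
  rw [Finset.mem_powerset] at hB
  have h1 : ∀ C ∈ (wE p k).powerset, Final.weight q p k S (B ∪ C) *
      Φ (cfg (wiredOpen p k (B ∪ C))) =
      (Final.selfDual q ^ C.card * (1 - Final.selfDual q) ^ ((wE p k).card - C.card)) *
        (wB q p k S B * Φ (cfg (wiredOpen p k B))) := by
    intro C hC
    rw [Finset.mem_powerset] at hC
    rw [weight_union hp hE hB hC, wiredOpen_union hC]
    ring
  rw [Finset.sum_congr rfl h1, ← Finset.sum_mul, Finset.sum_pow_mul_eq_add_pow,
    add_sub_cancel, one_pow, one_mul]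

/-- **The Dobrushin random-cluster measure as a loop measure of the plane.** -/
theorem mean_eq_Ex (hq : 0 < q) (hp : IsPolygon p) (hE : Encloses p S) (Φ : Cfg → ℝ) :
    Final.mean q p k S (fun A => Φ (cfg (wiredOpen p k A))) =
      Ex (√q) (Dq S p k) (etaQ p k) Φ := by
  obtain ⟨c, hc, hw⟩ := weight_eq (k := k) hq hp hE
  unfold Final.mean Ex Zq
  have h1 := sum_weight (q := q) (k := k) hp hE Φ
  have h2 := sum_weight (q := q) (k := k) hp hE (fun _ => 1)
  simp only [mul_one] at h2
  have h3 : (Final.edges S) = edges S := rfl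
  rw [h3, h1, h2, sum_squares, sum_squares]
  have h4 : ∑ B ∈ (edges S \ wE p k).powerset, wB q p k S B * Φ (cfg (wiredOpen p k B)) =
      c * ∑ B ∈ (edges S \ wE p k).powerset,
        (√q) ^ LD (Dq S p k) (cf (Dq S p k) (etaQ p k) (B.image sq)) *
          Φ (cf (Dq S p k) (etaQ p k) (B.image sq)) := by
    rw [Finset.mul_sum]
    refine Finset.sum_congr rfl fun B hB => ?_
    rw [Finset.mem_powerset] at hB
    rw [hw B hB, cf_eq hB]
    ring
  have h5 : ∑ B ∈ (edges S \ wE p k).powerset, wB q p k S B =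
      c * ∑ B ∈ (edges S \ wE p k).powerset,
        (√q) ^ LD (Dq S p k) (cf (Dq S p k) (etaQ p k) (B.image sq)) := by
    rw [Finset.mul_sum]
    refine Finset.sum_congr rfl fun B hB => ?_
    rw [Finset.mem_powerset] at hB
    rw [hw B hB]
  rw [h4, h5, mul_div_mul_left _ _ hc.ne']

/-- The same for a function of the set of open edges which does not depend on the edges of the
wired arc. -/
theorem mean_eq_Ex' (hq : 0 < q) (hp : IsPolygon p) (hE : Encloses p S)
    (F : Finset (Sym2 (ℤ × ℤ)) → ℝ)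
    (hF : ∀ A ⊆ edges S, F A = F (A \ wE p k)) :
    Final.mean q p k S F =
      Ex (√q) (Dq S p k) (etaQ p k) fun ω => F (As S ω \ wE p k) := by
  rw [← mean_eq_Ex hq hp hE]
  unfold Final.mean
  congr 1
  refine Finset.sum_congr rfl fun A hA => ?_
  rw [Finset.mem_powerset] at hA
  have h1 : As S (cfg (wiredOpen p k A)) \ wE p k = A \ wE p k := by
    ext e
    rw [Finset.mem_sdiff, Finset.mem_sdiff, mem_As]
    constructor
    · rintro ⟨⟨h2, h3⟩, h4⟩
      rw [cfg_true, ed_sq (isEdge_edges h2), mem_wiredOpen] at h3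
      exact ⟨h3.resolve_right h4, h4⟩
    · rintro ⟨h2, h3⟩
      refine ⟨⟨hA h2, ?_⟩, h3⟩
      rw [cfg_true, ed_sq (isEdge_edges (hA h2)), mem_wiredOpen]
      exact Or.inl h2
  show _ = Final.weight q p k S A * F (As S (cfg (wiredOpen p k A)) \ wE p k)
  rw [h1, ← hF A hA]

end Vale.Agent.P167.H718
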