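import Vale.Agent.P167.H718.E2c

/-!
# P167, general `q`: existence of the Dobrushin boundary conditions

In a polygon without chords (`Chordless`: boundary sites at distance one are consecutive) the outside
configuration `etaW` = the squares outside of `D` around the dual boundary sites strictly between the
sides `k` and `n` are open, all the others are closed, satisfies `Dob`.
-/

namespace Vale.Agent.P167.H718

open Finset Relation Vale.Agent.P167.BR Vale.Agent.P167.FK
open Vale.Agent.P145.FB (PStep)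
open Vale.Agent.P167.E6 (IsPolygon Encloses dir face)

variable {D : Finset (ℤ × ℤ)} {n k : ℕ} {q : ZMod n → ℤ × ℤ}

/-- Boundary sites at distance one are consecutive. -/
def Chordless (q : ZMod n → ℤ × ℤ) : Prop :=
  ∀ i j : ZMod n, (∃ r, q j = q i + dir r) → j = i + 1 ∨ i = j + 1

/-- The four squares around a site. -/
def arnd (v : ℤ × ℤ) : Finset (ℤ × ℤ) := {face v 0, face v 1, face v 2, face v 3}

theorem face_mem_arnd (v : ℤ × ℤ) (r : Fin 4) : face v r ∈ arnd v := by
  unfold arnd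
  fin_cases r <;> simp

open Classical in
/-- The open squares outside of `D`. -/
noncomputable def opW (D : Finset (ℤ × ℤ)) (q : ZMod n → ℤ × ℤ) (k : ℕ) : Finset (ℤ × ℤ) :=
  (((Finset.Ioo k n).filter fun j : ℕ => ¬ Even ((q j).1 + (q j).2)).biUnion
    fun j : ℕ => arnd (q j)) \ D

open Classical in
/-- The outside configuration. -/
noncomputable def etaW (D : Finset (ℤ × ℤ)) (q : ZMod n → ℤ × ℤ) (k : ℕ) : Cfg :=
  fun v => decide (v ∈ opW D q k)

theorem good_etaW : Good (etaW D q k) := by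
  classical
  have h : etaW D q k = cf (opW D q k) eta0 (opW D q k) := by
    funext v
    unfold etaW cf
    by_cases hv : v ∈ opW D q k
    · rw [if_pos hv]
    · rw [if_neg hv]
      simp [hv, eta0]
  rw [h]
  exact good_cf _ good_eta0 _

theorem mem_opW {v : ℤ × ℤ} : v ∈ opW D q k ↔
    (∃ j : ℕ, k < j ∧ j < n ∧ ¬ Even ((q j).1 + (q j).2) ∧ ∃ r, v = face (q j) r) ∧ v ∉ D := by
  classical
  unfold opW
  rw [Finset.mem_sdiff, Finset.mem_biUnion]
  refine and_congr_left fun _ => ?_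
  constructor
  · rintro ⟨j, hj, hv⟩
    rw [Finset.mem_filter, Finset.mem_Ioo] at hj
    refine ⟨j, hj.1.1, hj.1.2, hj.2, ?_⟩
    unfold arnd at hv
    simp only [Finset.mem_insert, Finset.mem_singleton] at hv
    rcases hv with h | h | h | h
    · exact ⟨0, h⟩
    · exact ⟨1, h⟩
    · exact ⟨2, h⟩
    · exact ⟨3, h⟩
  · rintro ⟨j, h1, h2, h3, r, rfl⟩
    exact ⟨j, Finset.mem_filter.2 ⟨Finset.mem_Ioo.2 ⟨h1, h2⟩, h3⟩, face_mem_arnd _ _⟩

theorem fin4_cyc : ∀ t r : Fin 4, t = r ∨ t = r - 1 ∨ t = r - 1 - 1 ∨ t = r - 1 - 1 - 1 := by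
  decide

theorem face_back (v : ℤ × ℤ) (r : Fin 4) : face (v + dir (r + 2)) (r - 1) = face v (r + 2) := by
  obtain ⟨a, b⟩ := v
  have e0 : dir 0 = (1, 0) := rfl
  have e1 : dir 1 = (0, 1) := rfl
  have e2 : dir 2 = (-1, 0) := rfl
  have e3 : dir 3 = (0, -1) := rfl
  have f0 : ∀ v : ℤ × ℤ, face v 0 = v + (0, 0) := fun _ => rfl
  have f1 : ∀ v : ℤ × ℤ, face v 1 = v + (-1, 0) := fun _ => rfl
  have f2 : ∀ v : ℤ × ℤ, face v 2 = v + (-1, -1) := fun _ => rfl
  have f3 : ∀ v : ℤ × ℤ, face v 3 = v + (0, -1) := fun _ => rfl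
  have hr : r = 0 ∨ r = 1 ∨ r = 2 ∨ r = 3 := by fin_cases r <;> simp
  rcases hr with rfl | rfl | rfl | rfl
  · rw [show (0 : Fin 4) + 2 = 2 from rfl, show (0 : Fin 4) - 1 = 3 from rfl, e2, f3, f2]; simp
  · rw [show (1 : Fin 4) + 2 = 3 from rfl, show (1 : Fin 4) - 1 = 0 from rfl, e3, f0, f3]; simp
  · rw [show (2 : Fin 4) + 2 = 0 from rfl, show (2 : Fin 4) - 1 = 1 from rfl, e0, f1, f0]; simp
  · rw [show (3 : Fin 4) + 2 = 1 from rfl, show (3 : Fin 4) - 1 = 2 from rfl, e1, f2, f1]; simp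

theorem dirInj {r s : Fin 4} (h : dir r = dir s) : r = s := by
  fin_cases r <;> fin_cases s <;> first | rfl | (exfalso; simp [dir] at h)

theorem dir4 (r : Fin 4) : dir r = (1, 0) ∨ dir r = (0, 1) ∨ dir r = (-1, 0) ∨ dir r = (0, -1) := by
  fin_cases r <;> simp [dir]

/-- The square `face v r` has the corners `v + dir r` and `v + dir (r + 1)`. -/
theorem face_min (v : ℤ × ℤ) (r : Fin 4) :
    (min (v + dir r).1 (v + dir (r + 1)).1, min (v + dir r).2 (v + dir (r + 1)).2) = face v r ∧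
    ((v + dir (r + 1)).1 = (v + dir r).1 + 1 ∨ (v + dir (r + 1)).1 = (v + dir r).1 - 1) ∧
    ((v + dir (r + 1)).2 = (v + dir r).2 + 1 ∨ (v + dir (r + 1)).2 = (v + dir r).2 - 1) := by
  obtain ⟨a, b⟩ := v
  have e0 : dir 0 = (1, 0) := rfl
  have e1 : dir 1 = (0, 1) := rfl
  have e2 : dir 2 = (-1, 0) := rfl
  have e3 : dir 3 = (0, -1) := rfl
  have f0 : face (a, b) 0 = (a + 0, b + 0) := rfl
  have f1 : face (a, b) 1 = (a + -1, b + 0) := rfl
  have f2 : face (a, b) 2 = (a + -1, b + -1) := rfl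
  have f3 : face (a, b) 3 = (a + 0, b + -1) := rfl
  have g0 : (0 : Fin 4) + 1 = 1 := rfl
  have g1 : (1 : Fin 4) + 1 = 2 := rfl
  have g2 : (2 : Fin 4) + 1 = 3 := rfl
  have g3 : (3 : Fin 4) + 1 = 0 := rfl
  have hr : r = 0 ∨ r = 1 ∨ r = 2 ∨ r = 3 := by fin_cases r <;> simp
  rcases hr with rfl | rfl | rfl | rfl
  · rw [g0, e0, e1, f0]; simp only [Prod.mk_add_mk, Prod.mk.injEq]; omega
  · rw [g1, e1, e2, f1]; simp only [Prod.mk_add_mk, Prod.mk.injEq]; omega
  · rw [g2, e2, e3, f2]; simp only [Prod.mk_add_mk, Prod.mk.injEq]; omega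
  · rw [g3, e3, e0, f3]; simp only [Prod.mk_add_mk, Prod.mk.injEq]; omega

theorem step_face {F : Set (ℤ × ℤ)} {v : ℤ × ℤ} {r : Fin 4} (h : face v r ∈ F) :
    PStep F (v + dir r) (v + dir (r + 1)) := by
  obtain ⟨h1, h2, h3⟩ := face_min v r
  refine ⟨by omega, by omega, ?_⟩
  rw [h1]
  exact h

/-- The ends of the step across the square `face v r` which have the parity of the neighbours of
`v`. -/
theorem step_cases {v s t : ℤ × ℤ} {r : Fin 4} (h : PStep {face v r} s t)
    (hs : Even (s.1 + s.2)) (hv : ¬ Even (v.1 + v.2)) : ∃ r', s = v + dir r' := by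
  obtain ⟨h1, h2, h3⟩ := h
  have h4 : (min s.1 t.1, min s.2 t.2) = face v r := h3
  obtain ⟨a, b⟩ := v
  obtain ⟨c, d⟩ := s
  obtain ⟨c', d'⟩ := t
  rw [Int.even_iff] at hs hv
  simp only at h1 h2 h4 hs hv
  have e0 : dir 0 = (1, 0) := rfl
  have e1 : dir 1 = (0, 1) := rfl
  have e2 : dir 2 = (-1, 0) := rfl
  have e3 : dir 3 = (0, -1) := rfl
  have f0 : face (a, b) 0 = (a + 0, b + 0) := rfl
  have f1 : face (a, b) 1 = (a + -1, b + 0) := rfl
  have f2 : face (a, b) 2 = (a + -1, b + -1) := rfl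
  have f3 : face (a, b) 3 = (a + 0, b + -1) := rfl
  have hd : ((c, d) = (a, b) + dir 0 ∨ (c, d) = (a, b) + dir 1 ∨ (c, d) = (a, b) + dir 2 ∨
      (c, d) = (a, b) + dir 3) := by
    rw [e0, e1, e2, e3]
    simp only [Prod.mk_add_mk, Prod.mk.injEq]
    have hr : r = 0 ∨ r = 1 ∨ r = 2 ∨ r = 3 := by fin_cases r <;> simp
    rcases hr with rfl | rfl | rfl | rfl
    · rw [f0, Prod.mk.injEq] at h4; omega
    · rw [f1, Prod.mk.injEq] at h4; omega
    · rw [f2, Prod.mk.injEq] at h4; omega
    · rw [f3, Prod.mk.injEq] at h4; omega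
  rcases hd with h | h | h | h
  · exact ⟨0, h⟩
  · exact ⟨1, h⟩
  · exact ⟨2, h⟩
  · exact ⟨3, h⟩

section

variable (hq : IsPolygon q) (hD : Encloses q D)
include hq hD

omit hD in
/-- The parity changes along the polygon. -/
theorem par_succ (i : ZMod n) : (Even ((q (i + 1)).1 + (q (i + 1)).2) ↔
    ¬ Even ((q i).1 + (q i).2)) := by
  obtain ⟨r, hr⟩ := hq.2.2 i
  rw [hr, Int.even_iff, Int.even_iff]
  rcases dir4 r with h | h | h | h <;> rw [h] <;> simp only [Prod.fst_add, Prod.snd_add] <;> omega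

/-- A site of `D` which is a corner of a square outside of `D` is a boundary site. -/
theorem exists_bd {s : ℤ × ℤ} (hs : s ∈ sites D) {r : Fin 4} (hr : face s r ∉ D) :
    ∃ i : ZMod n, q i = s := by
  have hsome : ∃ r', face s r' ∈ D := by
    obtain ⟨v, hv, h1, h2⟩ := mem_sites.1 hs
    obtain ⟨a, b⟩ := s
    obtain ⟨c, d⟩ := v
    simp only at h1 h2
    have f0 : face (a, b) 0 = (a + 0, b + 0) := rfl
    have f1 : face (a, b) 1 = (a + -1, b + 0) := rfl
    have f2 : face (a, b) 2 = (a + -1, b + -1) := rfl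
    have f3 : face (a, b) 3 = (a + 0, b + -1) := rfl
    rcases h1 with h1 | h1 <;> rcases h2 with h2 | h2 <;> subst h1 <;> subst h2
    · exact ⟨0, by rw [f0]; simpa using hv⟩
    · exact ⟨3, by rw [f3]; simpa using hv⟩
    · exact ⟨1, by rw [f1]; simpa using hv⟩
    · exact ⟨2, by rw [f2]; simpa using hv⟩
  obtain ⟨r', hr'⟩ := hsome
  -- some `t` with `face s t ∈ D`, `face s (t - 1) ∉ D`
  have hex : ∃ t, face s t ∈ D ∧ face s (t - 1) ∉ D := by
    by_contra hcon
    push Not at hcon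
    have h1 : ∀ t, face s t ∈ D → face s (t - 1) ∈ D := hcon
    have h2 := h1 _ hr'
    have h3 := h1 _ h2
    have h4 := h1 _ h3
    have hall : ∀ t : Fin 4, face s t ∈ D := by
      intro t
      have h5 := fin4_cyc t r'
      rcases h5 with h5 | h5 | h5 | h5 <;> rw [h5]
      · exact hr'
      · exact h2
      · exact h3
      · exact h4
    exact hr (hall r)
  obtain ⟨t, ht⟩ := hex
  obtain ⟨i, hi, -⟩ := (hD s t).2 ht
  exact ⟨i, hi⟩

theorem side_out {t : Fin 4} {j : ZMod n} (h1 : face (q j) t ∈ D) (h2 : face (q j) (t - 1) ∉ D) :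
    q (j + 1) = q j + dir t := by
  obtain ⟨i, hi1, hi2⟩ := (hD _ _).2 ⟨h1, h2⟩
  have h3 : i = j := hq.2.1 hi1
  rw [h3] at hi2
  exact hi2

/-- Around a dual boundary site the neighbouring boundary sites are joined outside of `D`. -/
theorem join_step {j : ℕ} (hj : k < j) (hjn : j < n) (hev : ¬ Even ((q j).1 + (q j).2)) :
    OutC (etaW D q k) D (q ((j : ZMod n) - 1)) (q ((j : ZMod n) + 1)) := by
  have hop : ∀ t : Fin 4, face (q j) t ∉ D →
      face (q j) t ∈ op (etaW D q k) ∩ (↑D : Set (ℤ × ℤ))ᶜ := by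
    intro t ht
    refine ⟨?_, fun h => ht (Finset.mem_coe.1 h)⟩
    show etaW D q k _ = true
    unfold etaW
    rw [decide_eq_true_iff, mem_opW]
    exact ⟨⟨j, hj, hjn, hev, t, rfl⟩, ht⟩
  obtain ⟨r1, hr1⟩ := hq.2.2 ((j : ZMod n) - 1)
  obtain ⟨r2, hr2⟩ := hq.2.2 (j : ZMod n)
  rw [sub_add_cancel] at hr1
  have e1 : q ((j : ZMod n) - 1) = q (j : ZMod n) + dir (r1 + 2) := by
    rw [hr1, add_assoc]
    have : dir r1 + dir (r1 + 2) = 0 := by
      fin_cases r1 <;> rfl
    rw [this, add_zero]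
  -- the face on the left of the incoming side is in `D`, the face on the right is not
  have hin := (hD (q ((j : ZMod n) - 1)) r1).1 ⟨(j : ZMod n) - 1, rfl, by
    rw [sub_add_cancel]; exact hr1⟩
  have e2 : face (q ((j : ZMod n) - 1)) (r1 - 1) = face (q (j : ZMod n)) (r1 + 2) := by
    rw [e1, face_back]
  have h0 : face (q (j : ZMod n)) (r1 + 2) ∉ D := by rw [← e2]; exact hin.2
  have hout : ∀ t : Fin 4, face (q (j : ZMod n)) t ∉ D → t + 1 ≠ r2 →
      face (q (j : ZMod n)) (t + 1) ∉ D := by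
    intro t h1 h2 h3
    have h4 := side_out hq hD h3 (by rw [add_sub_cancel_right]; exact h1)
    rw [hr2] at h4
    exact h2 (dirInj (add_left_cancel h4)).symm
  rw [e1, hr2]
  set s := r1 + 2 with hs
  have hne : r2 ≠ s := by
    intro h
    have h1 : q ((j : ZMod n) + 1) = q ((j : ZMod n) - 1) := by rw [hr2, e1, h]
    have h2 := hq.2.1 h1
    have h5 : ((2 : ℕ) : ZMod n) = 0 := by
      push_cast
      linear_combination h2
    rw [ZMod.natCast_eq_zero_iff] at h5
    have := Nat.le_of_dvd (by norm_num) h5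
    have := hq.1
    omega
  have st : ∀ t : Fin 4, face (q (j : ZMod n)) t ∉ D →
      PStep (op (etaW D q k) ∩ (↑D : Set (ℤ × ℤ))ᶜ) (q (j : ZMod n) + dir t)
        (q (j : ZMod n) + dir (t + 1)) := fun t ht => step_face (hop t ht)
  have g1 := st s h0
  by_cases c1 : s + 1 = r2
  · rw [← c1]
    exact ReflTransGen.single g1
  · have h1 := hout s h0 c1
    have g2 := st _ h1
    by_cases c2 : s + 1 + 1 = r2
    · rw [← c2]
      exact (ReflTransGen.single g1).tail g2
    · have h2 := hout _ h1 c2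
      have g3 := st _ h2
      have c3 : s + 1 + 1 + 1 = r2 := by
        clear g1 g2 g3 h1 h2 h0 hout st hs hin hr1 hr2 e1 e2 hop
        clear_value s
        revert s r2
        decide
      rw [← c3]
      exact ((ReflTransGen.single g1).tail g2).tail g3

/-- **Existence of the Dobrushin boundary conditions.** -/
theorem dob_etaW (hc : Chordless q) : Dob (etaW D q k) D q k := by
  have hn : NeZero n := ⟨by have := hq.1; omega⟩
  have hsym : ∀ {s t : ℤ × ℤ}, OutC (etaW D q k) D s t → OutC (etaW D q k) D t s := by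
    intro s t h
    unfold OutC at h ⊢
    induction h with
    | refl => exact ReflTransGen.refl
    | tail _ h1 ih => exact ReflTransGen.head h1.symm ih
  have hfw : ∀ m i : ℕ, k ≤ i → i + 2 * m ≤ n → Even ((q i).1 + (q i).2) →
      OutC (etaW D q k) D (q i) (q ((i + 2 * m : ℕ) : ZMod n)) := by
    intro m
    induction m with
    | zero => intro i _ _ _; exact ReflTransGen.refl
    | succ m ih =>
      intro i h1 h2 h3
      have h4 := ih i h1 (by omega) h3
      have hpar : Even ((q ((i + 2 * m : ℕ) : ZMod n)).1 + (q ((i + 2 * m : ℕ) : ZMod n)).2) := by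
        clear h4 ih h2
        induction m with
        | zero => simpa using h3
        | succ m ih2 =>
          have e : ((i + 2 * (m + 1) : ℕ) : ZMod n) = ((i + 2 * m : ℕ) : ZMod n) + 1 + 1 := by
            push_cast
            ring
          rw [e, par_succ hq, par_succ hq]
          exact not_not.2 ih2
      have hpar' : ¬ Even ((q ((i + 2 * m + 1 : ℕ) : ZMod n)).1 +
          (q ((i + 2 * m + 1 : ℕ) : ZMod n)).2) := by
        have e : ((i + 2 * m + 1 : ℕ) : ZMod n) = ((i + 2 * m : ℕ) : ZMod n) + 1 := by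
          push_cast
          ring
        rw [e, par_succ hq]
        exact not_not.2 hpar
      have h5 := join_step (k := k) hq hD (j := i + 2 * m + 1) (by omega) (by omega) hpar'
      have e1 : (((i + 2 * m + 1 : ℕ) : ZMod n) - 1) = ((i + 2 * m : ℕ) : ZMod n) := by
        push_cast
        ring
      have e2 : (((i + 2 * m + 1 : ℕ) : ZMod n) + 1) = ((i + 2 * (m + 1) : ℕ) : ZMod n) := by
        push_cast
        ring
      rw [e1, e2] at h5
      exact h4.trans h5
  have hpar2 : ∀ i m : ℕ, Even ((q i).1 + (q i).2) →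
      Even ((q ((i + m : ℕ) : ZMod n)).1 + (q ((i + m : ℕ) : ZMod n)).2) → Even m := by
    intro i m hi hm
    have key : ∀ m : ℕ, (Even ((q ((i + m : ℕ) : ZMod n)).1 + (q ((i + m : ℕ) : ZMod n)).2) ↔
        Even m) := by
      intro m
      induction m with
      | zero => simpa using hi
      | succ m ih =>
        have e : ((i + (m + 1) : ℕ) : ZMod n) = ((i + m : ℕ) : ZMod n) + 1 := by
          push_cast
          ring
        rw [e, par_succ hq, ih, Nat.even_add_one]
    exact (key m).1 hm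
  have hle : ∀ i j : ℕ, k ≤ i → i ≤ j → j ≤ n → Even ((q i).1 + (q i).2) →
      Even ((q j).1 + (q j).2) → OutC (etaW D q k) D (q i) (q j) := by
    intro i j h1 h2 h3 h4 h5
    obtain ⟨m, rfl⟩ := Nat.exists_eq_add_of_le h2
    obtain ⟨m', hm'⟩ := hpar2 i m h4 h5
    have h6 := hfw m' i h1 (by omega) h4
    rw [hm', ← two_mul]
    exact h6
  refine ⟨good_etaW, ?_, ?_⟩
  · intro i j h1 h2 h3 h4 h5 h6
    rcases le_total i j with h | h
    · exact hle i j h1 h h4 h5 h6
    · exact hsym (hle j i h3 h h2 h6 h5)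
  · -- every end of a step outside of `D` which is a site of `D` is wired
    have hend : ∀ s t : ℤ × ℤ, s ∈ sites D → Even (s.1 + s.2) →
        PStep (op (etaW D q k) ∩ (↑D : Set (ℤ × ℤ))ᶜ) s t →
        ∃ i : ℕ, k ≤ i ∧ i ≤ n ∧ q i = s := by
      intro s t hs hev hst
      obtain ⟨h1, h2, h3, h4⟩ := hst
      have h5 : etaW D q k (min s.1 t.1, min s.2 t.2) = true := h3
      unfold etaW at h5
      rw [decide_eq_true_iff, mem_opW] at h5
      obtain ⟨⟨j, hj1, hj2, hj3, r, hr⟩, h6⟩ := h5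
      obtain ⟨r', hr'⟩ := step_cases (v := q j) (r := r) (s := s) (t := t) ⟨h1, h2, hr⟩ hev hj3
      -- `s` is a boundary site
      have hex : ∃ r'', face s r'' = (min s.1 t.1, min s.2 t.2) := by
        obtain ⟨c, d⟩ := s
        obtain ⟨c', d'⟩ := t
        simp only at h1 h2
        have f0 : face (c, d) 0 = (c + 0, d + 0) := rfl
        have f1 : face (c, d) 1 = (c + -1, d + 0) := rfl
        have f2 : face (c, d) 2 = (c + -1, d + -1) := rfl
        have f3 : face (c, d) 3 = (c + 0, d + -1) := rfl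
        rcases h1 with h1 | h1 <;> rcases h2 with h2 | h2
        · exact ⟨0, by rw [f0]; simp only [Prod.mk.injEq]; omega⟩
        · exact ⟨3, by rw [f3]; simp only [Prod.mk.injEq]; omega⟩
        · exact ⟨1, by rw [f1]; simp only [Prod.mk.injEq]; omega⟩
        · exact ⟨2, by rw [f2]; simp only [Prod.mk.injEq]; omega⟩
      obtain ⟨r'', hr''⟩ := hex
      obtain ⟨i, hi⟩ := exists_bd hq hD hs (r := r'') (by rw [hr'']; exact h6)
      rcases hc j i ⟨r', by rw [hi]; exact hr'⟩ with h7 | h7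
      · refine ⟨j + 1, by omega, by omega, ?_⟩
        push_cast
        rw [← h7]
        exact hi
      · refine ⟨j - 1, by omega, by omega, ?_⟩
        rw [Nat.cast_sub (by omega), Nat.cast_one, h7, add_sub_cancel_right]
        exact hi
    intro s hs t ht hev hst hne
    have hevt : Even (t.1 + t.2) := by
      clear hne ht hs
      induction hst with
      | refl => exact hev
      | tail _ h1 ih => exact even_step h1 ih
    have h1 : ∃ x, PStep (op (etaW D q k) ∩ (↑D : Set (ℤ × ℤ))ᶜ) s x := by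
      rcases ReflTransGen.cases_head hst with h | ⟨x, hx, -⟩
      · exact absurd h hne
      · exact ⟨x, hx⟩
    have h2 : ∃ x, PStep (op (etaW D q k) ∩ (↑D : Set (ℤ × ℤ))ᶜ) t x := by
      rcases ReflTransGen.cases_tail hst with h | ⟨x, -, hx⟩
      · exact absurd h.symm hne
      · exact ⟨x, hx.symm⟩
    obtain ⟨x, hx⟩ := h1
    obtain ⟨y, hy⟩ := h2
    obtain ⟨i, hi1, hi2, hi3⟩ := hend s x hs hev hx
    obtain ⟨j, hj1, hj2, hj3⟩ := hend t y ht hevt hy
    exact ⟨i, j, hi1, hi2, hj1, hj2, hi3, hj3⟩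

end

end Vale.Agent.P167.H718
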