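import Vale.Agent.P167.H718.Par3

/-!
# P167, general `q`, block Q-PAR: boundary phases and charges

Additional boundary phases `ρ` are the charges `ρ k - ρ (k - 1)` at the boundary sites `q k`
(`XQ_gauge`, for every configuration). The parity image of the Dobrushin functional of `D` is the
Dobrushin functional of `D + v` with the charges `- f` and additional charges at the corners and at the
junction (`ZQ_image`).
-/

namespace Vale.Agent.P167.H718

open Finset Complex
open Vale.Agent.P167.E6 (IsPolygon Encloses dir)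
open Vale.Agent.P167.BR
open Vale.Agent.P167.H871 (Bd)
open Vale.Agent.P167.QX (wQ XQ ZQ lo hi lo_xy hi_xy stag exists_xy)

variable {D : Finset (ℤ × ℤ)} {ω : Cfg} {A : Finset Ed} {e : Ed} {θ β : ℝ} {n k x y : ℕ}
  {q : ZMod n → ℤ × ℤ} {u : ℕ → ℤ} {ψ ρ : ℕ → ℝ} {f g : ℤ × ℤ → ℝ}

/-- The charges of the boundary phases `ρ`. -/
noncomputable def gch (q : ZMod n → ℤ × ℤ) (ρ : ℕ → ℝ) (z : ℤ × ℤ) : ℝ :=
  ∑ k ∈ Finset.Ico 1 n, if q (k : ZMod n) = z then ρ k - ρ (k - 1) else 0

theorem mass_add (D : Finset (ℤ × ℤ)) (p : ℤ × ℤ) (f g : ℤ × ℤ → ℝ) (A : Finset Ed) :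
    mass D p (fun z => f z + g z) A = mass D p f A + mass D p g A := by
  classical
  unfold mass
  rw [← sum_add_distrib]
  refine sum_congr rfl fun z _ => ?_
  split_ifs
  · rfl
  · rw [add_zero]

theorem tele (ρ : ℕ → ℝ) {a b : ℕ} (h : a ≤ b) :
    ∑ k ∈ Finset.Ico (a + 1) (b + 1), (ρ k - ρ (k - 1)) = ρ b - ρ a := by
  induction b, h using Nat.le_induction with
  | base => simp
  | succ b hb ih =>
    rw [Finset.sum_Ico_succ_top (by omega), ih, Nat.add_sub_cancel]
    ring

section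

variable (hq : IsPolygon q) (hD : Encloses q D)
include hq hD

theorem q_mem_sites (i : ZMod n) : q i ∈ sites D := by
  have h := (hD (q i) (E2.ro q i)).1 ⟨i, rfl, E2.ro_spec hq i⟩
  rw [mem_sites]
  refine ⟨_, h.1, ?_⟩
  have hr : ∀ (v : ℤ × ℤ) (r : Fin 4), (v.1 = (E6.face v r).1 ∨ v.1 = (E6.face v r).1 + 1) ∧
      (v.2 = (E6.face v r).2 ∨ v.2 = (E6.face v r).2 + 1) := by
    rintro ⟨a, b⟩ r
    have f0 : E6.face (a, b) 0 = (a + 0, b + 0) := rfl
    have f1 : E6.face (a, b) 1 = (a + -1, b + 0) := rfl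
    have f2 : E6.face (a, b) 2 = (a + -1, b + -1) := rfl
    have f3 : E6.face (a, b) 3 = (a + 0, b + -1) := rfl
    have hr : r = 0 ∨ r = 1 ∨ r = 2 ∨ r = 3 := by fin_cases r <;> simp
    rcases hr with rfl | rfl | rfl | rfl
    · rw [f0]; simp
    · rw [f1]; simp
    · rw [f2]; simp
    · rw [f3]; simp
  exact hr _ _

/-- The mass of the charges of the boundary phases. -/
theorem mass_gch (A : Finset Ed) : mass D (q 0) (gch q ρ) A =
    ∑ k ∈ Finset.Ico 1 n, open Classical in
      if Sep D A (q (k : ZMod n)) (q 0) then ρ k - ρ (k - 1) else 0 := by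
  classical
  unfold mass gch
  have h1 : ∀ z ∈ sites D, (if Sep D A z (q 0) then
      ∑ k ∈ Finset.Ico 1 n, (if q (k : ZMod n) = z then ρ k - ρ (k - 1) else 0) else 0) =
      ∑ k ∈ Finset.Ico 1 n, (if q (k : ZMod n) = z then
        (if Sep D A (q (k : ZMod n)) (q 0) then ρ k - ρ (k - 1) else 0) else 0) := by
    intro z _
    split_ifs with h
    · refine sum_congr rfl fun k _ => ?_
      split_ifs with h2 h3
      · rfl
      · rw [h2] at h3
        exact absurd h h3
      · rfl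
    · symm
      refine sum_eq_zero fun k _ => ?_
      split_ifs with h2 h3
      · rw [h2] at h3
        exact absurd h3 h
      · rfl
      · rfl
  rw [sum_congr rfl h1, sum_comm]
  refine sum_congr rfl fun k _ => ?_
  rw [sum_ite_eq, if_pos (q_mem_sites hq hD _)]

/-- The potential of a strand along the boundary. -/
theorem pot_bd {w : ℤ × ℤ → ℤ} (hA : A ∈ pcs ω D) (h : IsXY q A x y) (hw : PotD D A w) {m : ℕ}
    (hm : m ≤ n) : w (q (m : ZMod n)) = w (q 0) + (if y < m then 1 else 0) - (if x < m then 1 else 0) := by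
  induction m with
  | zero => simp
  | succ m ih =>
    have h1 := ih (by omega)
    have h2 : ((m + 1 : ℕ) : ZMod n) = (m : ZMod n) + 1 := by push_cast; rfl
    rw [h2]
    by_cases hmA : be q (m : ZMod n) ∈ A
    · rcases (h.iff hq hD hA (by omega)).1 hmA with rfl | rfl
      · have h3 := pot_even hq hD hw hmA h.2.2.2.2.1
        have := h.ne
        split_ifs at * <;> omega
      · have h3 := pot_odd hq hD hw hmA h.2.2.2.2.2
        have := h.ne
        split_ifs at * <;> omega
    · have h3 : w (q ((m : ZMod n) + 1)) = w (q (m : ZMod n)) := by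
        have h4 := pot_arc hq hD hw (i := m) (j := m + 1) (by omega) (fun j hj hj' => by
          have : j = m := by omega
          rw [this]
          exact hmA)
        rw [h2] at h4
        exact h4
      have h5 : m ≠ x := fun hx => hmA (hx ▸ h.2.2.1)
      have h6 : m ≠ y := fun hy => hmA (hy ▸ h.2.2.2.1)
      rw [h3, h1]
      split_ifs <;> omega

theorem sep_bd (hA : A ∈ pcs ω D) (h : IsXY q A x y) {m : ℕ} (hm : m < n) :
    Sep D A (q (m : ZMod n)) (q 0) ↔ lo q A < m ∧ m ≤ hi q A := by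
  rw [lo_xy hq hD hA h, hi_xy hq hD hA h]
  constructor
  · rintro ⟨w, hw, hne⟩
    rw [pot_bd hq hD hA h hw hm.le] at hne
    split_ifs at hne <;> omega
  · intro hlh
    obtain ⟨w, hw⟩ := exists_pot hq hD hA
    refine ⟨w, hw, ?_⟩
    rw [pot_bd hq hD hA h hw hm.le]
    split_ifs <;> omega

theorem not_sep_lp (hA : A ∈ pcs ω D) (hl : IsLp D A) {m : ℕ} :
    ¬ Sep D A (q (m : ZMod n)) (q 0) := by
  rintro ⟨w, hw, hne⟩
  apply hne
  have h1 : ∀ z : ℕ, be q (z : ZMod n) ∉ A := by
    intro z hz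
    rcases be_bd hq hD (z : ZMod n) with ⟨_, h2⟩ | ⟨_, h2⟩
    · exact h2 (hl.tl hA hz)
    · exact h2 (hl _ hz)
  have h2 := pot_arc hq hD hw (i := 0) (j := m) (by omega) fun z _ _ => h1 z
  rw [h2, Nat.cast_zero]

/-- The mass of the additional charges of a strand. -/
theorem mass_gch_strand (hA : A ∈ pcs ω D) (hl : ¬ IsLp D A) :
    mass D (q 0) (gch q ρ) A = ρ (hi q A) - ρ (lo q A) := by
  classical
  obtain ⟨x, y, h⟩ := exists_xy hq hD hA hl
  rw [mass_gch hq hD]
  have hlo := lo_xy hq hD hA h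
  have hhi := hi_xy hq hD hA h
  have hlh : lo q A ≤ hi q A := by rw [hlo, hhi]; exact min_le_max
  have hin : hi q A < n := by rw [hhi]; exact max_lt h.1 h.2.1
  rw [← tele ρ hlh]
  symm
  rw [← sum_subset (s₁ := Finset.Ico (lo q A + 1) (hi q A + 1)) (s₂ := Finset.Ico 1 n)
    (f := fun k : ℕ => if Sep D A (q (k : ZMod n)) (q 0) then ρ k - ρ (k - 1) else 0)]
  · refine sum_congr rfl fun m hm => ?_
    rw [mem_Ico] at hm
    rw [if_pos ((sep_bd hq hD hA h (by omega)).2 (by omega))]
  · intro m hm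
    rw [mem_Ico] at *
    omega
  · intro m hm hm'
    rw [mem_Ico] at *
    rw [if_neg]
    intro hs
    have := (sep_bd hq hD hA h (by omega)).1 hs
    omega

theorem mass_gch_loop (hA : A ∈ pcs ω D) (hl : IsLp D A) :
    mass D (q 0) (gch q ρ) A = 0 := by
  classical
  rw [mass_gch hq hD]
  exact sum_eq_zero fun k _ => if_neg (not_sep_lp hq hD hA hl)

/-- **Boundary phases are charges at the boundary**, piece by piece. -/
theorem wQ_gauge (hA : A ∈ pcs ω D) (f : ℤ × ℤ → ℝ) :
    wQ θ q D (fun k => ψ k + ρ k) A (mass D (q 0) f A) =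
      wQ θ q D ψ A (mass D (q 0) (fun z => f z + gch q ρ z) A) := by
  unfold wQ
  rw [mass_add]
  by_cases hl : IsLp D A
  · rw [if_pos hl, if_pos hl, mass_gch_loop hq hD hA hl, add_zero]
  · rw [if_neg hl, if_neg hl, mass_gch_strand hq hD hA hl]
    congr 2
    ring

/-- **Boundary phases are charges at the boundary**, for every configuration. -/
theorem XQ_gauge (f : ℤ × ℤ → ℝ) (ω : Cfg) :
    XQ θ q D (fun k => ψ k + ρ k) f ω = XQ θ q D ψ (fun z => f z + gch q ρ z) ω := by
  unfold XQ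
  exact prod_congr rfl fun A hA => wQ_gauge hq hD hA f

theorem ZQ_gauge (f : ℤ × ℤ → ℝ) :
    ZQ θ q D (fun k => ψ k + ρ k) f = ZQ θ q D ψ (fun z => f z + gch q ρ z) := by
  unfold ZQ
  exact sum_congr rfl fun S _ => XQ_gauge hq hD f _

end

/-! ### the parity image -/

/-- The staggered phases under odd translations. -/
theorem stag_odd {a : ℤ × ℤ} (ha : ¬ Even (a.1 + a.2)) (θ β : ℝ) (q : ZMod n → ℤ × ℤ) (k z : ℕ) :
    - stag θ β q k z = stag θ (-β) (fun i => q i + a) k z := by
  unfold stag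
  have h : Even (((fun i => q i + a) (z : ZMod n)).1 + ((fun i => q i + a) (z : ZMod n)).2) ↔
      ¬ Even ((q (z : ZMod n)).1 + (q (z : ZMod n)).2) := by
    simp only [Prod.fst_add, Prod.snd_add]
    rw [Int.even_iff] at ha
    rw [Int.even_iff, Int.even_iff]
    omega
  by_cases h1 : Even ((q (z : ZMod n)).1 + (q (z : ZMod n)).2)
  · rw [if_pos h1, if_pos h1, if_neg (fun h' => h.1 h' h1), if_neg (fun h' => h.1 h' h1)]
    split_ifs <;> ring
  · rw [if_neg h1, if_neg h1, if_pos (h.2 h1), if_pos (h.2 h1)]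
    split_ifs <;> ring

theorem stag_beta (θ β : ℝ) (q : ZMod n → ℤ × ℤ) (k z : ℕ) :
    stag θ (-β) q k z = stag θ β q k z + (if z < k then 0 else -(2 * β)) := by
  unfold stag
  split_ifs <;> ring

/-- The additional boundary phases of the parity image. -/
noncomputable def rc (θ β : ℝ) (u : ℕ → ℤ) (k z : ℕ) : ℝ :=
  (if z < k then 0 else -(2 * β)) - θ / 2 * u z

/-- The charges of the parity image. -/
noncomputable def imC (θ β : ℝ) (u : ℕ → ℤ) (q : ZMod n → ℤ × ℤ) (k : ℕ) (a : ℤ × ℤ)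
    (f : ℤ × ℤ → ℝ) (z : ℤ × ℤ) : ℝ := - f (z - a) + gch (fun i => q i + a) (rc θ β u k) z

/-- **The parity image of the Dobrushin functional**, for the boundary phases
`stag θ β q k + χ`. -/
theorem ZQ_image {a : ℤ × ℤ} (ha : ¬ Even (a.1 + a.2)) (hq : IsPolygon q) (hD : Encloses q D)
    (hu : Bd (D : Set (ℤ × ℤ)) n (fun k => q (k : ZMod n)) u 1) (θ β : ℝ) (k : ℕ) (χ : ℕ → ℝ)
    (f : ℤ × ℤ → ℝ) :
    ZQ θ (fun i => q i + a) (D.image (· + a)) (fun z => stag θ β (fun i => q i + a) k z - χ z)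
      (imC θ β u q k a f) = ZQ θ q D (fun z => stag θ β q k z + χ z) f := by
  rw [← ZQ_par ha hq hD hu θ (fun z => stag θ β q k z + χ z) f]
  have h1 : (fun z => -(stag θ β q k z + χ z) - θ / 2 * (u z : ℝ)) =
      fun z => (stag θ β (fun i => q i + a) k z - χ z) + rc θ β u k z := by
    funext z
    have h2 := stag_odd ha θ β q k z
    have h3 := stag_beta θ β (fun i => q i + a) k z
    unfold rc
    rw [neg_add, h2, h3]
    ring
  rw [h1, ZQ_gauge (poly_add hq a) (encl_add hD a)]
  rfl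

end Vale.Agent.P167.H718
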