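import Vale.Agent.P167.H718.Par2
import Vale.Agent.P167.QX.Stag

/-!
# P167, general `q`, block Q-PAR: the partition function with arbitrary boundary phases

`ZQ` (boundary phases `ψ`, charge `f`) is a sum over arrows with the phases `(θ/4) u k + ψ k` on the
sides of the polygon and a flow `g` of the charge.
-/

namespace Vale.Agent.P167.H718

open Finset Complex
open Vale.Agent.P167.E6 (IsPolygon Encloses dir)
open Vale.Agent.P167.BR
open Vale.Agent.P167.H871 (Bd strand_turn)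
open Vale.Agent.P167.FK (cf)
open Vale.Agent.P167.H199 (strand ret sum_strand)
open Vale.Agent.P167.XDL (bS mem_bS const_sites strand_in pot_two mass_pot exists_idx be_ne P4_be
  lp_disj W_base)
open Vale.Agent.P167.QX (wQ XQ ZQ lo hi lo_xy hi_xy)

variable {D : Finset (ℤ × ℤ)} {ω : Cfg} {A : Finset Ed} {e : Ed} {θ : ℝ} {n : ℕ}
  {q : ZMod n → ℤ × ℤ} {u : ℕ → ℤ} {ψ P : ℕ → ℝ} {g : Ed → ℝ} {f : ℤ × ℤ → ℝ}

/-! ### flows of a charge -/

/-- `g` is a flow of the charge `f` with the charge `- ∑ f` at `p`. -/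
def Flw (D : Finset (ℤ × ℤ)) (p : ℤ × ℤ) (f : ℤ × ℤ → ℝ) (g : Ed → ℝ) : Prop :=
  ∀ (A : Finset Ed) (w : ℤ × ℤ → ℤ), A ⊆ eds D → PotD D A w →
    ∑ x ∈ A, g x = ∑ z ∈ sites D, f z * (w z - w p : ℤ)

/-- Flow of a unit charge. -/
theorem exists_unit (hq : IsPolygon q) (hD : Encloses q D) {z : ℤ × ℤ} (hz : z ∈ sites D) :
    ∃ g : Ed → ℝ, ∀ (A : Finset Ed) (w : ℤ × ℤ → ℤ), A ⊆ eds D → PotD D A w →
      ∑ x ∈ A, g x = (w z - w (q 0) : ℤ) := by
  classical
  have h := const_sites hq hD (α := Prop) (g := fun z => ∃ g : Ed → ℝ,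
    ∀ (A : Finset Ed) (w : ℤ × ℤ → ℤ), A ⊆ eds D → PotD D A w →
      ∑ x ∈ A, g x = (w z - w (q 0) : ℤ)) (fun e he => propext ?_) hz
  · rw [h]
    exact ⟨0, fun A w _ _ => by simp⟩
  · constructor
    · rintro ⟨g, hg⟩
      refine ⟨fun x => g x - if x = e then 1 else 0, fun A w hA hw => ?_⟩
      rw [sum_sub_distrib, hg A w hA hw, hw e he]
      simp only [sum_ite_eq']
      split_ifs <;> push_cast <;> ring
    · rintro ⟨g, hg⟩
      refine ⟨fun x => g x + if x = e then 1 else 0, fun A w hA hw => ?_⟩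
      rw [sum_add_distrib, hg A w hA hw, hw e he]
      simp only [sum_ite_eq']
      split_ifs <;> push_cast <;> ring

theorem exists_flw (hq : IsPolygon q) (hD : Encloses q D) (f : ℤ × ℤ → ℝ) :
    ∃ g, Flw D (q 0) f g := by
  classical
  have h : ∀ z : ℤ × ℤ, ∃ g : Ed → ℝ, z ∈ sites D →
      ∀ (A : Finset Ed) (w : ℤ × ℤ → ℤ), A ⊆ eds D → PotD D A w →
        ∑ x ∈ A, g x = (w z - w (q 0) : ℤ) := by
    intro z
    by_cases hz : z ∈ sites D
    · obtain ⟨g, hg⟩ := exists_unit hq hD hz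
      exact ⟨g, fun _ => hg⟩
    · exact ⟨0, fun h => absurd h hz⟩
  choose G hG using h
  refine ⟨fun x => ∑ z ∈ sites D, f z * G z x, fun A w hA hw => ?_⟩
  rw [sum_comm]
  refine sum_congr rfl fun z hz => ?_
  rw [← mul_sum, hG z hz A w hA hw]

/-- Translated flow. -/
theorem Flw.sh {a p : ℤ × ℤ} (ha : ¬ Even (a.1 + a.2)) (h : Flw D p f g) :
    Flw (D.image (· + a)) (p + a) (fun z => - f (z - a)) (fun e => g (H135.shE (-a) e)) := by
  classical
  intro A w hA hw
  have ha' : ¬ Even ((-a).1 + (-a).2) := by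
    rw [Int.even_iff] at *
    simp only [Prod.fst_neg, Prod.snd_neg]
    omega
  have h1 := potD_sh (a := -a) hw
  simp only [ha', if_false] at h1
  rw [tr_neg] at h1
  have h2 : A.image (H135.shE (-a)) ⊆ eds D := by
    have : (eds D : Finset Ed) = (eds (D.image (· + a))).image (H135.shE (-a)) := by
      rw [← eds_tr, tr_neg]
    rw [this]
    exact image_subset_image hA
  have h3 := h _ _ h2 h1
  rw [sum_image fun x _ y _ h => H135.shE_inj _ h] at h3
  rw [h3, sites_tr, sum_image fun x _ y _ h => add_right_cancel h]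
  refine sum_congr rfl fun z _ => ?_
  simp only [add_sub_cancel_right, sub_neg_eq_add]
  push_cast
  ring

/-! ### phases -/

open Classical in
/-- The phases of the arrows: `P` on the sides, for the arrow which points to the inside. -/
noncomputable def phi (q : ZMod n → ℤ × ℤ) (D : Finset (ℤ × ℤ)) (P : ℕ → ℝ) (g : Ed → ℝ)
    (e : Ed) : ℝ :=
  (∑ k ∈ range n, if e = be q (k : ZMod n) then (if hdv e ∈ D then P k else - P k) else 0) + g e

theorem phi_be (hq : IsPolygon q) {k : ℕ} (hk : k < n) (P : ℕ → ℝ) (g : Ed → ℝ) :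
    phi q D P g (be q (k : ZMod n)) =
      (if hdv (be q (k : ZMod n)) ∈ D then P k else - P k) + g (be q (k : ZMod n)) := by
  classical
  unfold phi
  congr 1
  rw [sum_eq_single_of_mem k (mem_range.2 hk)]
  · rw [if_pos rfl]
  · intro j hj hjk
    rw [if_neg]
    exact be_ne hq hk (mem_range.1 hj) (Ne.symm hjk)

theorem phi_off (hq : IsPolygon q) (hD : Encloses q D) (P : ℕ → ℝ) (g : Ed → ℝ) {e : Ed}
    (he : e ∉ bS D) : phi q D P g e = g e := by
  classical
  unfold phi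
  rw [sum_eq_zero, zero_add]
  intro k _
  rw [if_neg]
  rintro rfl
  apply he
  rw [mem_bS]
  rcases be_bd hq hD (k : ZMod n) with h | h
  · exact Or.inl h
  · exact Or.inr h.symm

/-- The angle of a piece. -/
noncomputable def ang (θ : ℝ) (D : Finset (ℤ × ℤ)) (φ : Ed → ℝ) (ω : Cfg) (A : Finset Ed) : ℝ :=
  ∑ x ∈ A, (φ x + if hdv x ∈ D then θ / 4 * (trn ω x : ℝ) else 0)

/-- The angle of a loop. -/
theorem cos_ang_loop (hq : IsPolygon q) (hD : Encloses q D) (hg : Flw D (q 0) f g)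
    (hA : A ∈ pcs ω D) (hl : IsLp D A) :
    Real.cos (ang θ D (phi q D P g) ω A) = Real.cos (θ + mass D (q 0) f A) := by
  classical
  have hloop := hl.isLoop hA
  have hpot : PotD D A (W A) := fun e _ => s_jump ω A hloop e
  have e1 : ang θ D (phi q D P g) ω A = θ / 4 * ((∑ x ∈ A, trn ω x : ℤ) : ℝ) + ∑ x ∈ A, g x := by
    unfold ang
    rw [sum_add_distrib, add_comm]
    congr 1
    · push_cast
      rw [mul_sum]
      refine sum_congr rfl fun x hx => ?_
      rw [if_pos (hl x hx)]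
    · refine sum_congr rfl fun x hx => phi_off hq hD _ _ fun h => ?_
      exact Finset.disjoint_left.1 (lp_disj hA hl) hx h
  rw [e1, hg A _ (subset_eds hA) hpot]
  have hw0 := W_base hq hD hA hl
  rcases turn_loop hloop with ⟨h1, h2⟩ | ⟨h1, h2⟩
  · obtain ⟨m1, -⟩ := mass_pot hq hD hpot (κ := 0) (fun z _ => by simpa using h2 z) f
    rw [m1 hw0, h1]
    congr 1
    push_cast
    ring
  · obtain ⟨-, m2⟩ := mass_pot hq hD hpot (κ := -1) (fun z _ => by
      rcases h2 z with h | h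
      · exact Or.inr (by rw [h]; norm_num)
      · exact Or.inl h) f
    rw [m2 (by rw [hw0]; norm_num), h1, ← Real.cos_neg]
    congr 1
    push_cast
    ring

/-- The angle of a strand. -/
theorem cos_ang_strand (hq : IsPolygon q) (hD : Encloses q D)
    (hu : Bd (D : Set (ℤ × ℤ)) n (fun k => q (k : ZMod n)) u 1) (hg : Flw D (q 0) f g)
    (hA : A ∈ pcs ω D) (hl : ¬ IsLp D A) :
    Real.cos (ang θ D (phi q D (fun k => θ / 4 * u k + ψ k) g) ω A) =
      Real.cos (θ / 2 + ψ (hi q A) - ψ (lo q A) + mass D (q 0) f A) := by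
  classical
  obtain ⟨e, heA, h2⟩ := exists_entry hA hl
  have he : e ∈ eds D := subset_eds hA heA
  have h1 : hdv e ∈ D := (mem_eds.1 he).resolve_right h2
  obtain rfl : A = piece ω D e := eq_piece_of_mem hA heA
  obtain ⟨m, hm, hr, hin, hx, hn, hp⟩ := strand_in (ω := ω) h1 h2
  have hxA : (nx ω)^[m] e ∈ piece ω D e := by rw [hp]; exact mem_insert_self _ _
  have htx : tlv ((nx ω)^[m] e) ∈ D := by
    obtain ⟨j, rfl⟩ : ∃ j, m = j + 1 := ⟨m - 1, by omega⟩
    rw [Function.iterate_succ_apply', tlv_nx]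
    exact hin j (by omega)
  obtain ⟨i, hi, hei⟩ := exists_idx hq hD hu (mem_bS.2 (Or.inl ⟨h1, h2⟩))
  obtain ⟨j, hj, hej⟩ := exists_idx hq hD hu (mem_bS.2 (Or.inr ⟨hx, htx⟩))
  obtain ⟨hij, hT⟩ := strand_turn hu (ω := ω) (e := e) hm hi hj
    (by rw [hei]; exact P4_be hq hu i) (by rw [hej]; exact P4_be hq hu j) hin h2 hx
  have hevi : Even ((q (i : ZMod n)).1 + (q (i : ZMod n)).2) := by
    by_contra h
    obtain ⟨_, _, _, h4⟩ := be_odd hq hD h
    rw [← hei] at h4
    exact h4 h1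
  have hsi : ls e = q (i : ZMod n) := by rw [hei]; exact (be_even hq hD hevi).1
  have hodj : ¬ Even ((q (j : ZMod n)).1 + (q (j : ZMod n)).2) := by
    intro h
    obtain ⟨_, _, h4, _⟩ := be_even hq hD h
    rw [← hej] at h4
    exact hx h4
  have hsj : rs ((nx ω)^[m] e) = q (j : ZMod n) := by rw [hej]; exact (be_odd hq hD hodj).1
  have hxy : IsXY q (piece ω D e) i j :=
    ⟨hi, hj, by rw [← hei]; exact heA, by rw [← hej]; exact hxA, hevi, hodj⟩
  have hlo := lo_xy hq hD hA hxy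
  have hhi := hi_xy hq hD hA hxy
  -- the turning
  have hturn : ∑ x ∈ piece ω D e, (if hdv x ∈ D then θ / 4 * (trn ω x : ℝ) else 0) =
      θ / 4 * ((u j - u i + (if i < j then -2 else 2) : ℤ) : ℝ) := by
    rw [← hT, hp, sum_insert hn, if_neg hx, zero_add,
      sum_strand (s_nx ω).1 (mem_bS.2 (Or.inl ⟨h1, h2⟩)), hr]
    push_cast
    rw [mul_sum]
    refine sum_congr rfl fun k hk => ?_
    rw [if_pos (hin k (mem_range.1 hk))]
  -- the phases
  have hphi : ∑ x ∈ piece ω D e, phi q D (fun k => θ / 4 * u k + ψ k) g x =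
      (θ / 4 * u i + ψ i) - (θ / 4 * u j + ψ j) + ∑ x ∈ piece ω D e, g x := by
    have hne : e ≠ (nx ω)^[m] e := by
      intro h
      rw [← h] at hx
      exact hx h1
    have hsplit : ∑ x ∈ piece ω D e, (phi q D (fun k => θ / 4 * u k + ψ k) g x - g x) =
        (θ / 4 * u i + ψ i) - (θ / 4 * u j + ψ j) := by
      rw [← sum_subset (s₁ := {e, (nx ω)^[m] e})]
      · rw [sum_pair hne]
        have k1 := phi_be (D := D) hq hi (fun k => θ / 4 * (u k : ℝ) + ψ k) g
        have k2 := phi_be (D := D) hq hj (fun k => θ / 4 * (u k : ℝ) + ψ k) g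
        rw [← hei, if_pos h1] at k1
        rw [← hej, if_neg hx] at k2
        rw [k1, k2]
        ring
      · intro x hx'
        rw [mem_insert, mem_singleton] at hx'
        rcases hx' with rfl | rfl
        · exact heA
        · exact hxA
      · intro x hxA' hx'
        rw [mem_insert, mem_singleton] at hx'
        push Not at hx'
        rw [phi_off hq hD, sub_self]
        intro hxS
        rw [mem_bS] at hxS
        rcases hxS with ⟨_, h⟩ | ⟨h, _⟩
        · exact hx'.1 (entry_unique hA hxA' heA h h2)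
        · exact hx'.2 (exit_unique hA hxA' hxA h hx)
    rw [sum_sub_distrib] at hsplit
    linarith
  -- the potential
  obtain ⟨w, hw⟩ := exists_pot hq hD hA
  obtain ⟨κ, hκ1, hκ2⟩ := pot_two hq hD hA hw
  obtain ⟨m1, m2⟩ := mass_pot hq hD hw hκ2 f
  have hnot : ∀ k < n, k ≠ i → k ≠ j → be q (k : ZMod n) ∉ piece ω D e := by
    intro k hk hki hkj hmem
    rcases (hxy.iff hq hD hA hk).1 hmem with h | h
    · exact hki h
    · exact hkj h
  unfold ang
  rw [sum_add_distrib, hphi, hturn, hg _ w (subset_eds hA) hw, hlo, hhi]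
  rcases Nat.lt_or_ge i j with hlt | hge
  · have hq0 : w (q 0) = κ + 1 := by
      have h4 := pot_arc hq hD hw (Nat.zero_le i) (fun k _ hk => hnot k (by omega) (by omega)
        (by omega))
      rw [Nat.cast_zero] at h4
      rw [← h4, ← hsi]
      exact (hκ1 e heA).2
    rw [m2 hq0, if_pos hlt, max_eq_right hlt.le, min_eq_left hlt.le, ← Real.cos_neg]
    congr 1
    push_cast
    ring
  · have hq0 : w (q 0) = κ := by
      have h4 := pot_arc hq hD hw (Nat.zero_le j) (fun k _ hk => hnot k (by omega) (by omega)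
        (by omega))
      rw [Nat.cast_zero] at h4
      rw [← h4, ← hsj]
      exact (hκ1 _ hxA).1
    rw [m1 hq0, if_neg (by omega), max_eq_left hge, min_eq_right hge]
    congr 1
    push_cast
    ring

/-- The factor of a piece. -/
theorem two_cos_ang (hq : IsPolygon q) (hD : Encloses q D)
    (hu : Bd (D : Set (ℤ × ℤ)) n (fun k => q (k : ZMod n)) u 1) (hg : Flw D (q 0) f g)
    (hA : A ∈ pcs ω D) :
    2 * Real.cos (ang θ D (phi q D (fun k => θ / 4 * u k + ψ k) g) ω A) =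
      wQ θ q D ψ A (mass D (q 0) f A) := by
  unfold wQ
  by_cases hl : IsLp D A
  · rw [if_pos hl, cos_ang_loop hq hD hg hA hl]
  · rw [if_neg hl, cos_ang_strand hq hD hu hg hA hl]

/-- **The partition function as a sum over arrows.** -/
theorem ZQ_arrows (hq : IsPolygon q) (hD : Encloses q D)
    (hu : Bd (D : Set (ℤ × ℤ)) n (fun k => q (k : ZMod n)) u 1) (hg : Flw D (q 0) f g)
    (θ : ℝ) (ψ : ℕ → ℝ) :
    ((ZQ θ q D ψ f : ℝ) : ℂ) = AS θ D (phi q D (fun k => θ / 4 * u k + ψ k) g) := by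
  classical
  rw [← bkw θ D FK.eta0]
  unfold ZQ XQ
  push_cast
  refine sum_congr rfl fun S _ => prod_congr rfl fun A hA => ?_
  rw [← two_cos_ang hq hD hu hg hA]
  unfold ang
  push_cast
  rfl

/-! ### translations of polygons -/

theorem poly_add (hq : IsPolygon q) (a : ℤ × ℤ) : IsPolygon (fun i => q i + a) := by
  refine ⟨hq.1, fun i j h => hq.2.1 (add_right_cancel h), fun i => ?_⟩
  obtain ⟨r, hr⟩ := hq.2.2 i
  refine ⟨r, ?_⟩
  show q (i + 1) + a = q i + a + dir r
  rw [hr]; ring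

theorem encl_add (hD : Encloses q D) (a : ℤ × ℤ) :
    Encloses (fun i => q i + a) (D.image (· + a)) := by
  intro v r
  have e : ∀ r : Fin 4, E6.face v r ∈ D.image (· + a) ↔ E6.face (v - a) r ∈ D := by
    intro r
    rw [mem_tr']
    have : E6.face v r - a = E6.face (v - a) r := by unfold E6.face; ring
    rw [this]
  rw [e, e, ← hD (v - a) r]
  constructor
  · rintro ⟨i, h1, h2⟩
    exact ⟨i, eq_sub_of_add_eq h1, by rw [← sub_eq_iff_eq_add.2 h2.symm]; ring⟩
  · rintro ⟨i, h1, h2⟩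
    refine ⟨i, ?_, ?_⟩
    · show q i + a = v
      rw [h1]; ring
    · show q (i + 1) + a = v + dir r
      rw [h2]; ring

theorem bd_add (hu : Bd (D : Set (ℤ × ℤ)) n (fun k => q (k : ZMod n)) u 1) (a : ℤ × ℤ) :
    Bd ((D.image (· + a) : Finset (ℤ × ℤ)) : Set (ℤ × ℤ)) n (fun k => q (k : ZMod n) + a) u 1 := by
  have hs : ∀ (s : ℤ × ℤ) (d : ℤ), H871.sqL (s + a) d = H871.sqL s d + a := by
    intro s d
    unfold H871.sqL
    ext
    · simp only [Prod.fst_add]; ring
    · simp only [Prod.snd_add]; ring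
  refine ⟨fun k => ?_, hu.turn, hu.per, fun k => ?_, fun k l h1 h2 h => ?_, fun k => ?_, fun k => ?_⟩
  · have h1 := hu.step k
    show q ((k + 1 : ℕ) : ZMod n) + a = q (k : ZMod n) + a + _
    rw [h1]; ring
  · have h1 := hu.perP k
    show q ((k + n : ℕ) : ZMod n) + a = q (k : ZMod n) + a
    rw [h1]
  · exact hu.inj k l h1 h2 (add_right_cancel h)
  · rw [hs, mem_coe, mem_tr]
    exact hu.left k
  · rw [hs, mem_coe, mem_tr]
    exact hu.right k

theorem ce_add (v a : ℤ × ℤ) (r : Fin 4) : ce (v + a) r = H135.shE a (ce v r) := by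
  fin_cases r
  · show (Sum.inr (v.1 + a.1, v.2 + a.2 - 1) : Ed) = Sum.inr (v.1 + a.1, v.2 - 1 + a.2)
    congr 2; ring
  · show (Sum.inl (v.1 + a.1 - 1, v.2 + a.2) : Ed) = Sum.inl (v.1 - 1 + a.1, v.2 + a.2)
    congr 2; ring
  · show (Sum.inr (v.1 + a.1 - 1, v.2 + a.2 - 1) : Ed) = Sum.inr (v.1 - 1 + a.1, v.2 - 1 + a.2)
    congr 2 <;> ring
  · show (Sum.inl (v.1 + a.1 - 1, v.2 + a.2 - 1) : Ed) = Sum.inl (v.1 - 1 + a.1, v.2 - 1 + a.2)
    congr 2 <;> ring

theorem be_add (hq : IsPolygon q) (a : ℤ × ℤ) (i : ZMod n) :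
    be (fun i => q i + a) i = H135.shE a (be q i) := by
  have h1 : E2.ro q i = E2.ro (fun i => q i + a) i := by
    apply E2.ro_unique (poly_add hq a)
    show q (i + 1) + a = q i + a + dir (E2.ro q i)
    rw [E2.ro_spec hq i]; ring
  unfold be
  rw [← h1, ce_add]

/-- The phases of the translated domain. -/
theorem phi_add {a : ℤ × ℤ} (ha : ¬ Even (a.1 + a.2)) (hq : IsPolygon q) (hD : Encloses q D)
    {P P' : ℕ → ℝ} (hP : ∀ k, P' k = - P k) (g : Ed → ℝ) {e : Ed} (he : e ∈ eds D) :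
    phi (fun i => q i + a) (D.image (· + a)) P' (fun e => g (H135.shE (-a) e)) (H135.shE a e) =
      phi q D P g e := by
  classical
  by_cases hb : e ∈ bS D
  · obtain ⟨k, hk, rfl⟩ : ∃ k < n, e = be q (k : ZMod n) := by
      have h1 : ∃ i : ZMod n, e = be q i := by
        rw [mem_bS] at hb
        exact exists_be hq hD he (by tauto)
      have hn0 : NeZero n := ⟨by have := hq.1; omega⟩
      obtain ⟨i, rfl⟩ := h1
      exact ⟨i.val, ZMod.val_lt i, by rw [ZMod.natCast_zmod_val]⟩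
    rw [phi_be hq hk, ← be_add hq a, phi_be (poly_add hq a) hk]
    rw [be_add hq a, H135.shE_neg, hP]
    rw [mem_bS] at hb
    have h3 : hdv (H135.shE a (be q (k : ZMod n))) ∈ D.image (· + a) ↔
        tlv (be q (k : ZMod n)) ∈ D := by
      rw [H135.hdv_sh' ha, mem_tr]
    congr 1
    rcases hb with ⟨h1, h2⟩ | ⟨h1, h2⟩
    · rw [if_neg fun h => h2 (h3.1 h), if_pos h1, neg_neg]
    · rw [if_pos (h3.2 h2), if_neg h1]
  · rw [phi_off hq hD _ _ hb, phi_off (poly_add hq a) (encl_add hD a), H135.shE_neg]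
    rw [mem_bS, H135.hdv_sh' ha, tlv_sh' ha, mem_tr, mem_tr]
    rw [mem_bS] at hb
    tauto

/-- **[Q-PAR]** Arrow reversal and an odd translation. -/
theorem ZQ_par {a : ℤ × ℤ} (ha : ¬ Even (a.1 + a.2)) (hq : IsPolygon q) (hD : Encloses q D)
    (hu : Bd (D : Set (ℤ × ℤ)) n (fun k => q (k : ZMod n)) u 1) (θ : ℝ) (ψ : ℕ → ℝ)
    (f : ℤ × ℤ → ℝ) :
    ZQ θ (fun i => q i + a) (D.image (· + a)) (fun k => - ψ k - θ / 2 * u k)
      (fun z => - f (z - a)) = ZQ θ q D ψ f := by
  obtain ⟨g, hg⟩ := exists_flw hq hD f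
  have h1 := ZQ_arrows hq hD hu hg θ ψ
  have h2 := ZQ_arrows (poly_add hq a) (encl_add hD a) (bd_add hu a) (hg.sh ha) θ
    (fun k => - ψ k - θ / 2 * u k)
  rw [AS_sh ha θ D fun e he => phi_add ha hq hD (fun k => ?_) g he, ← h1] at h2
  · exact_mod_cast h2
  · ring

end Vale.Agent.P167.H718
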