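import Vale.Agent.P167.H718.Rp6

/-!
# P167, general `q`, block Q-SRSW: `S_RP`

`s_rp`: helper452's statement `S_RP θ` (reflection positivity of the strip) for `0 < θ ≤ π / 3`.
-/

namespace Vale.Agent.P167.H718

open Finset Vale.Agent.P167.BR Vale.Agent.P167.FK
open Vale.Agent.P167.XDL (bS mem_bS)
open Vale.Agent.P167.H452 (et St Zs nT S_RP)

variable {θ a : ℝ} {n c s H : ℕ} {φ : Ed → ℝ}

/-- The primal site on the left of an edge is a corner of the square at its head. -/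
theorem ls_hdv (e : Ed) : ((ls e).1 = (hdv e).1 ∨ (ls e).1 = (hdv e).1 + 1) ∧
    ((ls e).2 = (hdv e).2 ∨ (ls e).2 = (hdv e).2 + 1) := by
  rcases e with ⟨x, y⟩ | ⟨x, y⟩ <;> simp only [ls, hdv] <;> split_ifs <;> simp

/-- Free below, wired above. -/
theorem co_bound (hn : 1 ≤ n) (hH : 1 ≤ H) (hs : 0 < Real.sin θ) (hc : 1 ≤ 2 * Real.cos θ)
    (hV : Vl n H φ a (kp θ) a (-kp θ)) : (AS θ (Rt n H) φ).re ≤
      (Real.sin θ)⁻¹ ^ (2 * H) * ((2 * Real.sin θ) ^ Mq n H * ((Real.sin θ)⁻¹ ^ (2 * H) *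
        (Zs (2 * Real.cos θ) n H false true *
          Ex (2 * Real.cos θ) (St n H) (et n H false true) fun ω => (Real.sin θ)⁻¹ ^ nT n H ω))) := by
  refine (AS_le (φ := φ) hn hH (fl_zero hn hH) hs hc (fun e _ he => hV.off e he) (a := a)
    (fun e he => hV.b e he) (fun e he => by rw [hV.t e he]; ring)).trans ?_
  refine mul_le_mul_of_nonneg_left ?_ (by positivity)
  refine ZQ_le hn hH (fl_zero hn hH) (Or.inl ⟨rfl, rfl⟩) hs hc (dob_co hn hH) ?_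
  intro x h1 h2 e he _
  obtain ⟨h3, h4⟩ := ls_hdv e
  have h5 : (ls e).2 < H := by
    rw [he, add_zero, RP_lt (by omega)]
    unfold rf
    split_ifs <;> simp only <;> omega
  unfold et
  split_ifs <;> first | rfl | omega

/-- Wired below, free above. -/
theorem oc_bound (hn : 1 ≤ n) (hH : 1 ≤ H) (hs : 0 < Real.sin θ) (hc : 1 ≤ 2 * Real.cos θ)
    (hV : Vl n H φ a (-kp θ) a (kp θ)) : (AS θ (Rt n H) φ).re ≤
      (Real.sin θ)⁻¹ ^ (2 * H) * ((2 * Real.sin θ) ^ Mq n H * ((Real.sin θ)⁻¹ ^ (2 * H) *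
        (Zs (2 * Real.cos θ) n H true false *
          Ex (2 * Real.cos θ) (St n H) (et n H true false) fun ω => (Real.sin θ)⁻¹ ^ nT n H ω))) := by
  refine (AS_le (φ := φ) hn hH (fl_one hn hH) hs hc (fun e _ he => hV.off e he) (a := a)
    (fun e he => hV.t e he) (fun e he => by rw [hV.b e he]; ring)).trans ?_
  refine mul_le_mul_of_nonneg_left ?_ (by positivity)
  refine ZQ_le hn hH (fl_one hn hH) (Or.inr ⟨rfl, rfl⟩) hs hc (dob_oc hn hH) ?_
  intro x h1 h2 e he _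
  obtain ⟨h3, h4⟩ := ls_hdv e
  have h5 : 0 < (ls e).2 := by
    rw [he]
    rcases Nat.lt_or_ge (x + (H + n)) (2 * n + 2 * H) with h6 | h6
    · rw [RP_lt h6]
      unfold rf
      split_ifs <;> simp only <;> omega
    · rw [show x + (H + n) = 2 * n + 2 * H + (x + (H + n) - (2 * n + 2 * H)) by omega, RP_N,
        RP_lt (by omega)]
      unfold rf
      rw [if_pos (by omega)]
      simp only
      omega
  unfold et
  split_ifs <;> first | rfl | omega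

/-- The two halves. -/
theorem rp_rect {a₁ κ₁ a₂ κ₂ : ℝ} (hV : Vl n (2 * c) φ a₁ κ₁ a₂ κ₂) :
    ‖AS θ (Rt n (2 * c)) φ‖ ^ 2 ≤ (AS θ (Rt n (2 * c)) (dbl (rE c) (eds (Dlo n c)) φ)).re *
      (AS θ (Rt n (2 * c)) (dbl (rE c) (eds (Dup n c)) φ)).re ∧
    0 ≤ (AS θ (Rt n (2 * c)) (dbl (rE c) (eds (Dlo n c)) φ)).re ∧
    0 ≤ (AS θ (Rt n (2 * c)) (dbl (rE c) (eds (Dup n c)) φ)).re := by
  have h0 : ∀ x ∈ eds (Dlo n c) ∩ eds (Dup n c), φ x = 0 := by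
    intro x hx
    refine hV.off x fun hb => ?_
    rw [mem_inter, mem_eds, mem_eds] at hx
    rw [mem_bS] at hb
    have h1 : ∀ v, v ∈ Dlo n c → v ∈ Rt n (2 * c) := fun v hv => by
      rw [← Dlo_union]; exact mem_union_left _ hv
    have h2 : ∀ v, v ∈ Dup n c → v ∈ Rt n (2 * c) := fun v hv => by
      rw [← Dlo_union]; exact mem_union_right _ hv
    have h3 : ∀ v, v ∈ Dlo n c → v ∉ Dup n c := fun v hv => Finset.disjoint_left.1 Dlo_disj hv
    obtain ⟨ha | ha, hb' | hb'⟩ := hx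
    · exact h3 _ ha hb'
    · rcases hb with ⟨_, h4⟩ | ⟨h4, _⟩
      · exact h4 (h2 _ hb')
      · exact h4 (h1 _ ha)
    · rcases hb with ⟨_, h4⟩ | ⟨h4, _⟩
      · exact h4 (h1 _ ha)
      · exact h4 (h2 _ hb')
    · exact h3 _ ha hb'
  have h1 := (rfl_rect n c).rp (θ := θ) Dlo_disj h0
  have h2 := (rfl_rect n c).AS_dbl (θ := θ) Dlo_disj h0
  have h3 := (rfl_rect n c).symm.AS_dbl (θ := θ) Dlo_disj.symm
    (fun x hx => h0 x (by rwa [inter_comm]))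
  rw [Dlo_union] at h1 h2
  rw [union_comm, Dlo_union] at h3
  refine ⟨h1, ?_, ?_⟩
  · rw [h2, Complex.ofReal_re]
    exact sum_nonneg fun τ _ => by positivity
  · rw [h3, Complex.ofReal_re]
    exact sum_nonneg fun τ _ => by positivity

theorem arith_rp {X Y p r p' r' U V Zc Zo m K₁ K₂ : ℝ} (hX : 0 ≤ X) (hY : 0 ≤ Y) (hm : 0 < m)
    (h1 : X ^ 2 ≤ p * r) (hp : 0 ≤ p) (hr : 0 ≤ r) (hpU : p ≤ m * U) (hrV : r ≤ m * V)
    (h2 : Y ^ 2 ≤ p' * r') (hp' : 0 ≤ p') (hr' : 0 ≤ r') (hpV : p' ≤ m * V) (hrU : r' ≤ m * U)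
    (h3 : m * Zc ≤ K₁ * X) (h4 : m * Zo ≤ K₂ * Y) (hZc : 0 ≤ Zc) (hZo : 0 ≤ Zo)
    (hK₁ : 0 ≤ K₁) (hK₂ : 0 ≤ K₂) : Zc * Zo ≤ K₁ * K₂ * (U * V) := by
  have hU : 0 ≤ U := by
    by_contra h
    push Not at h
    have := mul_neg_of_pos_of_neg hm h
    linarith
  have hV : 0 ≤ V := by
    by_contra h
    push Not at h
    have := mul_neg_of_pos_of_neg hm h
    linarith
  have e1 : X ^ 2 ≤ (m * U) * (m * V) := h1.trans (mul_le_mul hpU hrV hr (by positivity))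
  have e2 : Y ^ 2 ≤ (m * V) * (m * U) := h2.trans (mul_le_mul hpV hrU hr' (by positivity))
  have e3 : (X * Y) ^ 2 ≤ ((m * U) * (m * V)) ^ 2 := by
    rw [mul_pow]
    calc X ^ 2 * Y ^ 2 ≤ ((m * U) * (m * V)) * ((m * V) * (m * U)) :=
          mul_le_mul e1 e2 (by positivity) (by positivity)
      _ = _ := by ring
  have e4 : X * Y ≤ (m * U) * (m * V) := le_of_sq_le_sq e3 (by positivity)
  have e5 : (m * Zc) * (m * Zo) ≤ (K₁ * X) * (K₂ * Y) :=
    mul_le_mul h3 h4 (by positivity) (by positivity)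
  have e6 : (K₁ * X) * (K₂ * Y) ≤ K₁ * K₂ * ((m * U) * (m * V)) := by
    have := mul_le_mul_of_nonneg_left e4 (mul_nonneg hK₁ hK₂)
    linarith
  have e7 : m ^ 2 * (Zc * Zo) ≤ m ^ 2 * (K₁ * K₂ * (U * V)) := by
    have e8 : m ^ 2 * (Zc * Zo) = (m * Zc) * (m * Zo) := by ring
    have e9 : m ^ 2 * (K₁ * K₂ * (U * V)) = K₁ * K₂ * ((m * U) * (m * V)) := by ring
    rw [e8, e9]
    exact e5.trans e6
  exact le_of_mul_le_mul_left e7 (by positivity)

/-- **Reflection positivity of the strip** (statement of helper452). -/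
theorem s_rp (h0 : 0 < θ) (h1 : θ ≤ Real.pi / 3) : S_RP θ := by
  have hpi := Real.pi_pos
  have hs : 0 < Real.sin θ := Real.sin_pos_of_pos_of_lt_pi h0 (by linarith)
  have hcos : 1 / 2 ≤ Real.cos θ := by
    rw [← Real.cos_pi_div_three]
    exact Real.cos_le_cos_of_nonneg_of_le_pi h0.le (by linarith) h1
  have hc : 1 ≤ 2 * Real.cos θ := by linarith
  have hQ0 : 0 < 2 * Real.cos θ := by linarith
  intro H' hH' hev
  obtain ⟨c, rfl⟩ : ∃ c : ℕ, H' = ((2 * c : ℕ) : ℤ) := by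
    obtain ⟨b, hb⟩ := hev
    exact ⟨b.toNat, by push_cast; omega⟩
  have hc1 : 1 ≤ c := by omega
  have hH : 1 ≤ 2 * c := by omega
  refine ⟨2 * Real.cos θ * (2 * Real.cos θ) ^ (4 * (2 * c + 2) + 1) *
    ((Real.sin θ)⁻¹ ^ (2 * (2 * c)) * (Real.sin θ)⁻¹ ^ (2 * (2 * c))) ^ 2, by positivity, ?_⟩
  intro n' hn'
  obtain ⟨n, rfl⟩ := Int.eq_ofNat_of_zero_le (show 0 ≤ n' by omega)
  have hn : 1 ≤ n := by omega
  have hF := vl_fF (H := 2 * c) hn hH θ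
  have hW := vl_fW (H := 2 * c) hn hH θ
  obtain ⟨r1, r2, r3⟩ := rp_rect (θ := θ) hF
  obtain ⟨w1, w2, w3⟩ := rp_rect (θ := θ) hW
  have hW1 := hW.lower hc1
  have hW2 := hW.upper hc1
  rw [neg_neg] at hW1 hW2
  have b1 := co_bound hn hH hs hc (hF.lower hc1)
  have b2 := oc_bound hn hH hs hc (hF.upper hc1)
  have b3 := oc_bound hn hH hs hc hW1
  have b4 := co_bound hn hH hs hc hW2
  have c1 := AS_fF hn hH hs hc
  have c2 := AS_fW hn hH hs hc
  have hm : 0 < (2 * Real.sin θ) ^ Mq n (2 * c) := by positivity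
  set m := (2 * Real.sin θ) ^ Mq n (2 * c)
  set K := (Real.sin θ)⁻¹ ^ (2 * (2 * c))
  set Eco := Ex (2 * Real.cos θ) (St n (2 * c : ℕ)) (et n (2 * c : ℕ) false true)
    fun ω => (Real.sin θ)⁻¹ ^ nT n (2 * c : ℕ) ω
  set Eoc := Ex (2 * Real.cos θ) (St n (2 * c : ℕ)) (et n (2 * c : ℕ) true false)
    fun ω => (Real.sin θ)⁻¹ ^ nT n (2 * c : ℕ) ω
  have hZ : ∀ a b : Bool, 0 ≤ Zs (2 * Real.cos θ) n (2 * c : ℕ) a b := fun a b =>
    (FKA.Zq_pos hQ0 _ _).le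
  have key := arith_rp (U := K * (K * (Zs (2 * Real.cos θ) n (2 * c : ℕ) false true * Eco)))
    (V := K * (K * (Zs (2 * Real.cos θ) n (2 * c : ℕ) true false * Eoc)))
    (norm_nonneg (AS θ (Rt n (2 * c)) (fF θ n (2 * c))))
    (norm_nonneg (AS θ (Rt n (2 * c)) (fW θ n (2 * c)))) hm r1 r2 r3
    (by linarith [b1]) (by linarith [b2]) w1 w2 w3 (by linarith [b3]) (by linarith [b4]) c1 c2
    (hZ _ _) (hZ _ _) hQ0.le (by positivity)
  calc _ ≤ _ := key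
    _ = _ := by ring

end Vale.Agent.P167.H718
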