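import Vale.Agent.P167.H718.Par5

/-!
# P167, general `q`, block Q-PAR: parity identities for the Dobrushin models

`im_XW`, `im_XTW`, `im_SE`: value, derivative in a charge and derivative in a boundary phase of the
normalised functional of `D` and of its parity image in `D + a`.
-/

namespace Vale.Agent.P167.H718

open Finset
open Vale.Agent.P167.E6 (IsPolygon Encloses dir)
open Vale.Agent.P167.BR
open Vale.Agent.P167.FK (cf eta0 Ex)
open Vale.Agent.P167.H871 (Bd)
open Vale.Agent.P167.QX (wQ XQ ZQ lo hi lo_xy hi_xy stag exists_xy wB XQ_stag wQ_strand wB_zero)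
open Vale.Agent.P167.H365 (se sgA sgn sgA_eq)
open Vale.Agent.P167.H365.NQ (XW TW XTW SW fe)

variable {D : Finset (ℤ × ℤ)} {ω η : Cfg} {A : Finset Ed} {e : Ed} {θ β Q : ℝ} {n k x y j : ℕ}
  {q : ZMod n → ℤ × ℤ} {u : ℕ → ℤ} {ψ ρ : ℕ → ℝ} {f g : ℤ × ℤ → ℝ} {z : ℤ × ℤ}

/-! ### identities of sums -/

section

variable {a : ℤ × ℤ} (ha : ¬ Even (a.1 + a.2)) (hq : IsPolygon q) (hD : Encloses q D)
  (hu : Bd (D : Set (ℤ × ℤ)) n (fun k => q (k : ZMod n)) u 1)
include ha hq hD hu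

theorem sum_image (θ β : ℝ) (k : ℕ) (f : ℤ × ℤ → ℝ) :
    ZQ θ (fun i => q i + a) (D.image (· + a)) (stag θ β (fun i => q i + a) k)
      (imC θ β u q k a f) = ZQ θ q D (stag θ β q k) f := by
  have h := ZQ_image ha hq hD hu θ β k (fun _ => 0) f
  simpa using h

theorem sum_XTW (θ β : ℝ) (k : ℕ) (f : ℤ × ℤ → ℝ) (hz : z ∈ sites D) :
    ∑ S ∈ (D.image (· + a)).powerset, XTW (D.image (· + a)) (q 0 + a)
        (Wt θ (fun i => q i + a) (D.image (· + a)) (stag θ β (fun i => q i + a) k) (imC θ β u q k a f))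
        (Wt' θ (fun i => q i + a) (D.image (· + a)) (stag θ β (fun i => q i + a) k) (imC θ β u q k a f))
        (z + a) (cf (D.image (· + a)) eta0 S) =
      - ∑ S ∈ D.powerset, XTW D (q 0) (Wt θ q D (stag θ β q k) f) (Wt' θ q D (stag θ β q k) f) z
        (cf D eta0 S) := by
  have hz' : z + a ∈ sites (D.image (· + a)) := by
    rw [sites_tr]
    exact mem_image_of_mem _ hz
  have h1 := hasDerivAt_charge (θ := θ) (q := q) (ψ := stag θ β q k) (f := f) hz
  have h2 := hasDerivAt_charge (θ := θ) (q := fun i => q i + a)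
    (ψ := stag θ β (fun i => q i + a) k) (f := imC θ β u q k a f) hz'
  have h3 : HasDerivAt (fun t : ℝ => -t) (-1) (0 : ℝ) := (hasDerivAt_id (0 : ℝ)).neg
  have h4 := HasDerivAt.comp (h := fun t : ℝ => -t) (0 : ℝ) (by rw [neg_zero]; exact h2) h3
  have h5 : (fun t => ZQ θ (fun i => q i + a) (D.image (· + a)) (stag θ β (fun i => q i + a) k)
      (addc (imC θ β u q k a f) (z + a) t)) ∘ (fun t : ℝ => -t) =
      fun t => ZQ θ q D (stag θ β q k) (addc f z t) := by
    funext t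
    rw [Function.comp, ← sum_image ha hq hD hu θ β k (addc f z t)]
    congr 1
    funext z'
    unfold addc imC
    show -f (z' - a) + gch (fun i => q i + a) (rc θ β u k) z' + (if z' = z + a then -t else 0) =
      -(f (z' - a) + if z' - a = z then t else 0) + gch (fun i => q i + a) (rc θ β u k) z'
    by_cases h : z' = z + a
    · rw [if_pos h, if_pos (show z' - a = z by rw [h]; abel)]
      ring
    · rw [if_neg h, if_neg (fun h' => h (by rw [← h']; abel))]
      ring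
  rw [h5] at h4
  have h6 := h4.unique h1
  linarith

theorem sum_SE (θ β : ℝ) (k : ℕ) (f : ℤ × ℤ → ℝ) (hj : j < n) :
    ∑ S ∈ (D.image (· + a)).powerset, SE (D.image (· + a)) (q 0 + a)
        (Wt θ (fun i => q i + a) (D.image (· + a)) (stag θ β (fun i => q i + a) k) (imC θ β u q k a f))
        (Wt' θ (fun i => q i + a) (D.image (· + a)) (stag θ β (fun i => q i + a) k) (imC θ β u q k a f))
        (H135.shE a (be q (j : ZMod n))) (cf (D.image (· + a)) eta0 S) =
      ∑ S ∈ D.powerset, SE D (q 0) (Wt θ q D (stag θ β q k) f) (Wt' θ q D (stag θ β q k) f)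
        (be q (j : ZMod n)) (cf D eta0 S) := by
  have h1 := hasDerivAt_phase (θ := θ) (ψ := stag θ β q k) (f := f) hq hD hj
  have h2 := hasDerivAt_phase (θ := θ) (ψ := stag θ β (fun i => q i + a) k)
    (f := imC θ β u q k a f) (poly_add hq a) (encl_add hD a) hj
  rw [be_add hq a] at h2
  have h3 : HasDerivAt (fun t : ℝ => -t) (-1) (0 : ℝ) := (hasDerivAt_id (0 : ℝ)).neg
  have h4 := HasDerivAt.comp (h := fun t : ℝ => -t) (0 : ℝ) (by rw [neg_zero]; exact h2) h3
  have h5 : (fun t => ZQ θ (fun i => q i + a) (D.image (· + a))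
      (addp (stag θ β (fun i => q i + a) k) j t) (imC θ β u q k a f)) ∘ (fun t : ℝ => -t) =
      fun t => ZQ θ q D (addp (stag θ β q k) j t) f := by
    funext t
    have h6 := ZQ_image ha hq hD hu θ β k (fun i => if i = j then t else 0) f
    have e1 : addp (stag θ β q k) j t = fun z => stag θ β q k z + if z = j then t else 0 := rfl
    have e2 : addp (stag θ β (fun i => q i + a) k) j (-t) =
        fun z => stag θ β (fun i => q i + a) k z - if z = j then t else 0 := by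
      funext i
      unfold addp
      split_ifs <;> ring
    rw [Function.comp, e1, e2, h6]
  rw [h5] at h4
  have h6 := h4.unique h1
  have h7 : sg1 (fun i => q i + a) j = - sg1 q j := by
    unfold sg1
    have h : Even (((fun i => q i + a) (j : ZMod n)).1 + ((fun i => q i + a) (j : ZMod n)).2) ↔
        ¬ Even ((q (j : ZMod n)).1 + (q (j : ZMod n)).2) := by
      simp only [Prod.fst_add, Prod.snd_add]
      rw [Int.even_iff] at ha
      rw [Int.even_iff, Int.even_iff]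
      omega
    by_cases h1 : Even ((q (j : ZMod n)).1 + (q (j : ZMod n)).2)
    · rw [if_pos h1, if_neg (fun h' => h.1 h' h1)]
    · rw [if_neg h1, if_pos (h.2 h1), neg_neg]
  have h8 : sg1 q j ≠ 0 := by
    unfold sg1
    split_ifs <;> norm_num
  rw [h7] at h6
  have h9 : sg1 q j * (∑ S ∈ (D.image (· + a)).powerset, SE (D.image (· + a)) (q 0 + a)
        (Wt θ (fun i => q i + a) (D.image (· + a)) (stag θ β (fun i => q i + a) k) (imC θ β u q k a f))
        (Wt' θ (fun i => q i + a) (D.image (· + a)) (stag θ β (fun i => q i + a) k) (imC θ β u q k a f))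
        (H135.shE a (be q (j : ZMod n))) (cf (D.image (· + a)) eta0 S)) =
      sg1 q j * ∑ S ∈ D.powerset, SE D (q 0) (Wt θ q D (stag θ β q k) f)
        (Wt' θ q D (stag θ β q k) f) (be q (j : ZMod n)) (cf D eta0 S) := by
    linarith
  exact mul_left_cancel₀ h8 h9

end

/-! ### expectations -/

/-- The normalised weights. -/
noncomputable def wn (θ β : ℝ) (q : ZMod n → ℤ × ℤ) (D : Finset (ℤ × ℤ)) (k : ℕ)
    (f : ℤ × ℤ → ℝ) (A : Finset Ed) : ℝ :=
  Wt θ q D (stag θ β q k) f A / wQ θ q D (stag θ β q k) A 0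

/-- Minus the derivatives of the normalised weights. -/
noncomputable def wn' (θ β : ℝ) (q : ZMod n → ℤ × ℤ) (D : Finset (ℤ × ℤ)) (k : ℕ)
    (f : ℤ × ℤ → ℝ) (A : Finset Ed) : ℝ :=
  Wt' θ q D (stag θ β q k) f A / wQ θ q D (stag θ β q k) A 0

section

variable (hq : IsPolygon q) (hD : Encloses q D) (hs : Real.sin θ ≠ 0) (hc : 0 < Real.cos θ)
  (hβ : Real.cos (θ / 2 + β) = Real.sin θ)
include hq hD hs hc hβ

theorem nat_ne (hA : A ∈ pcs ω D) : wQ θ q D (stag θ β q k) A 0 ≠ 0 := by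
  classical
  by_cases hl : IsLp D A
  · unfold wQ
    rw [if_pos hl, add_zero]
    positivity
  · rw [wQ_strand hq hD hA hl hs hc.ne', wB_zero hs hc.ne' hβ, mul_one]
    refine mul_ne_zero (mul_ne_zero two_ne_zero hs) ?_
    split_ifs
    · positivity
    · norm_num

/-- `wn` is 944's `wB`. -/
theorem wn_eq (hA : A ∈ pcs ω D) : wn θ β q D k f A = wB θ β q D k A (mass D (q 0) f A) := by
  classical
  have h := nat_ne (k := k) hq hD hs hc hβ hA
  unfold wn Wt
  rw [div_eq_iff h]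
  by_cases hl : IsLp D A
  · unfold wQ wB
    rw [if_pos hl, if_pos hl, if_pos hl, add_zero]
    field_simp
  · rw [wQ_strand hq hD hA hl hs hc.ne', wQ_strand hq hD hA hl hs hc.ne', wB_zero hs hc.ne' hβ]
    ring

theorem prod_nat (ω : Cfg) : ∏ A ∈ pcs ω D, wQ θ q D (stag θ β q k) A 0 =
    (2 * Real.sin θ) ^ ((XDL.bS D).filter fun e => hdv e ∈ D).card *
      ∏ A ∈ pcs ω D, open Classical in if IsCl D q k A then 2 * Real.cos θ else 1 := by
  classical
  have h := XQ_stag (k := k) (β := β) hq hD hs hc.ne' 0 ω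
  rw [QX.XB_zero hs hc.ne' hβ, mul_one] at h
  rw [← h]
  unfold XQ
  refine prod_congr rfl fun A _ => ?_
  have : mass D (q 0) 0 A = 0 := by unfold mass; simp
  rw [this]

/-- **Expectations in the Dobrushin model.** -/
theorem Ex_nat (hk : k ≤ n) (hη : Dob η D q k) {F G : Cfg → ℝ}
    (hFG : ∀ ω, (∏ A ∈ pcs ω D, wQ θ q D (stag θ β q k) A 0) * F ω = G ω)
    (hG : ∀ ω ω' : Cfg, (∀ v ∈ D, ω v = ω' v) → G ω = G ω') :
    Ex (2 * Real.cos θ) D η F = (∑ S ∈ D.powerset, G (cf D eta0 S)) / ZQ θ q D (stag θ β q k) 0 := by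
  classical
  have h0 : (0 : ℝ) < 2 * Real.cos θ := by linarith
  rw [Ex_eq hq hD hk hη h0]
  set M := ((XDL.bS D).filter fun e => hdv e ∈ D).card with hM
  have hM0 : (2 * Real.sin θ) ^ M ≠ 0 := pow_ne_zero _ (mul_ne_zero two_ne_zero hs)
  have hin : ∀ S : Finset (ℤ × ℤ), ∀ v ∈ D, cf D η S v = cf D eta0 S v := fun S v hv => by
    simp [cf, hv]
  have h1 : ZQ θ q D (stag θ β q k) 0 = (2 * Real.sin θ) ^ M *
      ∑ S ∈ D.powerset, ∏ A ∈ pcs (cf D η S) D, if IsCl D q k A then 2 * Real.cos θ else 1 := by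
    unfold ZQ
    rw [mul_sum]
    refine sum_congr rfl fun S _ => ?_
    rw [XQ_stag hq hD hs hc.ne', QX.XB_zero hs hc.ne' hβ, mul_one, pcs_congr (hin S)]
  have h2 : ∑ S ∈ D.powerset, G (cf D eta0 S) = (2 * Real.sin θ) ^ M *
      ∑ S ∈ D.powerset, (∏ A ∈ pcs (cf D η S) D, if IsCl D q k A then 2 * Real.cos θ else 1) *
        F (cf D η S) := by
    rw [mul_sum]
    refine sum_congr rfl fun S _ => ?_
    rw [← hG _ _ (hin S), ← hFG, prod_nat hq hD hs hc hβ]
    ring
  rw [h1, h2, mul_div_mul_left _ _ hM0]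

theorem XW_nat (f : ℤ × ℤ → ℝ) (ω : Cfg) :
    (∏ A ∈ pcs ω D, wQ θ q D (stag θ β q k) A 0) * XW D (wn θ β q D k f) ω =
      XQ θ q D (stag θ β q k) f ω := by
  unfold XW XQ
  rw [← prod_mul_distrib]
  refine prod_congr rfl fun A hA => ?_
  have h := nat_ne (k := k) hq hD hs hc hβ hA
  unfold wn Wt
  field_simp

theorem TW_nat (f : ℤ × ℤ → ℝ) (hA : A ∈ pcs ω D) :
    (∏ A ∈ pcs ω D, wQ θ q D (stag θ β q k) A 0) * TW D (wn θ β q D k f) (wn' θ β q D k f) ω A =
      TW D (Wt θ q D (stag θ β q k) f) (Wt' θ q D (stag θ β q k) f) ω A := by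
  classical
  unfold TW
  rw [← mul_prod_erase _ _ hA]
  have h := nat_ne (k := k) hq hD hs hc hβ hA
  have h1 : (∏ B ∈ (pcs ω D).erase A, wQ θ q D (stag θ β q k) B 0) *
      ∏ B ∈ (pcs ω D).erase A, wn θ β q D k f B =
      ∏ B ∈ (pcs ω D).erase A, Wt θ q D (stag θ β q k) f B := by
    rw [← prod_mul_distrib]
    refine prod_congr rfl fun B hB => ?_
    have h := nat_ne (k := k) hq hD hs hc hβ (mem_of_mem_erase hB)
    unfold wn
    field_simp
  rw [← h1]
  unfold wn'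
  field_simp

theorem XTW_nat (f : ℤ × ℤ → ℝ) (z : ℤ × ℤ) (ω : Cfg) :
    (∏ A ∈ pcs ω D, wQ θ q D (stag θ β q k) A 0) *
      XTW D (q 0) (wn θ β q D k f) (wn' θ β q D k f) z ω =
      XTW D (q 0) (Wt θ q D (stag θ β q k) f) (Wt' θ q D (stag θ β q k) f) z ω := by
  unfold XTW
  rw [mul_sum]
  refine sum_congr rfl fun A hA => ?_
  rw [← mul_assoc, TW_nat hq hD hs hc hβ f hA]

theorem SE_nat (f : ℤ × ℤ → ℝ) (he : e ∈ eds D) (ω : Cfg) :
    (∏ A ∈ pcs ω D, wQ θ q D (stag θ β q k) A 0) *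
      SE D (q 0) (wn θ β q D k f) (wn' θ β q D k f) e ω =
      SE D (q 0) (Wt θ q D (stag θ β q k) f) (Wt' θ q D (stag θ β q k) f) e ω := by
  unfold SE
  rw [← mul_assoc, TW_nat hq hD hs hc hβ f (piece_mem_pcs he)]

/-- The value. -/
theorem Ex_XW (hk : k ≤ n) (hη : Dob η D q k) (f : ℤ × ℤ → ℝ) :
    Ex (2 * Real.cos θ) D η (XW D (wn θ β q D k f)) =
      ZQ θ q D (stag θ β q k) f / ZQ θ q D (stag θ β q k) 0 := by
  rw [Ex_nat hq hD hs hc hβ hk hη (G := XQ θ q D (stag θ β q k) f)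
    (XW_nat hq hD hs hc hβ f) fun ω ω' h => by unfold XQ; rw [pcs_congr h]]
  rfl

/-- The derivative in a charge. -/
theorem Ex_XTW (hk : k ≤ n) (hη : Dob η D q k) (f : ℤ × ℤ → ℝ) (z : ℤ × ℤ) :
    Ex (2 * Real.cos θ) D η (XTW D (q 0) (wn θ β q D k f) (wn' θ β q D k f) z) =
      (∑ S ∈ D.powerset, XTW D (q 0) (Wt θ q D (stag θ β q k) f) (Wt' θ q D (stag θ β q k) f) z
        (cf D eta0 S)) / ZQ θ q D (stag θ β q k) 0 :=
  Ex_nat hq hD hs hc hβ hk hη (XTW_nat hq hD hs hc hβ f z) fun ω ω' h => by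
    unfold XTW TW; rw [pcs_congr h]

/-- The derivative in a boundary phase. -/
theorem Ex_SE (hk : k ≤ n) (hη : Dob η D q k) (f : ℤ × ℤ → ℝ) (he : e ∈ eds D) :
    Ex (2 * Real.cos θ) D η (SE D (q 0) (wn θ β q D k f) (wn' θ β q D k f) e) =
      (∑ S ∈ D.powerset, SE D (q 0) (Wt θ q D (stag θ β q k) f) (Wt' θ q D (stag θ β q k) f) e
        (cf D eta0 S)) / ZQ θ q D (stag θ β q k) 0 :=
  Ex_nat hq hD hs hc hβ hk hη (SE_nat hq hD hs hc hβ f he) fun ω ω' h => by
    unfold SE TW; rw [pcs_congr h, piece_congr h]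

theorem ZQ_stag_pos (hs' : 0 < Real.sin θ) : 0 < ZQ θ q D (stag θ β q k) 0 := by
  classical
  have h0 : (0 : ℝ) < 2 * Real.cos θ := by linarith
  unfold ZQ
  refine sum_pos (fun S _ => ?_) ⟨∅, empty_mem_powerset D⟩
  rw [XQ_stag hq hD hs hc.ne', QX.XB_zero hs hc.ne' hβ, mul_one]
  refine mul_pos (by positivity) (prod_pos fun A _ => ?_)
  split_ifs
  · exact h0
  · norm_num

end

/-! ### the parity image -/

/-- The ratio of the partition functions of `D` and of `D + a`. -/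
noncomputable def lam (θ β : ℝ) (q : ZMod n → ℤ × ℤ) (D : Finset (ℤ × ℤ)) (k : ℕ) (a : ℤ × ℤ) : ℝ :=
  ZQ θ q D (stag θ β q k) 0 /
    ZQ θ (fun i => q i + a) (D.image (· + a)) (stag θ β (fun i => q i + a) k) 0

section

variable {a : ℤ × ℤ} {η₁ : Cfg} (ha : ¬ Even (a.1 + a.2)) (hq : IsPolygon q) (hD : Encloses q D)
  (hu : Bd (D : Set (ℤ × ℤ)) n (fun k => q (k : ZMod n)) u 1) (hs : 0 < Real.sin θ)
  (hc : 0 < Real.cos θ) (hβ : Real.cos (θ / 2 + β) = Real.sin θ) (hk : k ≤ n)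
  (hη : Dob η D q k) (hη₁ : Dob η₁ (D.image (· + a)) (fun i => q i + a) k)
include ha hq hD hu hs hc hβ hk hη hη₁

theorem lam_pos : 0 < lam θ β q D k a :=
  div_pos (ZQ_stag_pos hq hD hs.ne' hc hβ hs)
    (ZQ_stag_pos (poly_add hq a) (encl_add hD a) hs.ne' hc hβ hs)

/-- **The value of the parity image.** -/
theorem im_XW (f : ℤ × ℤ → ℝ) :
    Ex (2 * Real.cos θ) (D.image (· + a)) η₁ (XW (D.image (· + a))
      (wn θ β (fun i => q i + a) (D.image (· + a)) k (imC θ β u q k a f))) =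
    lam θ β q D k a * Ex (2 * Real.cos θ) D η (XW D (wn θ β q D k f)) := by
  rw [Ex_XW hq hD hs.ne' hc hβ hk hη, Ex_XW (poly_add hq a) (encl_add hD a) hs.ne' hc hβ hk hη₁,
    sum_image ha hq hD hu]
  unfold lam
  have h1 := (ZQ_stag_pos (β := β) (k := k) hq hD hs.ne' hc hβ hs).ne'
  field_simp

/-- **The derivative in a charge.** -/
theorem im_XTW (f : ℤ × ℤ → ℝ) (hz : z ∈ sites D) :
    Ex (2 * Real.cos θ) (D.image (· + a)) η₁ (XTW (D.image (· + a)) (q 0 + a)
      (wn θ β (fun i => q i + a) (D.image (· + a)) k (imC θ β u q k a f))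
      (wn' θ β (fun i => q i + a) (D.image (· + a)) k (imC θ β u q k a f)) (z + a)) =
    - (lam θ β q D k a * Ex (2 * Real.cos θ) D η
      (XTW D (q 0) (wn θ β q D k f) (wn' θ β q D k f) z)) := by
  have h2 := Ex_XTW (poly_add hq a) (encl_add hD a) hs.ne' hc hβ hk hη₁ (imC θ β u q k a f) (z + a)
  rw [Ex_XTW hq hD hs.ne' hc hβ hk hη, h2, sum_XTW ha hq hD hu θ β k f hz]
  unfold lam
  have h1 := (ZQ_stag_pos (β := β) (k := k) hq hD hs.ne' hc hβ hs).ne'
  field_simp

/-- **The derivative in a boundary phase.** -/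
theorem im_SE (f : ℤ × ℤ → ℝ) (hj : j < n) :
    Ex (2 * Real.cos θ) (D.image (· + a)) η₁ (SE (D.image (· + a)) (q 0 + a)
      (wn θ β (fun i => q i + a) (D.image (· + a)) k (imC θ β u q k a f))
      (wn' θ β (fun i => q i + a) (D.image (· + a)) k (imC θ β u q k a f))
      (H135.shE a (be q (j : ZMod n)))) =
    lam θ β q D k a * Ex (2 * Real.cos θ) D η
      (SE D (q 0) (wn θ β q D k f) (wn' θ β q D k f) (be q (j : ZMod n))) := by
  have he : be q (j : ZMod n) ∈ eds D := by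
    rcases be_bd hq hD (j : ZMod n) with h | h
    · exact mem_eds.2 (Or.inl h.1)
    · exact mem_eds.2 (Or.inr h.1)
  have he' : H135.shE a (be q (j : ZMod n)) ∈ eds (D.image (· + a)) := by
    rw [eds_tr]
    exact mem_image_of_mem _ he
  have h2 := Ex_SE (poly_add hq a) (encl_add hD a) hs.ne' hc hβ hk hη₁ (imC θ β u q k a f) he'
  rw [Ex_SE hq hD hs.ne' hc hβ hk hη f he, h2, sum_SE ha hq hD hu θ β k f hj]
  unfold lam
  have h1 := (ZQ_stag_pos (β := β) (k := k) hq hD hs.ne' hc hβ hs).ne'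
  field_simp

/-- **The derivative in a boundary phase**, for helper365's `SW` (horizontal translations). -/
theorem im_SW (h2 : a.2 = 0) (f : ℤ × ℤ → ℝ) {x : ℤ} (hx : fe x ∈ XDL.bS D) :
    Ex (2 * Real.cos θ) (D.image (· + a)) η₁ (SW (D.image (· + a)) (q 0 + a)
      (wn θ β (fun i => q i + a) (D.image (· + a)) k (imC θ β u q k a f))
      (wn' θ β (fun i => q i + a) (D.image (· + a)) k (imC θ β u q k a f)) (x + a.1)) =
    lam θ β q D k a * Ex (2 * Real.cos θ) D η
      (SW D (q 0) (wn θ β q D k f) (wn' θ β q D k f) x) := by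
  have hn0 : NeZero n := ⟨by have := hq.1; omega⟩
  have hb : (hdv (fe x) ∈ D ∧ tlv (fe x) ∉ D) ∨ (hdv (fe x) ∉ D ∧ tlv (fe x) ∈ D) :=
    XDL.mem_bS.1 hx
  have he : fe x ∈ eds D := by
    rw [mem_eds]
    tauto
  obtain ⟨i, hi⟩ := exists_be hq hD he (by tauto)
  have h3 := im_SE ha hq hD hu hs hc hβ hk hη hη₁ f (ZMod.val_lt i)
  rw [ZMod.natCast_zmod_val, ← hi] at h3
  have h4 : H135.shE a (fe x) = fe (x + a.1) := by
    show (Sum.inr (x + a.1, -1 + a.2) : Ed) = Sum.inr (x + a.1, -1)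
    rw [h2, add_zero]
  rw [h4] at h3
  exact h3

end

end Vale.Agent.P167.H718
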