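import Vale.Agent.P167.BR.Pot
import Vale.Agent.P167.FK.Flip

/-!
# P167, general `q`, block Q-E2: the pieces of a domain when a square is flipped

`ω` and `ω'` agree outside of the square `a ∈ D` and the two outgoing edges at `a` are exchanged.
`A = piece ω D (ia a)`, `B = piece ω D (ib a)`, and `A'`, `B'` for `ω'`.
* `pcs_decomp`: all other pieces are the same;
* `trichotomy`: either `A = B` and `A'`, `B'` are different and one of them is a loop (or the same with
  the roles exchanged), or all four are strands, with exchanged ends.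
-/

namespace Vale.Agent.P167.H718

open Finset Relation Vale.Agent.P167.BR Vale.Agent.P167.FK

variable {ω ω' : Cfg} {D : Finset (ℤ × ℤ)} {a : ℤ × ℤ} {e e' : Ed}

/-! ### Runs -/

theorem run_congr (h : ∀ v ∈ D, ω v = ω' v) {k : ℕ} (hr : Run ω D e k e') : Run ω' D e k e' := by
  have key : ∀ j ≤ k, (nx ω')^[j] e = (nx ω)^[j] e := by
    intro j
    induction j with
    | zero => intro _; rfl
    | succ j ih =>
      intro hj
      rw [Function.iterate_succ_apply', Function.iterate_succ_apply', ih (by omega)]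
      exact (nx_congr (h _ (hr.2 j (by omega)))).symm
  refine ⟨by rw [key k le_rfl]; exact hr.1, fun j hj => ?_⟩
  rw [key j (by omega)]
  exact hr.2 j hj

theorem run_mono {D' : Finset (ℤ × ℤ)} (h : D ⊆ D') {k : ℕ} (hr : Run ω D e k e') :
    Run ω D' e k e' := ⟨hr.1, fun j hj => h (hr.2 j hj)⟩

/-- From an edge which starts outside of `D` the interface leaves `D`. -/
theorem run_exit (ω : Cfg) (D : Finset (ℤ × ℤ)) (he : tlv e ∉ D) :
    ∃ k e', Run ω D e k e' ∧ hdv e' ∉ D := by
  by_cases h : hdv e ∈ D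
  · have h1 : e ∈ eds D := mem_eds.2 (Or.inl h)
    have hA := piece_mem_pcs h1 (ω := ω)
    have hl : ¬ IsLp D (piece ω D e) := fun hl => he (hl.tl hA (self_mem_piece h1))
    obtain ⟨e', he', h2⟩ := exists_exit hl
    obtain ⟨k, hk | hk⟩ := run_of_mem hA (self_mem_piece h1) he'
    · exact ⟨k, e', hk, h2⟩
    · rcases Nat.eq_zero_or_pos k with rfl | hk0
      · obtain rfl : e' = e := hk.1
        exact absurd h h2
      · exact absurd (hk.2 0 hk0) h2
  · exact ⟨0, e, Run.zero e, h⟩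

/-- To an edge which ends outside of `D` the interface comes from outside of `D`. -/
theorem run_entry (ω : Cfg) (D : Finset (ℤ × ℤ)) (he : hdv e ∉ D) :
    ∃ k e', Run ω D e' k e ∧ tlv e' ∉ D := by
  by_cases h : tlv e ∈ D
  · have h1 : e ∈ eds D := mem_eds.2 (Or.inr h)
    have hA := piece_mem_pcs h1 (ω := ω)
    have hl : ¬ IsLp D (piece ω D e) := fun hl => he (hl _ (self_mem_piece h1))
    obtain ⟨e', he', h2⟩ := exists_entry hA hl
    obtain ⟨k, hk | hk⟩ := run_of_mem hA (self_mem_piece h1) he'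
    · rcases Nat.eq_zero_or_pos k with rfl | hk0
      · obtain rfl : e = e' := hk.1
        exact absurd h h2
      · exact absurd (hk.2 0 hk0) he
    · exact ⟨k, e', hk, h2⟩
  · exact ⟨0, e, Run.zero e, h⟩

theorem tlv_of_run {k : ℕ} (hr : Run ω D e k e') (hk : 0 < k) : tlv e' ∈ D := by
  obtain ⟨m, rfl⟩ : ∃ m, k = m + 1 := ⟨k - 1, by omega⟩
  rw [← hr.1, Function.iterate_succ_apply', tlv_nx]
  exact hr.2 m (by omega)

/-- Two runs which end outside of `D` with the same end. -/
theorem run_entry_unique {e₁ e₂ : Ed} {k l : ℕ} (h1 : Run ω D e₁ k e) (h2 : Run ω D e₂ l e)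
    (h3 : tlv e₁ ∉ D) (h4 : tlv e₂ ∉ D) : e₁ = e₂ := by
  rcases le_total l k with h | h
  · have h5 := h1.sub h2 h
    rcases Nat.eq_zero_or_pos (k - l) with h6 | h6
    · rw [h6] at h5
      exact h5.1
    · exact absurd (tlv_of_run h5 h6) h4
  · have h5 := h2.sub h1 h
    rcases Nat.eq_zero_or_pos (l - k) with h6 | h6
    · rw [h6] at h5
      exact h5.1.symm
    · exact absurd (tlv_of_run h5 h6) h3

theorem mem_piece_of_run {k : ℕ} (hr : Run ω D e k e') (he : e ∈ eds D) : e' ∈ piece ω D e :=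
  mem_piece.2 ⟨(mem_eds_of_eqvGen (eqvGen_iff.2 ⟨k, Or.inl hr⟩)).1 he, eqvGen_iff.2 ⟨k, Or.inl hr⟩⟩

theorem mem_piece_of_run' {k : ℕ} (hr : Run ω D e' k e) (he : e ∈ eds D) : e' ∈ piece ω D e :=
  mem_piece.2 ⟨(mem_eds_of_eqvGen (eqvGen_iff.2 ⟨k, Or.inl hr⟩)).2 he, eqvGen_iff.2 ⟨k, Or.inr hr⟩⟩

/-! ### The two configurations -/

/-- `ω` and `ω'` agree on `D` except at `a`, where the two outgoing edges are exchanged. -/
structure Flp (ω ω' : Cfg) (D : Finset (ℤ × ℤ)) (a : ℤ × ℤ) : Prop where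
  mem : a ∈ D
  agree : ∀ v ∈ D, v ≠ a → ω v = ω' v
  hia : nx ω' (ia a) = nx ω (ib a)
  hib : nx ω' (ib a) = nx ω (ia a)

theorem Flp.symm (h : Flp ω ω' D a) : Flp ω' ω D a :=
  ⟨h.mem, fun v hv hva => (h.agree v hv hva).symm, h.hib.symm, h.hia.symm⟩

theorem flp_update (D : Finset (ℤ × ℤ)) (h : a ∈ D) (h0 : ω a = false) :
    Flp ω (Function.update ω a true) D a :=
  ⟨h, fun v _ hva => (Function.update_of_ne hva _ _).symm, nx_update_ia ω h0, nx_update_ib ω h0⟩

theorem Flp.nx_eq (h : Flp ω ω' D a) (he : hdv e ∈ D) (hea : hdv e ≠ a) : nx ω e = nx ω' e :=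
  nx_congr (h.agree _ he hea)

theorem Flp.run (h : Flp ω ω' D a) {k : ℕ} (hr : Run ω (D.erase a) e k e') :
    Run ω' (D.erase a) e k e' :=
  run_congr (fun v hv => h.agree v (Finset.mem_of_mem_erase hv) (Finset.ne_of_mem_erase hv)) hr

theorem ia_mem (h : a ∈ D) : ia a ∈ eds D := mem_eds.2 (Or.inl (by rw [hdv_ia]; exact h))

theorem ib_mem (h : a ∈ D) : ib a ∈ eds D := mem_eds.2 (Or.inl (by rw [hdv_ib]; exact h))

/-- A piece which does not visit `a` is a piece of the other configuration. -/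
theorem Flp.mem_pcs (h : Flp ω ω' D a) {C : Finset Ed} (hC : C ∈ pcs ω D) (h1 : ia a ∉ C)
    (h2 : ib a ∉ C) : C ∈ pcs ω' D := by
  obtain ⟨e0, he0⟩ := pcs_nonempty hC
  have hne : ∀ e ∈ C, hdv e ≠ a := by
    intro e he hea
    rcases eq_of_hdv hea with h3 | h3
    · exact h1 (h3 ▸ he)
    · exact h2 (h3 ▸ he)
  have hfw : ∀ e ∈ C, hdv e ∈ D → nx ω' e ∈ C := by
    intro e he hd
    rw [← h.nx_eq hd (hne e he)]
    exact (nx_mem_iff hC hd).1 he
  have hbw : ∀ e, hdv e ∈ D → nx ω' e ∈ C → e ∈ C := by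
    intro e hd he
    by_cases hea : hdv e = a
    · exfalso
      rcases eq_of_hdv hea with h3 | h3
      · rw [h3, h.hia] at he
        exact h2 ((nx_mem_iff hC (by rw [hdv_ib]; exact h.mem)).2 he)
      · rw [h3, h.hib] at he
        exact h1 ((nx_mem_iff hC (by rw [hdv_ia]; exact h.mem)).2 he)
    · rw [← h.nx_eq hd hea] at he
      exact (nx_mem_iff hC hd).2 he
  have hgen : ∀ e e', EqvGen (Nxt ω' D) e e' → (e ∈ C ↔ e' ∈ C) := by
    intro e e' hg
    induction hg with
    | rel x y hxy =>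
      obtain ⟨h3, rfl⟩ := hxy
      exact ⟨fun h4 => hfw _ h4 h3, fun h4 => hbw _ h3 h4⟩
    | refl x => exact Iff.rfl
    | symm x y _ ih => exact ih.symm
    | trans x y z _ _ ih1 ih2 => exact ih1.trans ih2
  have hgen' : ∀ e e', EqvGen (Nxt ω D) e e' → e ∈ C → EqvGen (Nxt ω' D) e e' := by
    intro e e' hg he
    obtain ⟨k, hk⟩ := eqvGen_iff.1 hg
    have key : ∀ (k : ℕ) (x y : Ed), x ∈ C → Run ω D x k y → EqvGen (Nxt ω' D) x y := by
      intro k
      induction k with
      | zero =>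
        intro x y _ hr
        obtain rfl : x = y := hr.1
        exact EqvGen.refl _
      | succ k ih =>
        intro x y hx hr
        have h3 := hr.2 0 (by omega)
        have h4 : nx ω x ∈ C := (nx_mem_iff hC h3).1 hx
        refine EqvGen.trans _ _ _ (EqvGen.rel x (nx ω x) ⟨h3, h.nx_eq h3 (hne x hx)⟩)
          (ih _ _ h4 ⟨?_, fun j hj => ?_⟩)
        · rw [← Function.iterate_succ_apply, hr.1]
        · rw [← Function.iterate_succ_apply]
          exact hr.2 _ (by omega)
    rcases hk with hk | hk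
    · exact key k _ _ he hk
    · exact EqvGen.symm _ _ (key k _ _ ((mem_of_run hC hk).2 he) hk)
  have h3 : C = piece ω' D e0 := by
    ext e
    rw [mem_piece]
    constructor
    · intro he
      refine ⟨subset_eds hC he, hgen' e0 e ?_ he0⟩
      obtain ⟨k, hk⟩ := run_of_mem hC he0 he
      exact eqvGen_iff.2 ⟨k, hk⟩
    · rintro ⟨_, hg⟩
      exact (hgen _ _ hg).1 he0
  rw [h3]
  exact piece_mem_pcs (subset_eds hC he0)

open Classical in
/-- The pieces which do not visit `a`. -/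
noncomputable def rest (ω : Cfg) (D : Finset (ℤ × ℤ)) (a : ℤ × ℤ) : Finset (Finset Ed) :=
  (pcs ω D).filter fun C => ia a ∉ C ∧ ib a ∉ C

theorem Flp.rest_eq (h : Flp ω ω' D a) : rest ω D a = rest ω' D a := by
  classical
  ext C
  unfold rest
  rw [Finset.mem_filter, Finset.mem_filter]
  exact ⟨fun ⟨h1, h2⟩ => ⟨h.mem_pcs h1 h2.1 h2.2, h2⟩,
    fun ⟨h1, h2⟩ => ⟨h.symm.mem_pcs h1 h2.1 h2.2, h2⟩⟩

theorem pcs_decomp (h : a ∈ D) : pcs ω D = rest ω D a ∪ {piece ω D (ia a), piece ω D (ib a)} := by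
  classical
  ext C
  unfold rest
  rw [Finset.mem_union, Finset.mem_filter, Finset.mem_insert, Finset.mem_singleton]
  constructor
  · intro hC
    by_cases h1 : ia a ∈ C
    · exact Or.inr (Or.inl (eq_piece_of_mem hC h1))
    · by_cases h2 : ib a ∈ C
      · exact Or.inr (Or.inr (eq_piece_of_mem hC h2))
      · exact Or.inl ⟨hC, h1, h2⟩
  · rintro (h1 | rfl | rfl)
    · exact h1.1
    · exact piece_mem_pcs (ia_mem h)
    · exact piece_mem_pcs (ib_mem h)

theorem rest_disj (h : a ∈ D) :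
    Disjoint (rest ω D a) {piece ω D (ia a), piece ω D (ib a)} := by
  classical
  rw [Finset.disjoint_left]
  intro C hC h1
  unfold rest at hC
  rw [Finset.mem_filter] at hC
  rw [Finset.mem_insert, Finset.mem_singleton] at h1
  rcases h1 with rfl | rfl
  · exact hC.2.1 (self_mem_piece (ia_mem h))
  · exact hC.2.2 (self_mem_piece (ib_mem h))

/-- The two pieces through `a` together have the same edges. -/
theorem Flp.union_sub (h : Flp ω ω' D a) {e : Ed}
    (he : e ∈ piece ω' D (ia a) ∨ e ∈ piece ω' D (ib a)) :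
    e ∈ piece ω D (ia a) ∨ e ∈ piece ω D (ib a) := by
  have hA := piece_mem_pcs (ω := ω) (ia_mem h.mem)
  have hB := piece_mem_pcs (ω := ω) (ib_mem h.mem)
  have ha : hdv (ia a) ∈ D := by rw [hdv_ia]; exact h.mem
  have hb : hdv (ib a) ∈ D := by rw [hdv_ib]; exact h.mem
  have hsa := self_mem_piece (ω := ω) (ia_mem h.mem)
  have hsb := self_mem_piece (ω := ω) (ib_mem h.mem)
  have hiff : ∀ x, hdv x ∈ D → ((x ∈ piece ω D (ia a) ∨ x ∈ piece ω D (ib a)) ↔
      (nx ω' x ∈ piece ω D (ia a) ∨ nx ω' x ∈ piece ω D (ib a))) := by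
    intro x hx
    by_cases hxa : hdv x = a
    · rcases eq_of_hdv hxa with h3 | h3
      · rw [h3, h.hia]
        exact ⟨fun _ => Or.inr ((nx_mem_iff hB hb).1 hsb), fun _ => Or.inl hsa⟩
      · rw [h3, h.hib]
        exact ⟨fun _ => Or.inl ((nx_mem_iff hA ha).1 hsa), fun _ => Or.inr hsb⟩
    · rw [← h.nx_eq hx hxa, ← nx_mem_iff hA hx, ← nx_mem_iff hB hx]
  have hgen : ∀ x y, EqvGen (Nxt ω' D) x y → ((x ∈ piece ω D (ia a) ∨ x ∈ piece ω D (ib a)) ↔
      (y ∈ piece ω D (ia a) ∨ y ∈ piece ω D (ib a))) := by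
    intro x y hg
    induction hg with
    | rel x y hxy =>
      obtain ⟨h3, rfl⟩ := hxy
      exact hiff x h3
    | refl x => exact Iff.rfl
    | symm x y _ ih => exact ih.symm
    | trans x y z _ _ ih1 ih2 => exact ih1.trans ih2
  rcases he with he | he
  · exact (hgen _ _ (mem_piece.1 he).2).1 (Or.inl hsa)
  · exact (hgen _ _ (mem_piece.1 he).2).1 (Or.inr hsb)

theorem Flp.union_eq (h : Flp ω ω' D a) : piece ω' D (ia a) ∪ piece ω' D (ib a) =
    piece ω D (ia a) ∪ piece ω D (ib a) := by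
  ext e
  rw [Finset.mem_union, Finset.mem_union]
  exact ⟨h.union_sub, h.symm.union_sub⟩

/-! ### The three cases -/

/-- If the interface of `ω` comes back to `a` from `ia` through `ib`, then `ib` is on a loop of `ω'`
which does not contain `ia`, and `ia`, `ib` are on one piece of `ω`. -/
theorem Flp.one_ib (h : Flp ω ω' D a) {k : ℕ} (hr : Run ω (D.erase a) (nx ω (ia a)) k (ib a)) :
    piece ω D (ia a) = piece ω D (ib a) ∧ IsLp D (piece ω' D (ib a)) ∧
      ia a ∉ piece ω' D (ib a) := by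
  classical
  have hia : hdv (ia a) ∈ D := by rw [hdv_ia]; exact h.mem
  have hib : hdv (ib a) ∈ D := by rw [hdv_ib]; exact h.mem
  have hr1 : Run ω D (ia a) (1 + k) (ib a) :=
    (Run.one hia).trans (run_mono (Finset.erase_subset _ _) hr)
  refine ⟨?_, ?_⟩
  · exact (piece_eq_of_mem (mem_piece_of_run hr1 (ia_mem h.mem))).symm
  · set o := nx ω (ia a) with ho
    have hr2 := h.run hr
    have h1 : nx ω' (ib a) = o := h.hib
    set O : Finset Ed := (Finset.range (k + 1)).image fun j => (nx ω')^[j] o with hO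
    have hOd : ∀ x ∈ O, hdv x ∈ D ∧ (x = ib a ∨ hdv x ≠ a) := by
      intro x hx
      obtain ⟨j, hj, rfl⟩ := Finset.mem_image.1 hx
      rw [Finset.mem_range] at hj
      rcases Nat.lt_or_ge j k with h2 | h2
      · have h3 := hr2.2 j h2
        exact ⟨Finset.mem_of_mem_erase h3, Or.inr (Finset.ne_of_mem_erase h3)⟩
      · obtain rfl : j = k := by omega
        have h3 : (nx ω')^[j] o = ib a := hr2.1
        rw [h3]
        exact ⟨hib, Or.inl rfl⟩
    have hmaps : Set.MapsTo (nx ω') ↑O ↑O := by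
      intro x hx
      obtain ⟨j, hj, rfl⟩ := Finset.mem_image.1 (Finset.mem_coe.1 hx)
      rw [Finset.mem_range] at hj
      rw [Finset.mem_coe]
      rcases Nat.lt_or_ge j k with h2 | h2
      · exact Finset.mem_image.2 ⟨j + 1, Finset.mem_range.2 (by omega),
          Function.iterate_succ_apply' _ _ _⟩
      · obtain rfl : j = k := by omega
        have h3 : (nx ω')^[j] o = ib a := hr2.1
        show nx ω' ((nx ω')^[j] o) ∈ O
        rw [h3, h1]
        exact Finset.mem_image.2 ⟨0, Finset.mem_range.2 (by omega), rfl⟩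
    have hinj : Set.InjOn (nx ω') ↑O := (s_nx ω').1.injOn
    have hsurj := Finset.surjOn_of_injOn_of_card_le (nx ω') (s := O) (t := O) hmaps hinj le_rfl
    have hiff : ∀ x, x ∈ O ↔ nx ω' x ∈ O := by
      intro x
      refine ⟨fun hx => hmaps hx, fun hx => ?_⟩
      obtain ⟨y, hy, hyx⟩ := hsurj (Finset.mem_coe.2 hx)
      rw [← (s_nx ω').1 hyx]
      exact hy
    have hgen : ∀ x y, EqvGen (Nxt ω' D) x y → (x ∈ O ↔ y ∈ O) := by
      intro x y hg
      induction hg with
      | rel x y hxy =>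
        obtain ⟨_, rfl⟩ := hxy
        exact hiff x
      | refl x => exact Iff.rfl
      | symm x y _ ih => exact ih.symm
      | trans x y z _ _ ih1 ih2 => exact ih1.trans ih2
    have hbO : ib a ∈ O := Finset.mem_image.2 ⟨k, Finset.mem_range.2 (by omega), hr2.1⟩
    have hsub : ∀ x ∈ piece ω' D (ib a), x ∈ O := fun x hx =>
      (hgen _ _ (mem_piece.1 hx).2).1 hbO
    refine ⟨fun x hx => (hOd x (hsub x hx)).1, fun hx => ?_⟩
    rcases (hOd _ (hsub _ hx)).2 with h2 | h2
    · exact ia_ne_ib a h2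
    · exact h2 (hdv_ia a)

/-- The same with `ia` and `ib` exchanged. -/
theorem Flp.one_ia (h : Flp ω ω' D a) {k : ℕ} (hr : Run ω (D.erase a) (nx ω (ib a)) k (ia a)) :
    piece ω D (ia a) = piece ω D (ib a) ∧ IsLp D (piece ω' D (ia a)) ∧
      ib a ∉ piece ω' D (ia a) := by
  classical
  have hia : hdv (ia a) ∈ D := by rw [hdv_ia]; exact h.mem
  have hib : hdv (ib a) ∈ D := by rw [hdv_ib]; exact h.mem
  have hr1 : Run ω D (ib a) (1 + k) (ia a) :=
    (Run.one hib).trans (run_mono (Finset.erase_subset _ _) hr)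
  refine ⟨?_, ?_⟩
  · exact piece_eq_of_mem (mem_piece_of_run hr1 (ib_mem h.mem))
  · set o := nx ω (ib a) with ho
    have hr2 := h.run hr
    have h1 : nx ω' (ia a) = o := h.hia
    set O : Finset Ed := (Finset.range (k + 1)).image fun j => (nx ω')^[j] o with hO
    have hOd : ∀ x ∈ O, hdv x ∈ D ∧ (x = ia a ∨ hdv x ≠ a) := by
      intro x hx
      obtain ⟨j, hj, rfl⟩ := Finset.mem_image.1 hx
      rw [Finset.mem_range] at hj
      rcases Nat.lt_or_ge j k with h2 | h2
      · have h3 := hr2.2 j h2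
        exact ⟨Finset.mem_of_mem_erase h3, Or.inr (Finset.ne_of_mem_erase h3)⟩
      · obtain rfl : j = k := by omega
        have h3 : (nx ω')^[j] o = ia a := hr2.1
        rw [h3]
        exact ⟨hia, Or.inl rfl⟩
    have hmaps : Set.MapsTo (nx ω') ↑O ↑O := by
      intro x hx
      obtain ⟨j, hj, rfl⟩ := Finset.mem_image.1 (Finset.mem_coe.1 hx)
      rw [Finset.mem_range] at hj
      rw [Finset.mem_coe]
      rcases Nat.lt_or_ge j k with h2 | h2
      · exact Finset.mem_image.2 ⟨j + 1, Finset.mem_range.2 (by omega),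
          Function.iterate_succ_apply' _ _ _⟩
      · obtain rfl : j = k := by omega
        have h3 : (nx ω')^[j] o = ia a := hr2.1
        show nx ω' ((nx ω')^[j] o) ∈ O
        rw [h3, h1]
        exact Finset.mem_image.2 ⟨0, Finset.mem_range.2 (by omega), rfl⟩
    have hinj : Set.InjOn (nx ω') ↑O := (s_nx ω').1.injOn
    have hsurj := Finset.surjOn_of_injOn_of_card_le (nx ω') (s := O) (t := O) hmaps hinj le_rfl
    have hiff : ∀ x, x ∈ O ↔ nx ω' x ∈ O := by
      intro x
      refine ⟨fun hx => hmaps hx, fun hx => ?_⟩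
      obtain ⟨y, hy, hyx⟩ := hsurj (Finset.mem_coe.2 hx)
      rw [← (s_nx ω').1 hyx]
      exact hy
    have hgen : ∀ x y, EqvGen (Nxt ω' D) x y → (x ∈ O ↔ y ∈ O) := by
      intro x y hg
      induction hg with
      | rel x y hxy =>
        obtain ⟨_, rfl⟩ := hxy
        exact hiff x
      | refl x => exact Iff.rfl
      | symm x y _ ih => exact ih.symm
      | trans x y z _ _ ih1 ih2 => exact ih1.trans ih2
    have hbO : ia a ∈ O := Finset.mem_image.2 ⟨k, Finset.mem_range.2 (by omega), hr2.1⟩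
    have hsub : ∀ x ∈ piece ω' D (ia a), x ∈ O := fun x hx =>
      (hgen _ _ (mem_piece.1 hx).2).1 hbO
    refine ⟨fun x hx => (hOd x (hsub x hx)).1, fun hx => ?_⟩
    rcases (hOd _ (hsub _ hx)).2 with h2 | h2
    · exact ia_ne_ib a h2.symm
    · exact h2 (hdv_ib a)

/-- `ia` and `ib` are on one piece of `ω`; they are on different pieces of `ω'` and one of these is a
loop. -/
def One (ω ω' : Cfg) (D : Finset (ℤ × ℤ)) (a : ℤ × ℤ) : Prop :=
  piece ω D (ia a) = piece ω D (ib a) ∧ piece ω' D (ia a) ≠ piece ω' D (ib a) ∧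
    (IsLp D (piece ω' D (ia a)) ∨ IsLp D (piece ω' D (ib a)))

/-- All four pieces are strands, with exchanged ends. -/
def Two (ω ω' : Cfg) (D : Finset (ℤ × ℤ)) (a : ℤ × ℤ) : Prop :=
  ∃ g₁ g₂ f₁ f₂ : Ed, tlv g₁ ∉ D ∧ tlv g₂ ∉ D ∧ hdv f₁ ∉ D ∧ hdv f₂ ∉ D ∧
    g₁ ≠ g₂ ∧ f₁ ≠ f₂ ∧
    g₁ ∈ piece ω D (ia a) ∧ f₁ ∈ piece ω D (ia a) ∧ g₂ ∈ piece ω D (ib a) ∧
    f₂ ∈ piece ω D (ib a) ∧
    g₁ ∈ piece ω' D (ia a) ∧ f₂ ∈ piece ω' D (ia a) ∧ g₂ ∈ piece ω' D (ib a) ∧
    f₁ ∈ piece ω' D (ib a)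

theorem Flp.trichotomy (h : Flp ω ω' D a) : One ω ω' D a ∨ One ω' ω D a ∨ Two ω ω' D a := by
  classical
  have haD : a ∉ D.erase a := Finset.notMem_erase a D
  have hia : hdv (ia a) ∈ D := by rw [hdv_ia]; exact h.mem
  have hib : hdv (ib a) ∈ D := by rw [hdv_ib]; exact h.mem
  have hta : tlv (nx ω (ia a)) ∉ D.erase a := by rw [tlv_nx, hdv_ia]; exact haD
  have htb : tlv (nx ω (ib a)) ∉ D.erase a := by rw [tlv_nx, hdv_ib]; exact haD
  obtain ⟨k1, f1, hr1, hf1⟩ := run_exit ω (D.erase a) hta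
  obtain ⟨k2, f2, hr2, hf2⟩ := run_exit ω (D.erase a) htb
  have hcase : ∀ f : Ed, hdv f ∉ D.erase a → f = ia a ∨ f = ib a ∨ hdv f ∉ D := by
    intro f hf
    by_cases h1 : hdv f = a
    · rcases eq_of_hdv h1 with h2 | h2
      · exact Or.inl h2
      · exact Or.inr (Or.inl h2)
    · exact Or.inr (Or.inr fun h2 => hf (Finset.mem_erase.2 ⟨h1, h2⟩))
  have hne : nx ω (ia a) ≠ nx ω (ib a) := fun h1 => ia_ne_ib a ((s_nx ω).1 h1)
  have mk : ∀ {ω ω' : Cfg}, Flp ω ω' D a → (∃ k, Run ω (D.erase a) (nx ω (ia a)) k (ib a)) ∨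
      (∃ k, Run ω (D.erase a) (nx ω (ib a)) k (ia a)) → One ω ω' D a := by
    intro ω ω' h hk
    rcases hk with ⟨k, hk⟩ | ⟨k, hk⟩
    · obtain ⟨h1, h2, h3⟩ := h.one_ib hk
      refine ⟨h1, fun h4 => h3 ?_, Or.inr h2⟩
      rw [← h4]
      exact self_mem_piece (ia_mem h.mem)
    · obtain ⟨h1, h2, h3⟩ := h.one_ia hk
      refine ⟨h1, fun h4 => h3 ?_, Or.inl h2⟩
      rw [h4]
      exact self_mem_piece (ib_mem h.mem)
  rcases hcase f1 hf1 with rfl | rfl | h1
  · -- `ia` is on a loop of `ω`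
    refine Or.inr (Or.inl (mk h.symm (Or.inr ⟨k1, ?_⟩)))
    rw [h.hib]
    exact h.run hr1
  · exact Or.inl (mk h (Or.inl ⟨k1, hr1⟩))
  · rcases hcase f2 hf2 with rfl | rfl | h2
    · exact Or.inl (mk h (Or.inr ⟨k2, hr2⟩))
    · refine Or.inr (Or.inl (mk h.symm (Or.inl ⟨k2, ?_⟩)))
      rw [h.hia]
      exact h.run hr2
    · -- both leave `D`
      obtain ⟨l1, g1, hs1, hg1⟩ := run_entry ω (D.erase a) (e := ia a) (by rw [hdv_ia]; exact haD)
      obtain ⟨l2, g2, hs2, hg2⟩ := run_entry ω (D.erase a) (e := ib a) (by rw [hdv_ib]; exact haD)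
      have hout : ∀ (g : Ed) (l : ℕ) (i : Ed), (i = ia a ∨ i = ib a) →
          Run ω (D.erase a) g l i → tlv g ∉ D.erase a → tlv g ∉ D := by
        intro g l i hi hs hg hgD
        have h3 : tlv g = a := by
          by_contra h4
          exact hg (Finset.mem_erase.2 ⟨h4, hgD⟩)
        obtain ⟨g0, rfl⟩ := (s_nx ω).2 g
        rw [tlv_nx] at h3
        have hiD : hdv i ∉ D.erase a := by
          rcases hi with rfl | rfl
          · rw [hdv_ia]; exact haD
          · rw [hdv_ib]; exact haD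
        have hiD' : hdv i ∈ D := by
          rcases hi with rfl | rfl
          · exact hia
          · exact hib
        have huniq : ∀ (x y z : Ed) (m m' : ℕ), Run ω (D.erase a) x m y → Run ω (D.erase a) x m' z →
            hdv y ∉ D.erase a → hdv z ∉ D.erase a → y = z := by
          intro x y z m m' hx hz hy hz'
          rcases le_total m m' with h5 | h5
          · have h6 := hz.sub' hx h5
            rcases Nat.eq_zero_or_pos (m' - m) with h7 | h7
            · rw [h7] at h6; exact h6.1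
            · exact absurd (h6.2 0 h7) hy
          · have h6 := hx.sub' hz h5
            rcases Nat.eq_zero_or_pos (m - m') with h7 | h7
            · rw [h7] at h6; exact h6.1.symm
            · exact absurd (h6.2 0 h7) hz'
        rcases eq_of_hdv h3 with h4 | h4
        · rw [h4] at hs
          have h5 := huniq _ _ _ _ _ hs hr1 hiD hf1
          rw [h5] at hiD'
          exact h1 hiD'
        · rw [h4] at hs
          have h5 := huniq _ _ _ _ _ hs hr2 hiD hf2
          rw [h5] at hiD'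
          exact h2 hiD'
      have hg1' := hout g1 l1 _ (Or.inl rfl) hs1 hg1
      have hg2' := hout g2 l2 _ (Or.inr rfl) hs2 hg2
      have hsub := Finset.erase_subset a D
      refine Or.inr (Or.inr ⟨g1, g2, f1, f2, hg1', hg2', h1, h2, ?_, ?_, ?_, ?_, ?_, ?_, ?_, ?_, ?_,
        ?_⟩)
      · rintro rfl
        -- the runs from `g1` to `ia` and to `ib`
        have h3 : ia a = ib a := by
          rcases le_total l1 l2 with h5 | h5
          · have h6 := hs2.sub' hs1 h5
            rcases Nat.eq_zero_or_pos (l2 - l1) with h7 | h7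
            · rw [h7] at h6; exact h6.1
            · exact absurd (h6.2 0 h7) (by rw [Function.iterate_zero, id, hdv_ia]; exact haD)
          · have h6 := hs1.sub' hs2 h5
            rcases Nat.eq_zero_or_pos (l1 - l2) with h7 | h7
            · rw [h7] at h6; exact h6.1.symm
            · exact absurd (h6.2 0 h7) (by rw [Function.iterate_zero, id, hdv_ib]; exact haD)
        exact ia_ne_ib a h3
      · rintro rfl
        exact hne (run_entry_unique hr1 hr2 hta htb)
      · exact mem_piece_of_run' (run_mono hsub hs1) (ia_mem h.mem)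
      · exact mem_piece_of_run ((Run.one hia).trans (run_mono hsub hr1)) (ia_mem h.mem)
      · exact mem_piece_of_run' (run_mono hsub hs2) (ib_mem h.mem)
      · exact mem_piece_of_run ((Run.one hib).trans (run_mono hsub hr2)) (ib_mem h.mem)
      · exact mem_piece_of_run' (run_mono hsub (h.run hs1)) (ia_mem h.mem)
      · refine mem_piece_of_run (k := 1 + k2) ?_ (ia_mem h.mem)
        refine (Run.one hia).trans ?_
        rw [h.hia]
        exact run_mono hsub (h.run hr2)
      · exact mem_piece_of_run' (run_mono hsub (h.run hs2)) (ib_mem h.mem)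
      · refine mem_piece_of_run (k := 1 + k1) ?_ (ib_mem h.mem)
        refine (Run.one hib).trans ?_
        rw [h.hib]
        exact run_mono hsub (h.run hr1)

end Vale.Agent.P167.H718
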