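import Vale.Agent.P167.H718.E2a
import Vale.Agent.P167.BR.Poly

/-!
# P167, general `q`, block Q-E2: positions of two strands which meet

`lft x y w`: the boundary site number `w` is on the left of a strand which enters at the side `x` and
leaves at the side `y` of the polygon.
-/

namespace Vale.Agent.P167.H718

open Finset Relation Vale.Agent.P167.BR Vale.Agent.P167.FK
open Vale.Agent.P145.FB (PStep)
open Vale.Agent.P167.E6 (IsPolygon Encloses dir face)

variable {ω ω' : Cfg} {D : Finset (ℤ × ℤ)} {a : ℤ × ℤ} {e e' : Ed} {A B : Finset Ed}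

/-! ### The sides of a piece -/

theorem side_step {u : ℤ × ℤ → ℤ} (hA : A ∈ pcs ω D) (hu : PotD D A u) (he : hdv e ∈ D) :
    u (ls (nx ω e)) = u (ls e) ∧ u (rs (nx ω e)) = u (rs e) := by
  cases h : ω (hdv e) with
  | true => exact ⟨(pot_aux hA hu he).1 h, by rw [rs_nx h]⟩
  | false => exact ⟨by rw [ls_nx h], (pot_aux hA hu he).2 h⟩

theorem side_run {u : ℤ × ℤ → ℤ} (hA : A ∈ pcs ω D) (hu : PotD D A u) {k : ℕ}
    (hr : Run ω D e k e') : u (ls e') = u (ls e) ∧ u (rs e') = u (rs e) := by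
  have key : ∀ j ≤ k, u (ls ((nx ω)^[j] e)) = u (ls e) ∧ u (rs ((nx ω)^[j] e)) = u (rs e) := by
    intro j
    induction j with
    | zero => intro _; exact ⟨rfl, rfl⟩
    | succ j ih =>
      intro hj
      have h1 := ih (by omega)
      have h2 := side_step hA hu (hr.2 j (by omega))
      rw [Function.iterate_succ_apply']
      exact ⟨h2.1.trans h1.1, h2.2.trans h1.2⟩
  have := key k le_rfl
  rwa [hr.1] at this

/-- A potential of `A` is constant along the two sides of every piece `B`. -/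
theorem side_const {u : ℤ × ℤ → ℤ} (hA : A ∈ pcs ω D) (hu : PotD D A u) (hB : B ∈ pcs ω D)
    (he : e ∈ B) (he' : e' ∈ B) : u (ls e') = u (ls e) ∧ u (rs e') = u (rs e) := by
  obtain ⟨k, hk | hk⟩ := run_of_mem hB he he'
  · exact side_run hA hu hk
  · have := side_run hA hu hk
    exact ⟨this.1.symm, this.2.symm⟩

/-- The left sites of a piece are connected. -/
theorem PC_piece (hB : B ∈ pcs ω D) (he : e ∈ B) (he' : e' ∈ B) : PC ω (ls e) (ls e') := by
  have hsymm : ∀ {s t : ℤ × ℤ}, PC ω s t → PC ω t s := by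
    intro s t h
    unfold PC at h ⊢
    induction h with
    | refl => exact ReflTransGen.refl
    | tail _ h1 ih => exact ReflTransGen.head h1.symm ih
  have key : ∀ (k : ℕ) (x y : Ed), Run ω D x k y → PC ω (ls x) (ls y) := by
    intro k x y hr
    have h1 : ∀ j, PC ω (ls x) (ls ((nx ω)^[j] x)) := by
      intro j
      induction j with
      | zero => exact ReflTransGen.refl
      | succ j ih =>
        rw [Function.iterate_succ_apply']
        rcases ls_nx_step ω ((nx ω)^[j] x) with h2 | h2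
        · rw [h2]; exact ih
        · exact ih.tail h2
    have := h1 k
    rwa [hr.1] at this
  obtain ⟨k, hk | hk⟩ := run_of_mem hB he he'
  · exact key k _ _ hk
  · exact hsymm (key k _ _ hk)

/-- At a closed square the two dual corners have the same potential. -/
theorem pot_closed {u : ℤ × ℤ → ℤ} (hA : A ∈ pcs ω D) (hu : PotD D A u) (ha : a ∈ D)
    (h0 : ω a = false) : u (rs (ia a)) = u (rs (ib a)) := by
  have h1 : u (da a) = u (db a) := by
    obtain ⟨x, y⟩ := a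
    by_cases h : Even (x + y)
    · simp only [da, db, h, if_true]
      exact ((pot_sq hA hu ha).2 (Or.inr ⟨h, h0⟩)).symm
    · simp only [da, db, h, if_false]
      exact (pot_sq hA hu ha).1 (Or.inr ⟨h, h0⟩)
  rw [rs_ia, rs_ib]
  split_ifs
  · exact h1.symm
  · exact h1

/-! ### Numbers of the sides -/

/-- The boundary site number `w` is on the left of the strand from the side `x` to the side `y`. -/
def lft (x y w : ℕ) : Prop := (x < y ∧ (w ≤ x ∨ y < w)) ∨ (y < x ∧ y < w ∧ w ≤ x)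

instance (x y w : ℕ) : Decidable (lft x y w) := by unfold lft; infer_instance

variable {n : ℕ} {q : ZMod n → ℤ × ℤ}

theorem cast_inj {x y : ℕ} (hx : x < n) (hy : y < n) (h : (x : ZMod n) = (y : ZMod n)) : x = y := by
  have h1 := congrArg ZMod.val h
  rwa [ZMod.val_natCast, ZMod.val_natCast, Nat.mod_eq_of_lt hx, Nat.mod_eq_of_lt hy] at h1

section

variable (hq : IsPolygon q) (hD : Encloses q D)
include hq hD

/-- The number of an entering edge. -/
theorem exists_in {e : Ed} (h1 : hdv e ∈ D) (h2 : tlv e ∉ D) :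
    ∃ x : ℕ, x < n ∧ be q x = e ∧ Even ((q x).1 + (q x).2) := by
  have hn : NeZero n := ⟨by have := hq.1; omega⟩
  obtain ⟨i, rfl, h3, -⟩ := exists_be_tl hq hD h1 h2
  refine ⟨i.val, ZMod.val_lt i, by rw [ZMod.natCast_val, ZMod.cast_id', id], ?_⟩
  rw [ZMod.natCast_val, ZMod.cast_id', id, h3]
  exact BR.even_ls _

/-- The number of a leaving edge. -/
theorem exists_out {e : Ed} (h1 : tlv e ∈ D) (h2 : hdv e ∉ D) :
    ∃ y : ℕ, y < n ∧ be q y = e ∧ ¬ Even ((q y).1 + (q y).2) := by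
  have hn : NeZero n := ⟨by have := hq.1; omega⟩
  obtain ⟨i, rfl, h3, -⟩ := exists_be_hd hq hD h1 h2
  refine ⟨i.val, ZMod.val_lt i, by rw [ZMod.natCast_val, ZMod.cast_id', id], ?_⟩
  rw [ZMod.natCast_val, ZMod.cast_id', id, h3]
  exact BR.odd_rs _

/-- The strand `A` enters at the side `x` and leaves at the side `y`. -/
def IsXY (q : ZMod n → ℤ × ℤ) (A : Finset Ed) (x y : ℕ) : Prop :=
  x < n ∧ y < n ∧ be q x ∈ A ∧ be q y ∈ A ∧ Even ((q x).1 + (q x).2) ∧ ¬ Even ((q y).1 + (q y).2)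

omit hq hD in
theorem IsXY.ne {x y : ℕ} (h : IsXY q A x y) : x ≠ y := by
  rintro rfl
  exact h.2.2.2.2.2 h.2.2.2.2.1

/-- The sides which are crossed by a strand. -/
theorem IsXY.iff (hA : A ∈ pcs ω D) {x y z : ℕ} (h : IsXY q A x y) (hz : z < n) :
    be q z ∈ A ↔ z = x ∨ z = y := by
  obtain ⟨hx, hy, h1, h2, h3, h4⟩ := h
  constructor
  · intro hz1
    by_cases hev : Even ((q z).1 + (q z).2)
    · left
      have h5 := entry_unique hA hz1 h1 (be_even hq hD hev).2.2.2 (be_even hq hD h3).2.2.2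
      exact cast_inj hz hx (be_injective hq h5)
    · right
      have h5 := exit_unique hA hz1 h2 (be_odd hq hD hev).2.2.2 (be_odd hq hD h4).2.2.2
      exact cast_inj hz hy (be_injective hq h5)
  · rintro (rfl | rfl)
    · exact h1
    · exact h2

theorem IsXY.unique (hA : A ∈ pcs ω D) {x y x' y' : ℕ} (h : IsXY q A x y) (h' : IsXY q A x' y') :
    x = x' ∧ y = y' := by
  have h1 := (h.iff hq hD hA h'.1).1 h'.2.2.1
  have h2 := (h.iff hq hD hA h'.2.1).1 h'.2.2.2.1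
  have h3 := h.2.2.2.2
  have h4 := h'.2.2.2.2
  constructor
  · rcases h1 with rfl | rfl
    · rfl
    · exact absurd h4.1 h3.2
  · rcases h2 with rfl | rfl
    · exact absurd h3.1 h4.2
    · rfl

/-- The potential of a strand at the boundary sites. -/
theorem pot_lft {u : ℤ × ℤ → ℤ} (hA : A ∈ pcs ω D) (hu : PotD D A u) {x y : ℕ}
    (h : IsXY q A x y) {w : ℕ} (hw : w ≤ n) :
    u (q w) = u (rs (be q x)) + if lft x y w then 1 else 0 := by
  have hxy := h.ne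
  have hiff : ∀ z < n, be q z ∈ A ↔ z = x ∨ z = y := fun z hz => h.iff hq hD hA hz
  obtain ⟨hx, hy, h1, h2, h3, h4⟩ := h
  have hrs : rs (be q x) = q ((x : ZMod n) + 1) := (be_even hq hD h3).2.1
  have e1 := pot_even hq hD hu h1 h3
  have e2 := pot_odd hq hD hu h2 h4
  have hn0 : (q (n : ZMod n)) = q ((0 : ℕ) : ZMod n) := by simp
  have harc : ∀ i j : ℕ, i ≤ j → j ≤ n → (∀ m, i ≤ m → m < j → m ≠ x ∧ m ≠ y) →
      u (q j) = u (q i) := by
    intro i j hij hj hm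
    refine pot_arc hq hD hu hij fun m hm1 hm2 hm3 => ?_
    rcases (hiff m (by omega)).1 hm3 with h5 | h5
    · exact (hm m hm1 hm2).1 h5
    · exact (hm m hm1 hm2).2 h5
  have ex : u (q ((x + 1 : ℕ) : ZMod n)) = u (rs (be q x)) := by
    rw [hrs]; push_cast; rfl
  have ex' : u (q (x : ZMod n)) = u (rs (be q x)) + 1 := by rw [e1, hrs]
  have ey : u (q ((y + 1 : ℕ) : ZMod n)) = u (q (y : ZMod n)) + 1 := by
    push_cast; exact e2
  rcases Nat.lt_or_ge x y with hlt | hge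
  · have e3 : u (q (y : ZMod n)) = u (rs (be q x)) := by
      rw [harc (x + 1) y (by omega) (by omega) (fun m h5 h6 => ⟨by omega, by omega⟩), ex]
    by_cases hw1 : w ≤ x
    · rw [if_pos (show lft x y w from Or.inl ⟨hlt, Or.inl hw1⟩), ← ex']
      exact (harc w x hw1 (by omega) (fun m h5 h6 => ⟨by omega, by omega⟩)).symm
    · by_cases hw2 : w ≤ y
      · rw [if_neg (by unfold lft; omega), add_zero, ← ex]
        exact harc (x + 1) w (by omega) (by omega) (fun m h5 h6 => ⟨by omega, by omega⟩)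
      · rw [if_pos (show lft x y w from Or.inl ⟨hlt, Or.inr (by omega)⟩), ← e3, ← ey]
        exact harc (y + 1) w (by omega) (by omega) (fun m h5 h6 => ⟨by omega, by omega⟩)
  · have hlt : y < x := by omega
    have e3 : u (q (y : ZMod n)) = u (rs (be q x)) := by
      have h5 := harc (x + 1) n (by omega) le_rfl (fun m h5 h6 => ⟨by omega, by omega⟩)
      have h6 := harc 0 y (by omega) (by omega) (fun m h5 h6 => ⟨by omega, by omega⟩)
      rw [h6, ← hn0, h5, ex]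
    by_cases hw1 : w ≤ y
    · rw [if_neg (by unfold lft; omega), add_zero, ← e3]
      exact (harc w y hw1 (by omega) (fun m h5 h6 => ⟨by omega, by omega⟩)).symm
    · by_cases hw2 : w ≤ x
      · rw [if_pos (show lft x y w from Or.inr ⟨hlt, by omega, hw2⟩), ← ex']
        exact (harc w x hw2 (by omega) (fun m h5 h6 => ⟨by omega, by omega⟩)).symm
      · rw [if_neg (by unfold lft; omega), add_zero, ← ex]
        exact harc (x + 1) w (by omega) (by omega) (fun m h5 h6 => ⟨by omega, by omega⟩)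

/-- **Two strands which meet at a closed square**: the second one is on the right of the first
one. -/
theorem facing (hA : piece ω D (ia a) ≠ piece ω D (ib a)) (ha : a ∈ D) (h0 : ω a = false)
    {u : ℤ × ℤ → ℤ} (hu : PotD D (piece ω D (ia a)) u) {x₁ y₁ x₂ y₂ : ℕ}
    (h1 : IsXY q (piece ω D (ia a)) x₁ y₁) (h2 : IsXY q (piece ω D (ib a)) x₂ y₂) :
    ¬ lft x₁ y₁ x₂ ∧ ¬ lft x₁ y₁ y₂ ∧ u (ls (ia a)) = u (rs (be q x₁)) + 1 ∧
      u (ls (ib a)) = u (rs (be q x₁)) := by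
  have hpA := piece_mem_pcs (ω := ω) (ia_mem ha)
  have hpB := piece_mem_pcs (ω := ω) (ib_mem ha)
  have hsa := self_mem_piece (ω := ω) (ia_mem ha)
  have hsb := self_mem_piece (ω := ω) (ib_mem ha)
  have hnB : ∀ e ∈ piece ω D (ib a), e ∉ piece ω D (ia a) := fun e he he' =>
    hA (eq_of_mem_pcs hpA hpB he' he)
  have e1 := (side_const hpA hu hpA hsa h1.2.2.1).2
  have e2 := pot_closed hpA hu ha h0
  have e3 := hu.eq (ib_mem ha) (hnB _ hsb)
  have e4 := hu.eq_add (ia_mem ha) hsa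
  have e5 := (side_const hpA hu hpB hsb h2.2.2.1).1
  have e6 := (side_const hpA hu hpB hsb h2.2.2.2.1).2
  have e7 := pot_lft hq hD hpA hu h1 h2.1.le
  have e8 := pot_lft hq hD hpA hu h1 h2.2.1.le
  have e9 : ls (be q x₂) = q x₂ := (be_even hq hD h2.2.2.2.2.1).1
  have e10 : rs (be q y₂) = q y₂ := (be_odd hq hD h2.2.2.2.2.2).1
  rw [e9] at e5
  rw [e10] at e6
  refine ⟨fun h => ?_, fun h => ?_, by omega, by omega⟩
  · rw [if_pos h] at e7
    omega
  · rw [if_pos h] at e8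
    omega

end

/-! ### The arithmetic -/

/-- The strand is closed by the boundary: both ends in the free part (sides `< k`) and leaving before
entering, or both ends in the wired part (sides `≥ k`) and entering before leaving. -/
def Cl (k x y : ℕ) : Prop := (x < k ∧ y < k ∧ y < x) ∨ (k ≤ x ∧ k ≤ y ∧ x < y)

instance (k x y : ℕ) : Decidable (Cl k x y) := by unfold Cl; infer_instance

theorem nlft {x y w : ℕ} (hxy : x ≠ y) (h : ¬ lft x y w) :
    (x < y ∧ x < w ∧ w ≤ y) ∨ (y < x ∧ (w ≤ y ∨ x < w)) := by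
  unfold lft at h
  omega

theorem order_of {x₁ y₁ x₂ y₂ : ℕ} (h1 : x₁ ≠ y₁) (h2 : x₂ ≠ y₂) (h3 : x₁ ≠ x₂) (h4 : y₁ ≠ y₂)
    (h5 : x₁ ≠ y₂) (h6 : x₂ ≠ y₁) (h7 : ¬ lft x₁ y₁ x₂) (h8 : ¬ lft x₁ y₁ y₂)
    (h9 : ¬ lft x₂ y₂ x₁) (h10 : ¬ lft x₂ y₂ y₁) :
    (x₁ < y₂ ∧ y₂ < x₂ ∧ x₂ < y₁) ∨ (y₂ < x₂ ∧ x₂ < y₁ ∧ y₁ < x₁) ∨
      (x₂ < y₁ ∧ y₁ < x₁ ∧ x₁ < y₂) ∨ (y₁ < x₁ ∧ x₁ < y₂ ∧ y₂ < x₂) := by
  rcases nlft h1 h7 with a | a <;> rcases nlft h1 h8 with b | b <;>
    rcases nlft h2 h9 with c | c <;> rcases nlft h2 h10 with d | d <;> omega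

theorem Cl_lt {k x y : ℕ} (h : x < y) : Cl k x y ↔ k ≤ x := by
  unfold Cl
  omega

theorem Cl_gt {k x y : ℕ} (h : y < x) : Cl k x y ↔ x < k := by
  unfold Cl
  omega

/-- The change of the number of closed strands. -/
def Chg (n k x₁ y₁ x₂ y₂ : ℕ) : Prop :=
  ((if Cl k x₁ y₂ then 1 else 0) + (if Cl k x₂ y₁ then 1 else 0) =
        (if Cl k x₁ y₁ then 1 else 0) + (if Cl k x₂ y₂ then 1 else 0) + 1 ∧
      (k ≤ x₁ ∨ x₁ = 0 ∨ k ≤ y₁ + 1) ∧ (k ≤ x₂ ∨ x₂ = 0 ∨ k ≤ y₂ + 1)) ∨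
    ((if Cl k x₁ y₂ then 1 else 0) + (if Cl k x₂ y₁ then 1 else 0) + 1 =
        (if Cl k x₁ y₁ then 1 else 0) + (if Cl k x₂ y₂ then 1 else 0) ∧
      ∀ w w', k ≤ w → w ≤ n → k ≤ w' → w' ≤ n → lft x₁ y₁ w → lft x₂ y₂ w' → False)

theorem Chg.symm {n k x₁ y₁ x₂ y₂ : ℕ} (h : Chg n k x₁ y₁ x₂ y₂) : Chg n k x₂ y₂ x₁ y₁ := by
  rcases h with ⟨h1, h2, h3⟩ | ⟨h1, h2⟩
  · exact Or.inl ⟨by omega, h3, h2⟩
  · exact Or.inr ⟨by omega, fun w w' a b c d e f => h2 w' w c d a b f e⟩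

theorem chg1 {n k x₁ y₁ x₂ y₂ : ℕ} (h : x₁ < y₂ ∧ y₂ < x₂ ∧ x₂ < y₁) :
    Chg n k x₁ y₁ x₂ y₂ := by
  obtain ⟨h1, h2, h3⟩ := h
  unfold Chg
  rw [if_congr (Cl_lt (by omega : x₁ < y₂)) rfl rfl, if_congr (Cl_lt (by omega : x₂ < y₁)) rfl rfl,
    if_congr (Cl_lt (by omega : x₁ < y₁)) rfl rfl, if_congr (Cl_gt (by omega : y₂ < x₂)) rfl rfl]
  by_cases hk : k ≤ x₂
  · left
    rw [if_pos hk, if_neg (by omega : ¬ x₂ < k)]
    omega
  · right
    rw [if_neg hk, if_pos (by omega : x₂ < k)]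
    refine ⟨by omega, fun w w' _ _ _ _ _ h5 => ?_⟩
    unfold lft at h5
    omega

theorem chg2 {n k x₁ y₁ x₂ y₂ : ℕ} (h : y₂ < x₂ ∧ x₂ < y₁ ∧ y₁ < x₁) :
    Chg n k x₁ y₁ x₂ y₂ := by
  obtain ⟨h1, h2, h3⟩ := h
  unfold Chg
  rw [if_congr (Cl_gt (by omega : y₂ < x₁)) rfl rfl, if_congr (Cl_lt (by omega : x₂ < y₁)) rfl rfl,
    if_congr (Cl_gt (by omega : y₁ < x₁)) rfl rfl, if_congr (Cl_gt (by omega : y₂ < x₂)) rfl rfl]
  by_cases hk : k ≤ x₂
  · left
    rw [if_pos hk, if_neg (by omega : ¬ x₂ < k)]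
    omega
  · right
    rw [if_neg hk, if_pos (by omega : x₂ < k)]
    refine ⟨by omega, fun w w' _ _ _ _ _ h5 => ?_⟩
    unfold lft at h5
    omega

theorem arith {n k x₁ y₁ x₂ y₂ : ℕ}
    (ho : (x₁ < y₂ ∧ y₂ < x₂ ∧ x₂ < y₁) ∨ (y₂ < x₂ ∧ x₂ < y₁ ∧ y₁ < x₁) ∨
      (x₂ < y₁ ∧ y₁ < x₁ ∧ x₁ < y₂) ∨ (y₁ < x₁ ∧ x₁ < y₂ ∧ y₂ < x₂)) :
    Chg n k x₁ y₁ x₂ y₂ := by
  rcases ho with h | h | h | h
  · exact chg1 h
  · exact chg2 h
  · exact (chg1 h).symm
  · exact (chg2 h).symm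

end Vale.Agent.P167.H718
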