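import Vale.Agent.P167.BR.Poly
import Vale.Agent.P167.Top.Turn
import Vale.Agent.P167.FK.Defs

/-!
# P167, general `q`, block Q-PAR: arrows in a finite domain of squares

The sum over the configurations of a finite domain `D` (free arrows on the boundary edges) of the
product over the pieces of `2 cos` (turning + phases) is a sum over arrow configurations `σ` (the edges
whose arrow has the canonical direction) of a product of local weights at the squares of `D`.
-/

namespace Vale.Agent.P167.H718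

open Finset Complex
open Vale.Agent.P167.BR
open Vale.Agent.P167.FK (cf)

variable {ω η : Cfg} {D : Finset (ℤ × ℤ)} {σ : Finset Ed} {e : Ed} {v : ℤ × ℤ} {θ : ℝ}

/-- The arrow at `e`: `1` along the canonical direction, `-1` otherwise. -/
def sn (σ : Finset Ed) (e : Ed) : ℝ := if e ∈ σ then 1 else -1

/-- `σ` is constant along the pieces. -/
def Cmp (ω : Cfg) (D : Finset (ℤ × ℤ)) (σ : Finset Ed) : Prop :=
  ∀ e, hdv e ∈ D → (e ∈ σ ↔ nx ω e ∈ σ)

/-! ### pieces and arrows -/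

theorem mem_biUnion_pcs {T : Finset (Finset Ed)} (hT : T ⊆ pcs ω D) {A : Finset Ed}
    (hA : A ∈ pcs ω D) (he : e ∈ A) : e ∈ T.biUnion id ↔ A ∈ T := by
  rw [mem_biUnion]
  constructor
  · rintro ⟨B, hB, heB⟩
    rwa [eq_of_mem_pcs hA (hT hB) he heB]
  · exact fun h => ⟨A, h, he⟩

theorem cmp_biUnion {T : Finset (Finset Ed)} (hT : T ⊆ pcs ω D) : Cmp ω D (T.biUnion id) := by
  intro e he
  rw [mem_biUnion, mem_biUnion]
  constructor
  · rintro ⟨A, hA, h⟩
    exact ⟨A, hA, (nx_mem_iff (hT hA) he).1 h⟩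
  · rintro ⟨A, hA, h⟩
    exact ⟨A, hA, (nx_mem_iff (hT hA) he).2 h⟩

theorem Cmp.eqv (h : Cmp ω D σ) {e e' : Ed} (h' : Relation.EqvGen (Nxt ω D) e e') :
    e ∈ σ ↔ e' ∈ σ := by
  induction h' with
  | rel a b hab =>
    obtain ⟨h1, rfl⟩ := hab
    exact h a h1
  | refl a => exact Iff.rfl
  | symm a b _ ih => exact ih.symm
  | trans a b c _ _ ih1 ih2 => exact ih1.trans ih2

theorem biUnion_of_cmp (h : Cmp ω D σ) (hσ : σ ⊆ eds D) [DecidablePred fun A : Finset Ed => A ⊆ σ] :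
    ((pcs ω D).filter fun A => A ⊆ σ).biUnion id = σ := by
  ext e
  rw [mem_biUnion]
  constructor
  · rintro ⟨A, hA, he⟩
    exact (mem_filter.1 hA).2 he
  · intro he
    refine ⟨piece ω D e, mem_filter.2 ⟨piece_mem_pcs (hσ he), fun e' he' => ?_⟩,
      self_mem_piece (hσ he)⟩
    exact (h.eqv (mem_piece.1 he').2).1 he

theorem sum_eds_pcs (g : Ed → ℝ) : ∑ x ∈ eds D, g x = ∑ A ∈ pcs ω D, ∑ x ∈ A, g x := by
  classical
  have h1 : eds D = (pcs ω D).biUnion id := by
    ext e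
    rw [mem_biUnion]
    constructor
    · exact fun he => ⟨_, piece_mem_pcs he, self_mem_piece he⟩
    · rintro ⟨A, hA, he⟩
      exact subset_eds hA he
  rw [h1, sum_biUnion]
  · rfl
  · intro A hA B hB hAB
    rw [Function.onFun, id, id, Finset.disjoint_left]
    exact fun e h1 h2 => hAB (eq_of_mem_pcs hA hB h1 h2)

open Classical in
/-- **Orientations of the pieces.** -/
theorem prod_two_cos (ω : Cfg) (D : Finset (ℤ × ℤ)) (α : Ed → ℝ) :
    ∏ A ∈ pcs ω D, ((2 * Real.cos (∑ x ∈ A, α x) : ℝ) : ℂ) =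
      ∑ σ ∈ (eds D).powerset.filter (Cmp ω D), cexp (I * ((∑ x ∈ eds D, sn σ x * α x : ℝ) : ℂ)) := by
  have h1 : ∀ A ∈ pcs ω D, ((2 * Real.cos (∑ x ∈ A, α x) : ℝ) : ℂ) =
      cexp (I * ((∑ x ∈ A, α x : ℝ) : ℂ)) + cexp (-(I * ((∑ x ∈ A, α x : ℝ) : ℂ))) := by
    intro A _
    push_cast
    rw [Complex.two_cos, mul_comm I]
    ring_nf
  rw [prod_congr rfl h1, prod_add]
  refine sum_nbij' (fun T => T.biUnion id) (fun σ => (pcs ω D).filter fun A => A ⊆ σ) ?_ ?_ ?_ ?_ ?_
  · intro T hT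
    rw [mem_powerset] at hT
    rw [mem_filter, mem_powerset]
    refine ⟨?_, cmp_biUnion hT⟩
    intro e he
    obtain ⟨A, hA, he⟩ := mem_biUnion.1 he
    exact subset_eds (hT hA) he
  · intro σ _
    rw [mem_powerset]
    exact filter_subset _ _
  · intro T hT
    rw [mem_powerset] at hT
    ext A
    rw [mem_filter]
    constructor
    · rintro ⟨hA, h⟩
      obtain ⟨e, he⟩ := pcs_nonempty hA
      exact (mem_biUnion_pcs hT hA he).1 (h he)
    · intro hA
      exact ⟨hT hA, fun e he => mem_biUnion.2 ⟨A, hA, he⟩⟩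
  · intro σ hσ
    rw [mem_filter, mem_powerset] at hσ
    exact biUnion_of_cmp hσ.2 hσ.1
  · intro T hT
    rw [mem_powerset] at hT
    have h2 : ∑ x ∈ eds D, sn (T.biUnion id) x * α x =
        ∑ A ∈ T, (∑ x ∈ A, α x) + ∑ A ∈ pcs ω D \ T, -(∑ x ∈ A, α x) := by
      rw [sum_eds_pcs (ω := ω), ← sum_sdiff hT, add_comm]
      congr 1
      · refine sum_congr rfl fun A hA => sum_congr rfl fun x hx => ?_
        rw [sn, if_pos ((mem_biUnion_pcs hT (hT hA) hx).2 hA), one_mul]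
      · refine sum_congr rfl fun A hA => ?_
        rw [mem_sdiff] at hA
        rw [← sum_neg_distrib]
        refine sum_congr rfl fun x hx => ?_
        rw [sn, if_neg fun h => hA.2 ((mem_biUnion_pcs hT hA.1 hx).1 h), neg_one_mul]
    rw [h2]
    push_cast
    rw [mul_add, Complex.exp_add, mul_sum, mul_sum, Complex.exp_sum, Complex.exp_sum]
    congr 1
    refine prod_congr rfl fun A _ => ?_
    rw [mul_neg]

/-! ### the squares -/

/-- The in-edges and the out-edges of a square. -/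
def ia (v : ℤ × ℤ) : Ed := if Even (v.1 + v.2) then Sum.inr v else Sum.inl v
def ib (v : ℤ × ℤ) : Ed := if Even (v.1 + v.2) then Sum.inr (v.1, v.2 - 1) else
  Sum.inl (v.1 - 1, v.2)
def oa (v : ℤ × ℤ) : Ed := if Even (v.1 + v.2) then Sum.inl v else Sum.inr (v.1, v.2 - 1)
def ob (v : ℤ × ℤ) : Ed := if Even (v.1 + v.2) then Sum.inl (v.1 - 1, v.2) else Sum.inr v

theorem hdv_iff : hdv e = v ↔ e = ia v ∨ e = ib v := by
  obtain ⟨a, b⟩ := v
  rcases e with ⟨x, y⟩ | ⟨x, y⟩
  · by_cases h : Even (a + b) <;> by_cases h2 : Even (x + y) <;>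
      simp only [hdv, ia, ib, h, h2, if_true, if_false, Prod.mk.injEq, Sum.inl.injEq, reduceCtorEq,
        or_self, iff_false, not_and] <;> rw [Int.even_iff] at h h2 <;> omega
  · by_cases h : Even (a + b) <;> by_cases h2 : Even (x + y) <;>
      simp only [hdv, ia, ib, h, h2, if_true, if_false, Prod.mk.injEq, Sum.inr.injEq, reduceCtorEq,
        or_self, iff_false, not_and] <;> rw [Int.even_iff] at h h2 <;> omega

theorem tlv_iff : tlv e = v ↔ e = oa v ∨ e = ob v := by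
  obtain ⟨a, b⟩ := v
  rcases e with ⟨x, y⟩ | ⟨x, y⟩
  · by_cases h : Even (a + b) <;> by_cases h2 : Even (x + y) <;>
      simp only [tlv, oa, ob, h, h2, if_true, if_false, Prod.mk.injEq, Sum.inl.injEq, reduceCtorEq,
        or_self, iff_false, not_and] <;> rw [Int.even_iff] at h h2 <;> omega
  · by_cases h : Even (a + b) <;> by_cases h2 : Even (x + y) <;>
      simp only [tlv, oa, ob, h, h2, if_true, if_false, Prod.mk.injEq, Sum.inr.injEq, reduceCtorEq,
        or_self, iff_false, not_and] <;> rw [Int.even_iff] at h h2 <;> omega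

theorem ia_ne_ib (v : ℤ × ℤ) : ia v ≠ ib v := by
  obtain ⟨a, b⟩ := v
  unfold ia ib
  split_ifs
  · intro h
    have := (Prod.mk.injEq _ _ _ _ ▸ Sum.inr.inj h).2
    omega
  · intro h
    have := (Prod.mk.injEq _ _ _ _ ▸ Sum.inl.inj h).1
    omega

theorem nx_ia (ω : Cfg) (v : ℤ × ℤ) : nx ω (ia v) = if ω v then ob v else oa v := by
  obtain ⟨a, b⟩ := v
  unfold ia oa ob
  by_cases h : Even (a + b)
  · simp only [h, if_true, nx]
  · simp only [h, if_false, nx]

theorem nx_ib (ω : Cfg) (v : ℤ × ℤ) : nx ω (ib v) = if ω v then oa v else ob v := by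
  obtain ⟨a, b⟩ := v
  unfold ib oa ob
  by_cases h : Even (a + b)
  · have h2 : ¬ Even (a + (b - 1)) := by rw [Int.even_iff] at h ⊢; omega
    simp only [h, if_true, nx, h2, if_false, sub_add_cancel]
  · have h2 : Even (a - 1 + b) := by rw [Int.even_iff] at h ⊢; omega
    simp only [h, if_true, nx, h2, if_false, sub_add_cancel]

theorem cmp_iff : Cmp ω D σ ↔ ∀ v ∈ D, if ω v then (ia v ∈ σ ↔ ob v ∈ σ) ∧ (ib v ∈ σ ↔ oa v ∈ σ)
    else (ia v ∈ σ ↔ oa v ∈ σ) ∧ (ib v ∈ σ ↔ ob v ∈ σ) := by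
  constructor
  · intro h v hv
    have h1 := h (ia v) (by rwa [hdv_iff.2 (Or.inl rfl)])
    have h2 := h (ib v) (by rwa [hdv_iff.2 (Or.inr rfl)])
    rw [nx_ia] at h1
    rw [nx_ib] at h2
    split_ifs at * with hw
    · exact ⟨h1, h2⟩
    · exact ⟨h1, h2⟩
  · intro h e he
    have h1 := h _ he
    rcases hdv_iff.1 (rfl : hdv e = hdv e) with h2 | h2
    · conv_lhs => rw [h2]
      conv_rhs => rw [h2]
      rw [nx_ia]
      split_ifs at * with hw
      · exact h1.1
      · exact h1.1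
    · conv_lhs => rw [h2]
      conv_rhs => rw [h2]
      rw [nx_ib]
      split_ifs at * with hw
      · exact h1.2
      · exact h1.2

/-- The factor of a square in the state `b`. -/
noncomputable def lw (θ : ℝ) (σ : Finset Ed) (v : ℤ × ℤ) (b : Bool) : ℂ :=
  if (if b then (ia v ∈ σ ↔ ob v ∈ σ) ∧ (ib v ∈ σ ↔ oa v ∈ σ)
    else (ia v ∈ σ ↔ oa v ∈ σ) ∧ (ib v ∈ σ ↔ ob v ∈ σ)) then
    cexp (I * ((θ / 4 * (if b then -1 else 1) * (sn σ (ia v) + sn σ (ib v)) : ℝ) : ℂ)) else 0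

/-- The sum of the turning angles. -/
theorem sum_turn (ω : Cfg) (D : Finset (ℤ × ℤ)) (σ : Finset Ed) (θ : ℝ) :
    ∑ x ∈ eds D, sn σ x * (if hdv x ∈ D then θ / 4 * (trn ω x : ℝ) else 0) =
      ∑ v ∈ D, θ / 4 * (if ω v then -1 else 1) * (sn σ (ia v) + sn σ (ib v)) := by
  classical
  have h1 : ∑ x ∈ eds D, sn σ x * (if hdv x ∈ D then θ / 4 * (trn ω x : ℝ) else 0) =
      ∑ x ∈ (eds D).filter (fun x => hdv x ∈ D), sn σ x * (θ / 4 * (trn ω x : ℝ)) := by
    rw [sum_filter]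
    refine sum_congr rfl fun x _ => ?_
    split_ifs <;> simp
  rw [h1, ← sum_fiberwise_of_maps_to (g := hdv) (t := D) fun x hx => (mem_filter.1 hx).2]
  refine sum_congr rfl fun v hv => ?_
  have h2 : ((eds D).filter (fun x => hdv x ∈ D)).filter (fun x => hdv x = v) = {ia v, ib v} := by
    ext x
    rw [mem_filter, mem_filter, mem_insert, mem_singleton, hdv_iff, mem_eds]
    constructor
    · exact fun h => h.2
    · intro h
      have h3 := hdv_iff.2 h
      rw [h3]
      exact ⟨⟨Or.inl hv, hv⟩, h⟩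
  have h3 : ∀ x, hdv x = v → (trn ω x : ℝ) = if ω v then -1 else 1 := by
    intro x hx
    unfold trn
    rw [hx]
    split_ifs <;> simp
  rw [h2, sum_pair (ia_ne_ib v), h3 _ (hdv_iff.2 (Or.inl rfl)), h3 _ (hdv_iff.2 (Or.inr rfl))]
  ring

open Classical in
/-- The sum over the states of the squares. -/
theorem sum_states (D : Finset (ℤ × ℤ)) (η : Cfg) (σ : Finset Ed) (θ : ℝ) :
    ∑ S ∈ D.powerset, (if Cmp (cf D η S) D σ then
      cexp (I * ((∑ x ∈ eds D, sn σ x *
        (if hdv x ∈ D then θ / 4 * (trn (cf D η S) x : ℝ) else 0) : ℝ) : ℂ)) else 0) =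
      ∏ v ∈ D, (lw θ σ v true + lw θ σ v false) := by
  rw [prod_add]
  refine sum_congr rfl fun S hS => ?_
  rw [mem_powerset] at hS
  have hcf : ∀ v ∈ D, cf D η S v = decide (v ∈ S) := fun v hv => by
    unfold cf
    rw [if_pos hv]
  have h1 : (∏ v ∈ S, lw θ σ v true) * (∏ v ∈ D \ S, lw θ σ v false) =
      ∏ v ∈ D, lw θ σ v (cf D η S v) := by
    rw [← prod_sdiff hS, mul_comm]
    congr 1
    · refine prod_congr rfl fun v hv => ?_
      rw [mem_sdiff] at hv
      rw [hcf v hv.1, decide_eq_false hv.2]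
    · refine prod_congr rfl fun v hv => ?_
      rw [hcf v (hS hv), decide_eq_true hv]
  rw [h1]
  by_cases hc : Cmp (cf D η S) D σ
  · rw [if_pos hc, sum_turn]
    push_cast
    rw [mul_sum, Complex.exp_sum]
    refine prod_congr rfl fun v hv => ?_
    have h2 := cmp_iff.1 hc v hv
    rw [lw, if_pos h2]
    push_cast
    rfl
  · rw [if_neg hc]
    rw [cmp_iff] at hc
    push Not at hc
    obtain ⟨v, hv, h2⟩ := hc
    symm
    refine prod_eq_zero hv ?_
    rw [lw, if_neg h2]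

/-- The sum over arrows. -/
noncomputable def AS (θ : ℝ) (D : Finset (ℤ × ℤ)) (φ : Ed → ℝ) : ℂ :=
  ∑ σ ∈ (eds D).powerset, (∏ v ∈ D, (lw θ σ v true + lw θ σ v false)) *
    cexp (I * ((∑ x ∈ eds D, sn σ x * φ x : ℝ) : ℂ))

open Classical in
/-- **Baxter, Kelland and Wu in a finite domain with free arrows.** -/
theorem bkw (θ : ℝ) (D : Finset (ℤ × ℤ)) (η : Cfg) (φ : Ed → ℝ) :
    ∑ S ∈ D.powerset, ∏ A ∈ pcs (cf D η S) D, ((2 * Real.cos (∑ x ∈ A, (φ x +
      if hdv x ∈ D then θ / 4 * (trn (cf D η S) x : ℝ) else 0)) : ℝ) : ℂ) = AS θ D φ := by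
  simp only [prod_two_cos]
  unfold AS
  simp only [sum_filter]
  rw [sum_comm]
  refine sum_congr rfl fun σ _ => ?_
  rw [← sum_states D η σ θ, sum_mul]
  refine sum_congr rfl fun S _ => ?_
  split_ifs
  · rw [← Complex.exp_add, ← mul_add, ← Complex.ofReal_add, ← sum_add_distrib]
    congr 3
    refine sum_congr rfl fun x _ => ?_
    ring
  · rw [zero_mul]

end Vale.Agent.P167.H718
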