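import Vale.Agent.P167.H718.Par1
import Vale.Agent.P167.BR.Sym

/-!
# P167, general `q`, block Q-PAR: odd translations of the sum over arrows

An odd translation exchanges the in-edges and the out-edges of the squares; in the arrow variables
(relative to the canonical directions) the local weights do not change.
-/

namespace Vale.Agent.P167.H718

open Finset Complex
open Vale.Agent.P167.BR
open Vale.Agent.P167.H135 (shE hdv_sh' shE_inj shE_neg od_add)

variable {D : Finset (ℤ × ℤ)} {σ : Finset Ed} {e : Ed} {a v : ℤ × ℤ} {θ : ℝ}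

open Classical in
/-- The weight of the square as a function of the four arrows. -/
noncomputable def Wf (θ : ℝ) (p₁ p₂ r₁ r₂ : Prop) : ℂ :=
  (if (p₁ ↔ r₂) ∧ (p₂ ↔ r₁) then
    cexp (I * ((θ / 4 * -1 * ((if p₁ then 1 else -1) + (if p₂ then 1 else -1)) : ℝ) : ℂ)) else 0) +
  (if (p₁ ↔ r₁) ∧ (p₂ ↔ r₂) then
    cexp (I * ((θ / 4 * 1 * ((if p₁ then 1 else -1) + (if p₂ then 1 else -1)) : ℝ) : ℂ)) else 0)

theorem lw_add (θ : ℝ) (σ : Finset Ed) (v : ℤ × ℤ) : lw θ σ v true + lw θ σ v false =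
    Wf θ (ia v ∈ σ) (ib v ∈ σ) (oa v ∈ σ) (ob v ∈ σ) := by
  classical
  unfold lw Wf sn
  simp only [if_true, Bool.false_eq_true, if_false]
  congr!

theorem Wf_symm₁ (θ : ℝ) (p₁ p₂ r₁ r₂ : Prop) : Wf θ r₁ r₂ p₂ p₁ = Wf θ p₁ p₂ r₁ r₂ := by
  unfold Wf
  by_cases h1 : p₁ <;> by_cases h2 : p₂ <;> by_cases h3 : r₁ <;> by_cases h4 : r₂ <;>
    simp [h1, h2, h3, h4]

theorem Wf_symm₂ (θ : ℝ) (p₁ p₂ r₁ r₂ : Prop) : Wf θ r₂ r₁ p₁ p₂ = Wf θ p₁ p₂ r₁ r₂ := by
  unfold Wf
  by_cases h1 : p₁ <;> by_cases h2 : p₂ <;> by_cases h3 : r₁ <;> by_cases h4 : r₂ <;>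
    simp [h1, h2, h3, h4]

/-! ### the edges of a translated square -/

theorem sh_even (ha : ¬ Even (a.1 + a.2)) (hv : Even (v.1 + v.2)) :
    ia (v + a) = shE a (oa v) ∧ ib (v + a) = shE a (ob v) ∧ oa (v + a) = shE a (ib v) ∧
      ob (v + a) = shE a (ia v) := by
  obtain ⟨x, y⟩ := v
  obtain ⟨b, c⟩ := a
  have h1 : ¬ Even ((x + b) + (y + c)) := by
    simp only at ha hv
    rw [Int.even_iff] at *
    omega
  simp only at hv
  unfold ia ib oa ob
  simp only [Prod.mk_add_mk, h1, hv, if_true, if_false]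
  refine ⟨rfl, ?_, ?_, rfl⟩
  · show (Sum.inl (x + b - 1, y + c) : Ed) = Sum.inl (x - 1 + b, y + c)
    congr 2
    ring
  · show (Sum.inr (x + b, y + c - 1) : Ed) = Sum.inr (x + b, y - 1 + c)
    congr 2
    ring

theorem sh_odd (ha : ¬ Even (a.1 + a.2)) (hv : ¬ Even (v.1 + v.2)) :
    ia (v + a) = shE a (ob v) ∧ ib (v + a) = shE a (oa v) ∧ oa (v + a) = shE a (ia v) ∧
      ob (v + a) = shE a (ib v) := by
  obtain ⟨x, y⟩ := v
  obtain ⟨b, c⟩ := a
  have h1 : Even ((x + b) + (y + c)) := by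
    simp only at ha hv
    rw [Int.even_iff] at *
    omega
  simp only at hv
  unfold ia ib oa ob
  simp only [Prod.mk_add_mk, h1, hv, if_true, if_false]
  refine ⟨rfl, ?_, rfl, ?_⟩
  · show (Sum.inr (x + b, y + c - 1) : Ed) = Sum.inr (x + b, y - 1 + c)
    congr 2
    ring
  · show (Sum.inl (x + b - 1, y + c) : Ed) = Sum.inl (x - 1 + b, y + c)
    congr 2
    ring

/-- The local weights of the translated arrows. -/
theorem lw_sh (ha : ¬ Even (a.1 + a.2)) (θ : ℝ) (σ : Finset Ed) (v : ℤ × ℤ) :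
    lw θ (σ.image (shE a)) (v + a) true + lw θ (σ.image (shE a)) (v + a) false =
      lw θ σ v true + lw θ σ v false := by
  rw [lw_add, lw_add]
  by_cases hv : Even (v.1 + v.2)
  · obtain ⟨h1, h2, h3, h4⟩ := sh_even ha hv
    rw [h1, h2, h3, h4, mem_shE, mem_shE, mem_shE, mem_shE]
    exact Wf_symm₁ _ _ _ _ _
  · obtain ⟨h1, h2, h3, h4⟩ := sh_odd ha hv
    rw [h1, h2, h3, h4, mem_shE, mem_shE, mem_shE, mem_shE]
    exact Wf_symm₂ _ _ _ _ _

theorem sn_sh (σ : Finset Ed) (a : ℤ × ℤ) (e : Ed) : sn (σ.image (shE a)) (shE a e) = sn σ e := by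
  unfold sn
  by_cases h : e ∈ σ
  · rw [if_pos h, if_pos (mem_shE.2 h)]
  · rw [if_neg h, if_neg fun h' => h (mem_shE.1 h')]

/-- **The sum over arrows of the translated domain.** -/
theorem AS_sh (ha : ¬ Even (a.1 + a.2)) (θ : ℝ) (D : Finset (ℤ × ℤ)) {φ φ' : Ed → ℝ}
    (h : ∀ e ∈ eds D, φ' (shE a e) = φ e) : AS θ (D.image (· + a)) φ' = AS θ D φ := by
  classical
  unfold AS
  rw [eds_tr]
  symm
  refine sum_nbij' (fun σ => σ.image (shE a)) (fun σ => σ.image (shE (-a))) ?_ ?_ ?_ ?_ ?_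
  · intro σ hσ
    rw [mem_powerset] at *
    exact image_subset_image hσ
  · intro σ hσ
    rw [mem_powerset] at *
    intro e he
    obtain ⟨e', he', rfl⟩ := mem_image.1 he
    exact mem_shE'.1 (hσ he')
  · intro σ _
    exact shE_image_neg σ a
  · intro σ _
    have := shE_image_neg σ (-a)
    rwa [neg_neg] at this
  · intro σ _
    rw [prod_image fun x _ y _ h => add_right_cancel h,
      sum_image fun x _ y _ h => shE_inj a h]
    congr 1
    · exact prod_congr rfl fun v _ => (lw_sh ha θ σ v).symm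
    · congr 3
      refine sum_congr rfl fun x hx => ?_
      rw [sn_sh, h x hx]

end Vale.Agent.P167.H718
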