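import Vale.Agent.P167.H718.Par4
import Vale.Agent.P167.H365.Q.Defs

/-!
# P167, general `q`, block Q-PAR: derivatives and the parity image

Derivatives of `ZQ` with respect to a charge (`XTW` of helper365) and to a boundary phase (`TW * sgA`),
the parity identities between them, and their form as expectations in the Dobrushin models of `D` and
of `D + a`.
-/

namespace Vale.Agent.P167.H718

open Finset
open Vale.Agent.P167.E6 (IsPolygon Encloses dir)
open Vale.Agent.P167.BR
open Vale.Agent.P167.FK (cf eta0 Ex)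
open Vale.Agent.P167.H871 (Bd)
open Vale.Agent.P167.QX (wQ XQ ZQ lo hi lo_xy hi_xy stag exists_xy wB XQ_stag)
open Vale.Agent.P167.H365 (se sgA sgn sgA_eq)
open Vale.Agent.P167.H365.NQ (XW TW XTW SW fe)

variable {D : Finset (ℤ × ℤ)} {ω η : Cfg} {A : Finset Ed} {e : Ed} {θ β Q : ℝ} {n k x y j : ℕ}
  {q : ZMod n → ℤ × ℤ} {u : ℕ → ℤ} {ψ ρ : ℕ → ℝ} {f g : ℤ × ℤ → ℝ} {z : ℤ × ℤ}

open Classical in
/-- Minus the derivative of `wQ` with respect to the mass. -/
noncomputable def wQ' (θ : ℝ) (q : ZMod n → ℤ × ℤ) (D : Finset (ℤ × ℤ)) (ψ : ℕ → ℝ)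
    (A : Finset Ed) (t : ℝ) : ℝ :=
  if IsLp D A then 2 * Real.sin (θ + t) else 2 * Real.sin (θ / 2 + ψ (hi q A) - ψ (lo q A) + t)

/-- The weights of the pieces. -/
noncomputable def Wt (θ : ℝ) (q : ZMod n → ℤ × ℤ) (D : Finset (ℤ × ℤ)) (ψ : ℕ → ℝ)
    (f : ℤ × ℤ → ℝ) (A : Finset Ed) : ℝ := wQ θ q D ψ A (mass D (q 0) f A)

/-- Minus the derivatives of the weights of the pieces. -/
noncomputable def Wt' (θ : ℝ) (q : ZMod n → ℤ × ℤ) (D : Finset (ℤ × ℤ)) (ψ : ℕ → ℝ)
    (f : ℤ × ℤ → ℝ) (A : Finset Ed) : ℝ := wQ' θ q D ψ A (mass D (q 0) f A)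

theorem XW_Wt (θ : ℝ) (q : ZMod n → ℤ × ℤ) (D : Finset (ℤ × ℤ)) (ψ : ℕ → ℝ)
    (f : ℤ × ℤ → ℝ) (ω : Cfg) : XW D (Wt θ q D ψ f) ω = XQ θ q D ψ f ω := rfl

/-! ### derivative in a charge -/

open Classical in
/-- The charge `f` with the additional charge `t` at `z`. -/
noncomputable def addc (f : ℤ × ℤ → ℝ) (z : ℤ × ℤ) (t : ℝ) (z' : ℤ × ℤ) : ℝ :=
  f z' + if z' = z then t else 0

theorem mass_addc (hz : z ∈ sites D) (p : ℤ × ℤ) (f : ℤ × ℤ → ℝ) (t : ℝ) (A : Finset Ed) :
    mass D p (addc f z t) A = mass D p f A + t * se D p A z := by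
  classical
  have h : addc f z t = fun z' => f z' + (if z' = z then t else 0) := rfl
  rw [h, mass_add]
  congr 1
  unfold mass se
  rw [sum_eq_single_of_mem z hz]
  · simp only [eq_self_iff_true, if_true]
    split_ifs <;> simp
  · intro z' _ hne
    simp only [if_neg hne]
    split_ifs <;> rfl

theorem hasDerivAt_wQ (θ : ℝ) (q : ZMod n → ℤ × ℤ) (D : Finset (ℤ × ℤ)) (ψ : ℕ → ℝ)
    (A : Finset Ed) (m s : ℝ) : HasDerivAt (fun t => wQ θ q D ψ A (m + t * s))
      (-(wQ' θ q D ψ A m * s)) 0 := by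
  have key : ∀ a : ℝ, HasDerivAt (fun t : ℝ => 2 * Real.cos (a + (m + t * s)))
      (-(2 * Real.sin (a + m) * s)) 0 := by
    intro a
    have h1 : HasDerivAt (fun t : ℝ => a + (m + t * s)) s 0 := by
      have h2 : HasDerivAt (fun t : ℝ => t * s) s 0 := by
        simpa using (hasDerivAt_id (0 : ℝ)).mul_const s
      exact (h2.const_add m).const_add a
    refine ((h1.cos).const_mul 2).congr_deriv ?_
    simp only [zero_mul, add_zero]
    ring
  unfold wQ wQ'
  by_cases hl : IsLp D A
  · simp only [if_pos hl]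
    exact key θ
  · simp only [if_neg hl]
    exact key _

theorem hasDerivAt_XQ_charge (hz : z ∈ sites D) (ω : Cfg) :
    HasDerivAt (fun t => XQ θ q D ψ (addc f z t) ω)
      (-(XTW D (q 0) (Wt θ q D ψ f) (Wt' θ q D ψ f) z ω)) 0 := by
  classical
  unfold XQ
  simp only [mass_addc hz]
  have h1 : ∀ A ∈ pcs ω D, HasDerivAt (fun t => wQ θ q D ψ A (mass D (q 0) f A + t * se D (q 0) A z))
      (-(Wt' θ q D ψ f A * se D (q 0) A z)) 0 := fun A _ => hasDerivAt_wQ θ q D ψ A _ _
  refine (HasDerivAt.fun_finsetProd h1).congr_deriv ?_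
  unfold XTW TW
  rw [← sum_neg_distrib]
  refine sum_congr rfl fun A _ => ?_
  simp only [smul_eq_mul, zero_mul, add_zero]
  have : ∏ B ∈ (pcs ω D).erase A, wQ θ q D ψ B (mass D (q 0) f B) =
      ∏ B ∈ (pcs ω D).erase A, Wt θ q D ψ f B := rfl
  rw [this]
  ring

/-- **The derivative in a charge.** -/
theorem hasDerivAt_charge (hz : z ∈ sites D) :
    HasDerivAt (fun t => ZQ θ q D ψ (addc f z t))
      (-(∑ S ∈ D.powerset, XTW D (q 0) (Wt θ q D ψ f) (Wt' θ q D ψ f) z (cf D eta0 S))) 0 := by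
  unfold ZQ
  rw [← sum_neg_distrib]
  exact HasDerivAt.fun_sum fun S _ => hasDerivAt_XQ_charge hz _

/-! ### derivative in a boundary phase -/

/-- The side of the base point. -/
theorem sgA_xy (hq : IsPolygon q) (hD : Encloses q D) (hA : A ∈ pcs ω D) (h : IsXY q A x y) :
    sgA D (q 0) A = if y < x then 1 else -1 := by
  classical
  have hne := h.ne
  rw [sgA_eq hA h.2.2.1]
  unfold sgn
  have key : ∀ w : ℤ × ℤ → ℤ, PotD D A w → (w (q 0) = w (rs (be q (x : ZMod n))) ↔ y < x) := by
    intro w hw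
    have h1 := pot_bd hq hD hA h hw (m := x + 1) h.1
    have h2 : ((x + 1 : ℕ) : ZMod n) = (x : ZMod n) + 1 := by push_cast; rfl
    rw [(be_even hq hD h.2.2.2.2.1).2.1, ← h2, h1]
    split_ifs <;> omega
  by_cases hlt : y < x
  · rw [if_pos hlt, if_pos]
    obtain ⟨w, hw⟩ := exists_pot hq hD hA
    exact ⟨w, hw, (key w hw).2 hlt⟩
  · rw [if_neg hlt, if_neg]
    rintro ⟨w, hw, h3⟩
    exact hlt ((key w hw).1 h3)

/-- The phases `ψ` with the additional phase `t` at the side `j`. -/
noncomputable def addp (ψ : ℕ → ℝ) (j : ℕ) (t : ℝ) (i : ℕ) : ℝ := ψ i + if i = j then t else 0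

/-- The sign of the side `j`. -/
noncomputable def sg1 (q : ZMod n → ℤ × ℤ) (j : ℕ) : ℝ :=
  if Even ((q (j : ZMod n)).1 + (q (j : ZMod n)).2) then 1 else -1

/-- The derivative of the weight of a piece. -/
theorem hasDerivAt_wQ_phase (hq : IsPolygon q) (hD : Encloses q D) (hj : j < n) (hA : A ∈ pcs ω D)
    (m : ℝ) : HasDerivAt (fun t => wQ θ q D (addp ψ j t) A m)
      (open Classical in if be q (j : ZMod n) ∈ A then
        -(sg1 q j * wQ' θ q D ψ A m * sgA D (q 0) A) else 0) 0 := by
  classical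
  have key : ∀ a s : ℝ, HasDerivAt (fun t : ℝ => 2 * Real.cos (a + t * s))
      (-(2 * Real.sin a * s)) 0 := by
    intro a s
    have h1 : HasDerivAt (fun t : ℝ => a + t * s) s 0 := by
      have h2 : HasDerivAt (fun t : ℝ => t * s) s 0 := by
        simpa using (hasDerivAt_id (0 : ℝ)).mul_const s
      exact h2.const_add a
    refine ((h1.cos).const_mul 2).congr_deriv ?_
    simp only [zero_mul, add_zero]
    ring
  unfold wQ wQ'
  by_cases hl : IsLp D A
  · have h1 : be q (j : ZMod n) ∉ A := by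
      intro hz
      rcases be_bd hq hD (j : ZMod n) with ⟨_, h2⟩ | ⟨_, h2⟩
      · exact h2 (hl.tl hA hz)
      · exact h2 (hl _ hz)
    simp only [if_pos hl, if_neg h1]
    exact hasDerivAt_const _ _
  · simp only [if_neg hl]
    obtain ⟨x, y, h⟩ := exists_xy hq hD hA hl
    have hne := h.ne
    rw [sgA_xy hq hD hA h, lo_xy hq hD hA h, hi_xy hq hD hA h]
    by_cases hjA : be q (j : ZMod n) ∈ A
    · rw [if_pos hjA]
      rcases (h.iff hq hD hA hj).1 hjA with rfl | rfl
      · -- entry
        have hs : sg1 q j = 1 := by unfold sg1; rw [if_pos h.2.2.2.2.1]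
        rw [hs]
        rcases Nat.lt_or_ge y j with h1 | h1
        · rw [max_eq_left h1.le, min_eq_right h1.le, if_pos h1]
          have e1 : (fun t => 2 * Real.cos (θ / 2 + addp ψ j t j - addp ψ j t y + m)) =
              fun t => 2 * Real.cos ((θ / 2 + ψ j - ψ y + m) + t * 1) := by
            funext t
            unfold addp
            rw [if_pos rfl, if_neg (by omega)]
            congr 2
            ring
          rw [e1]
          refine (key (θ / 2 + ψ j - ψ y + m) 1).congr_deriv ?_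
          ring
        · rw [max_eq_right h1, min_eq_left h1, if_neg (by omega)]
          have e1 : (fun t => 2 * Real.cos (θ / 2 + addp ψ j t y - addp ψ j t j + m)) =
              fun t => 2 * Real.cos ((θ / 2 + ψ y - ψ j + m) + t * (-1)) := by
            funext t
            unfold addp
            rw [if_pos rfl, if_neg (by omega)]
            congr 2
            ring
          rw [e1]
          refine (key (θ / 2 + ψ y - ψ j + m) (-1)).congr_deriv ?_
          ring
      · -- exit
        have hs : sg1 q j = -1 := by unfold sg1; rw [if_neg h.2.2.2.2.2]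
        rw [hs]
        rcases Nat.lt_or_ge j x with h1 | h1
        · rw [max_eq_left h1.le, min_eq_right h1.le, if_pos h1]
          have e1 : (fun t => 2 * Real.cos (θ / 2 + addp ψ j t x - addp ψ j t j + m)) =
              fun t => 2 * Real.cos ((θ / 2 + ψ x - ψ j + m) + t * (-1)) := by
            funext t
            unfold addp
            rw [if_pos rfl, if_neg (by omega)]
            congr 2
            ring
          rw [e1]
          refine (key (θ / 2 + ψ x - ψ j + m) (-1)).congr_deriv ?_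
          ring
        · rw [max_eq_right h1, min_eq_left h1, if_neg (by omega)]
          have e1 : (fun t => 2 * Real.cos (θ / 2 + addp ψ j t j - addp ψ j t x + m)) =
              fun t => 2 * Real.cos ((θ / 2 + ψ j - ψ x + m) + t * 1) := by
            funext t
            unfold addp
            rw [if_pos rfl, if_neg (by omega)]
            congr 2
            ring
          rw [e1]
          refine (key (θ / 2 + ψ j - ψ x + m) 1).congr_deriv ?_
          ring
    · rw [if_neg hjA]
      have h1 : j ≠ x := fun h' => hjA (h' ▸ h.2.2.1)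
      have h2 : j ≠ y := fun h' => hjA (h' ▸ h.2.2.2.1)
      have e1 : (fun t => 2 * Real.cos (θ / 2 + addp ψ j t (max x y) - addp ψ j t (min x y) + m)) =
          fun _ => 2 * Real.cos (θ / 2 + ψ (max x y) - ψ (min x y) + m) := by
        funext t
        unfold addp
        rw [if_neg (by omega), if_neg (by omega), add_zero, add_zero]
      rw [e1]
      exact hasDerivAt_const _ _

/-- The stagger observable of the boundary edge `e`: `SW` for `e = fe x`. -/
noncomputable def SE (D : Finset (ℤ × ℤ)) (p : ℤ × ℤ) (w w' : Finset Ed → ℝ) (e : Ed) (ω : Cfg) : ℝ :=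
  TW D w w' ω (piece ω D e) * sgA D p (piece ω D e)

theorem SW_eq (D : Finset (ℤ × ℤ)) (p : ℤ × ℤ) (w w' : Finset Ed → ℝ) (x : ℤ) (ω : Cfg) :
    SW D p w w' x ω = SE D p w w' (fe x) ω := rfl

theorem hasDerivAt_XQ_phase (hq : IsPolygon q) (hD : Encloses q D) (hj : j < n) (ω : Cfg) :
    HasDerivAt (fun t => XQ θ q D (addp ψ j t) f ω)
      (-(sg1 q j * SE D (q 0) (Wt θ q D ψ f) (Wt' θ q D ψ f) (be q (j : ZMod n)) ω)) 0 := by
  classical
  unfold XQ
  have h1 : ∀ A ∈ pcs ω D, HasDerivAt (fun t => wQ θ q D (addp ψ j t) A (mass D (q 0) f A))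
      (if be q (j : ZMod n) ∈ A then -(sg1 q j * Wt' θ q D ψ f A * sgA D (q 0) A) else 0) 0 :=
    fun A hA => hasDerivAt_wQ_phase hq hD hj hA _
  have h0 : addp ψ j 0 = ψ := by
    funext i
    unfold addp
    simp
  have he : be q (j : ZMod n) ∈ eds D := by
    rcases be_bd hq hD (j : ZMod n) with h | h
    · exact mem_eds.2 (Or.inl h.1)
    · exact mem_eds.2 (Or.inr h.1)
  have hP := piece_mem_pcs (ω := ω) he
  refine (HasDerivAt.fun_finsetProd h1).congr_deriv ?_
  rw [sum_eq_single_of_mem _ hP]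
  · rw [if_pos (self_mem_piece he)]
    unfold SE TW
    simp only [smul_eq_mul, h0]
    have : ∏ B ∈ (pcs ω D).erase (piece ω D (be q (j : ZMod n))), wQ θ q D ψ B (mass D (q 0) f B) =
        ∏ B ∈ (pcs ω D).erase (piece ω D (be q (j : ZMod n))), Wt θ q D ψ f B := rfl
    rw [this]
    ring
  · intro A hA hne
    rw [if_neg, smul_zero]
    intro hmem
    exact hne (eq_piece_of_mem hA hmem)

/-- **The derivative in a boundary phase.** -/
theorem hasDerivAt_phase (hq : IsPolygon q) (hD : Encloses q D) (hj : j < n) :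
    HasDerivAt (fun t => ZQ θ q D (addp ψ j t) f)
      (-(sg1 q j * ∑ S ∈ D.powerset,
        SE D (q 0) (Wt θ q D ψ f) (Wt' θ q D ψ f) (be q (j : ZMod n)) (cf D eta0 S))) 0 := by
  unfold ZQ
  rw [mul_sum, ← sum_neg_distrib]
  exact HasDerivAt.fun_sum fun S _ => hasDerivAt_XQ_phase hq hD hj _

end Vale.Agent.P167.H718
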