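import Vale.Agent.P167.H718.Rp
import Vale.Agent.P167.H871.DomE

/-!
# P167, general `q`: the boundary polygon of a rectangle

`RP n H k`: the boundary of `[0, n] × [0, H]`, counterclockwise, from the upper left corner: left side
(`k < H`), bottom (`k < H + n`), right side (`k < 2 H + n`), top (`k < 2 H + 2 n`), periodic. `RU`: the
lifted directions `-1, 0, 1, 2`. `rq n H s`: the polygon which starts at `RP n H s`.
-/

namespace Vale.Agent.P167.H718

open Finset
open Vale.Agent.P167.BR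
open Vale.Agent.P167.E6 (IsPolygon Encloses dir face)
open Vale.Agent.P167.Top (vec dx dy vec_congr)
open Vale.Agent.P167.H871 (Bd sqL vec_fin sqL_congr)

variable {n H s k j : ℕ}

/-- The rectangle. -/
noncomputable def Rt (n H : ℕ) : Finset (ℤ × ℤ) := Finset.Ico 0 (n : ℤ) ×ˢ Finset.Ico 0 (H : ℤ)

theorem mem_Rt {v : ℤ × ℤ} : v ∈ Rt n H ↔ 0 ≤ v.1 ∧ v.1 < n ∧ 0 ≤ v.2 ∧ v.2 < H := by
  unfold Rt
  rw [mem_product, mem_Ico, mem_Ico]
  tauto

/-- The vertices in one period. -/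
def rf (n H j : ℕ) : ℤ × ℤ :=
  if j < H then (0, (H : ℤ) - j) else if j < H + n then ((j : ℤ) - H, 0) else
    if j < 2 * H + n then ((n : ℤ), (j : ℤ) - H - n) else (2 * (H : ℤ) + 2 * n - j, (H : ℤ))

/-- The directions in one period. -/
def rg (n H j : ℕ) : ℤ := if j < H then -1 else if j < H + n then 0 else if j < 2 * H + n then 1 else 2

/-- The boundary of the rectangle. -/
def RP (n H k : ℕ) : ℤ × ℤ := rf n H (k % (2 * n + 2 * H))

/-- The lifted directions. -/
def RU (n H k : ℕ) : ℤ := rg n H (k % (2 * n + 2 * H)) + 4 * (k / (2 * n + 2 * H) : ℕ)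

theorem RP_eq {m : ℕ} (hj : j < 2 * n + 2 * H) : RP n H ((2 * n + 2 * H) * m + j) = rf n H j := by
  unfold RP
  rw [Nat.mul_add_mod, Nat.mod_eq_of_lt hj]

theorem RU_eq {m : ℕ} (hj : j < 2 * n + 2 * H) :
    RU n H ((2 * n + 2 * H) * m + j) = rg n H j + 4 * m := by
  unfold RU
  rw [Nat.mul_add_mod, Nat.mod_eq_of_lt hj, Nat.mul_add_div (by omega), Nat.div_eq_of_lt hj]
  push_cast
  ring

theorem RP_lt (hj : j < 2 * n + 2 * H) : RP n H j = rf n H j := by
  unfold RP
  rw [Nat.mod_eq_of_lt hj]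

theorem RU_lt (hj : j < 2 * n + 2 * H) : RU n H j = rg n H j := by
  unfold RU
  rw [Nat.mod_eq_of_lt hj, Nat.div_eq_of_lt hj]
  simp

theorem RP_per (n H k : ℕ) : RP n H (k + (2 * n + 2 * H)) = RP n H k := by
  unfold RP
  rw [Nat.add_mod_right]

theorem RU_per (hn : 1 ≤ n) (k : ℕ) : RU n H (k + (2 * n + 2 * H)) = RU n H k + 4 * 1 := by
  unfold RU
  rw [Nat.add_mod_right, Nat.add_div_right _ (by omega)]
  push_cast
  ring

/-- Successive vertices. -/
theorem RP_step (hn : 1 ≤ n) (hH : 1 ≤ H) (k : ℕ) :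
    RP n H (k + 1) = RP n H k + vec (RU n H k) ∧ |RU n H (k + 1) - RU n H k| ≤ 1 := by
  obtain ⟨m, j, hj, rfl⟩ : ∃ m j, j < 2 * n + 2 * H ∧ k = (2 * n + 2 * H) * m + j :=
    ⟨k / (2 * n + 2 * H), k % (2 * n + 2 * H), Nat.mod_lt _ (by omega), (Nat.div_add_mod _ _).symm⟩
  have hv : vec (rg n H j + 4 * m) = vec (rg n H j) := vec_congr (by omega)
  have v3 : vec (-1) = (0, -1) := rfl
  have v0 : vec 0 = (1, 0) := rfl
  have v1 : vec 1 = (0, 1) := rfl
  have v2 : vec 2 = (-1, 0) := rfl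
  rw [RP_eq hj, RU_eq hj, hv]
  rcases Nat.lt_or_ge (j + 1) (2 * n + 2 * H) with h | h
  · rw [add_assoc, RP_eq h, RU_eq h]
    constructor
    · unfold rf rg
      split_ifs <;> first
        | omega
        | (simp only [v3, v0, v1, v2, Prod.mk_add_mk, Prod.mk.injEq]; omega)
    · rw [abs_le]
      unfold rg
      split_ifs <;> omega
  · have h1 : (2 * n + 2 * H) * m + j + 1 = (2 * n + 2 * H) * (m + 1) + 0 := by
      rw [Nat.mul_add, mul_one]; omega
    rw [h1, RP_eq (by omega), RU_eq (by omega)]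
    constructor
    · unfold rf rg
      rw [if_pos (by omega), if_neg (by omega), if_neg (by omega)]
      rcases Nat.lt_or_ge j (2 * H + n) with h2 | h2
      · omega
      · rw [if_neg (by omega), if_neg (by omega), if_neg (by omega), if_neg (by omega)]
        simp only [v2, Prod.mk_add_mk, Prod.mk.injEq]
        omega
    · rw [abs_le]
      unfold rg
      rw [if_pos (by omega), if_neg (by omega), if_neg (by omega), if_neg (by omega)]
      push_cast
      omega

theorem rf_inj {i j : ℕ} (hn : 1 ≤ n) (hH : 1 ≤ H) (hi : i < 2 * n + 2 * H)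
    (hj : j < 2 * n + 2 * H) (h : rf n H i = rf n H j) : i = j := by
  unfold rf at h
  split_ifs at h <;> rw [Prod.mk.injEq] at h <;> omega

theorem sqL_m (s : ℤ × ℤ) : sqL s (-1) = (s.1, s.2 - 1) := by
  unfold sqL; norm_num; rfl

theorem sqL_0 (s : ℤ × ℤ) : sqL s 0 = s := by
  unfold sqL; norm_num

theorem sqL_1 (s : ℤ × ℤ) : sqL s 1 = (s.1 - 1, s.2) := by
  unfold sqL; norm_num; rfl

theorem sqL_2 (s : ℤ × ℤ) : sqL s 2 = (s.1 - 1, s.2 - 1) := by
  unfold sqL; norm_num; constructor <;> rfl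

/-- **The boundary of the rectangle.** -/
theorem bd_RP (hn : 1 ≤ n) (hH : 1 ≤ H) (s : ℕ) :
    Bd (Rt n H : Set (ℤ × ℤ)) (2 * n + 2 * H) (fun k => RP n H (k + s)) (fun k => RU n H (k + s)) 1 := by
  have hdec : ∀ k : ℕ, ∃ m j, j < 2 * n + 2 * H ∧ k = (2 * n + 2 * H) * m + j := fun k =>
    ⟨k / (2 * n + 2 * H), k % (2 * n + 2 * H), Nat.mod_lt _ (by omega), (Nat.div_add_mod _ _).symm⟩
  refine ⟨fun k => ?_, fun k => ?_, fun k => ?_, fun k => ?_, fun k l h1 h2 => ?_, fun k => ?_,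
    fun k => ?_⟩
  · show RP n H (k + 1 + s) = _
    rw [show k + 1 + s = k + s + 1 by ring]
    exact (RP_step hn hH _).1
  · show |RU n H (k + 1 + s) - _| ≤ 1
    rw [show k + 1 + s = k + s + 1 by ring]
    exact (RP_step hn hH _).2
  · show RU n H (k + (2 * n + 2 * H) + s) = _
    rw [show k + (2 * n + 2 * H) + s = k + s + (2 * n + 2 * H) by ring, RU_per hn]
  · show RP n H (k + (2 * n + 2 * H) + s) = _
    rw [show k + (2 * n + 2 * H) + s = k + s + (2 * n + 2 * H) by ring, RP_per]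
  · intro h
    have h' : RP n H (k + s) = RP n H (l + s) := h
    unfold RP at h'
    have h3 := rf_inj hn hH (Nat.mod_lt _ (by omega)) (Nat.mod_lt _ (by omega)) h'
    have h4 : (k + s) ≡ (l + s) [MOD 2 * n + 2 * H] := h3
    have h5 : (2 * n + 2 * H) ∣ (l + s) - (k + s) := (Nat.modEq_iff_dvd' (by omega)).1 h4
    have h6 := Nat.le_of_dvd (by omega) h5
    omega
  · obtain ⟨m, j, hj, hk⟩ := hdec (k + s)
    show sqL (RP n H (k + s)) (RU n H (k + s)) ∈ (Rt n H : Set (ℤ × ℤ))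
    rw [hk, RP_eq hj, RU_eq hj, mem_coe, mem_Rt]
    rw [sqL_congr (show (rg n H j + 4 * (m : ℤ)) % 4 = rg n H j % 4 by omega)]
    unfold rf rg
    split_ifs
    · rw [sqL_m]; simp only; omega
    · rw [sqL_0]; simp only; omega
    · rw [sqL_1]; simp only; omega
    · rw [sqL_2]; simp only; omega
  · obtain ⟨m, j, hj, hk⟩ := hdec (k + s)
    show sqL (RP n H (k + s)) (RU n H (k + s) - 1) ∉ (Rt n H : Set (ℤ × ℤ))
    rw [hk, RP_eq hj, RU_eq hj, mem_coe, mem_Rt]
    unfold rf rg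
    split_ifs
    · rw [sqL_congr (show ((-1 : ℤ) + 4 * (m : ℤ) - 1) % 4 = 2 % 4 by omega), sqL_2]
      simp only; omega
    · rw [sqL_congr (show ((0 : ℤ) + 4 * (m : ℤ) - 1) % 4 = (-1) % 4 by omega), sqL_m]
      simp only; omega
    · rw [sqL_congr (show ((1 : ℤ) + 4 * (m : ℤ) - 1) % 4 = 0 % 4 by omega), sqL_0]
      simp only; omega
    · rw [sqL_congr (show ((2 : ℤ) + 4 * (m : ℤ) - 1) % 4 = 1 % 4 by omega), sqL_1]
      simp only; omega

/-- The polygon which starts at the vertex number `s`. -/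
def rq (n H s : ℕ) (i : ZMod (2 * n + 2 * H)) : ℤ × ℤ := RP n H (i.val + s)

theorem rq_nat (n H s k : ℕ) : rq n H s (k : ZMod (2 * n + 2 * H)) = RP n H (k + s) := by
  unfold rq RP
  rw [ZMod.val_natCast, Nat.mod_add_mod]

theorem rq_fun (n H s : ℕ) : (fun k : ℕ => rq n H s (k : ZMod (2 * n + 2 * H))) =
    fun k => RP n H (k + s) := funext fun k => rq_nat n H s k

theorem rq_bd (hn : 1 ≤ n) (hH : 1 ≤ H) (s : ℕ) : Bd (Rt n H : Set (ℤ × ℤ)) (2 * n + 2 * H)
    (fun k : ℕ => rq n H s (k : ZMod (2 * n + 2 * H))) (fun k => RU n H (k + s)) 1 := by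
  rw [rq_fun]
  exact bd_RP hn hH s

theorem rq_succ (hn : 1 ≤ n) (s : ℕ) (i : ZMod (2 * n + 2 * H)) :
    rq n H s (i + 1) = RP n H (i.val + s + 1) := by
  have hne : NeZero (2 * n + 2 * H) := ⟨by omega⟩
  have h1 : ((i.val + 1 : ℕ) : ZMod (2 * n + 2 * H)) = i + 1 := by
    rw [Nat.cast_add, ZMod.natCast_zmod_val, Nat.cast_one]
  rw [← h1, rq_nat]
  congr 1
  ring

theorem rq_poly (hn : 1 ≤ n) (hH : 1 ≤ H) (s : ℕ) : IsPolygon (rq n H s) := by
  have hne : NeZero (2 * n + 2 * H) := ⟨by omega⟩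
  refine ⟨by omega, fun i j h => ?_, fun i => ?_⟩
  · have h3 := rf_inj hn hH (Nat.mod_lt _ (by omega)) (Nat.mod_lt _ (by omega)) h
    have h4 : (i.val + s) ≡ (j.val + s) [MOD 2 * n + 2 * H] := h3
    have h5 : i.val ≡ j.val [MOD 2 * n + 2 * H] := Nat.ModEq.add_right_cancel' s h4
    have h6 := h5.eq_of_lt_of_lt (ZMod.val_lt i) (ZMod.val_lt j)
    exact ZMod.val_injective _ h6
  · rw [rq_succ hn, (RP_step hn hH _).1]
    set u := RU n H (i.val + s) with hu
    have h4 : ∃ r : Fin 4, (r.val : ℤ) = u % 4 := by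
      have h5 : 0 ≤ u % 4 := Int.emod_nonneg _ (by norm_num)
      have h6 : u % 4 < 4 := Int.emod_lt_of_pos _ (by norm_num)
      exact ⟨⟨(u % 4).toNat, by omega⟩, by simp only; omega⟩
    obtain ⟨r, hr⟩ := h4
    refine ⟨r, ?_⟩
    rw [← vec_fin, hr, vec_congr (show u % 4 % 4 = u % 4 by omega)]
    rfl

/-- Every vertex in the first period. -/
theorem exists_shift (hn : 1 ≤ n) (s j : ℕ) :
    ∃ i : ZMod (2 * n + 2 * H), (i.val + s) % (2 * n + 2 * H) = j % (2 * n + 2 * H) := by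
  have hne : NeZero (2 * n + 2 * H) := ⟨by omega⟩
  refine ⟨((j + (2 * n + 2 * H) * s - s : ℕ) : ZMod (2 * n + 2 * H)), ?_⟩
  rw [ZMod.val_natCast, Nat.mod_add_mod]
  have h1 : s ≤ (2 * n + 2 * H) * s := Nat.le_mul_of_pos_left s (by omega)
  rw [show j + (2 * n + 2 * H) * s - s + s = j + (2 * n + 2 * H) * s by omega, Nat.add_mul_mod_self_left]

theorem rq_encl (hn : 1 ≤ n) (hH : 1 ≤ H) (s : ℕ) : Encloses (rq n H s) (Rt n H) := by
  have hne : NeZero (2 * n + 2 * H) := ⟨by omega⟩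
  have hb := bd_RP hn hH s
  have e0 : dir 0 = (1, 0) := rfl
  have e1 : dir 1 = (0, 1) := rfl
  have e2 : dir 2 = (-1, 0) := rfl
  have e3 : dir 3 = (0, -1) := rfl
  have f0 : ∀ a b : ℤ, face (a, b) 0 = (a + 0, b + 0) := fun _ _ => rfl
  have f1 : ∀ a b : ℤ, face (a, b) 1 = (a + -1, b + 0) := fun _ _ => rfl
  have f2 : ∀ a b : ℤ, face (a, b) 2 = (a + -1, b + -1) := fun _ _ => rfl
  have f3 : ∀ a b : ℤ, face (a, b) 3 = (a + 0, b + -1) := fun _ _ => rfl
  have m0 : (0 : Fin 4) - 1 = 3 := rfl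
  have m1 : (1 : Fin 4) - 1 = 0 := rfl
  have m2 : (2 : Fin 4) - 1 = 1 := rfl
  have m3 : (3 : Fin 4) - 1 = 2 := rfl
  have v3 : vec (-1) = (0, -1) := rfl
  have v0 : vec 0 = (1, 0) := rfl
  have v1 : vec 1 = (0, 1) := rfl
  have v2 : vec 2 = (-1, 0) := rfl
  -- the vertex number `j`
  have hex : ∀ (j : ℕ) (v : ℤ × ℤ) (r : Fin 4), j < 2 * n + 2 * H → rf n H j = v →
      vec (rg n H j) = dir r → ∃ i, rq n H s i = v ∧ rq n H s (i + 1) = v + dir r := by
    intro j v r hj h1 h2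
    obtain ⟨i, hi⟩ := exists_shift (H := H) hn s j
    rw [Nat.mod_eq_of_lt hj] at hi
    have h3 : RP n H (i.val + s) = v := by unfold RP; rw [hi, h1]
    refine ⟨i, h3, ?_⟩
    rw [rq_succ hn, (RP_step hn hH _).1, h3]
    congr 1
    rw [← h2]
    unfold RU
    rw [hi]
    exact vec_congr (by omega)
  rintro ⟨a, b⟩ r
  constructor
  · rintro ⟨i, h1, h2⟩
    rw [rq_succ hn, (RP_step hn hH _).1] at h2
    have h3 : RP n H (i.val + s) = (a, b) := h1
    rw [h3] at h2
    have h4 := add_left_cancel h2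
    unfold RU at h4
    unfold RP at h3
    have hj := Nat.mod_lt (i.val + s) (show 2 * n + 2 * H > 0 by omega)
    set j := (i.val + s) % (2 * n + 2 * H) with hjd
    set m := (i.val + s) / (2 * n + 2 * H)
    rw [vec_congr (show (rg n H j + 4 * (m : ℤ)) % 4 = rg n H j % 4 by omega)] at h4
    rw [mem_Rt, mem_Rt]
    unfold rf at h3
    unfold rg at h4
    have hr : r = 0 ∨ r = 1 ∨ r = 2 ∨ r = 3 := by fin_cases r <;> simp
    rcases hr with rfl | rfl | rfl | rfl <;>
      simp only [e0, e1, e2, e3, m0, m1, m2, m3, f0, f1, f2, f3] at h4 ⊢ <;>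
      split_ifs at h3 h4 <;>
      simp only [v0, v1, v2, v3, Prod.mk.injEq] at h3 h4 <;> omega
  · rw [mem_Rt, mem_Rt]
    have hr : r = 0 ∨ r = 1 ∨ r = 2 ∨ r = 3 := by fin_cases r <;> simp
    rcases hr with rfl | rfl | rfl | rfl <;> simp only [m0, m1, m2, m3, f0, f1, f2, f3] <;> intro h
    · refine hex (H + a.toNat) _ _ (by omega) ?_ ?_
      · unfold rf
        rw [if_neg (by omega), if_pos (by omega), Prod.mk.injEq]
        omega
      · unfold rg
        rw [if_neg (by omega), if_pos (by omega)]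
        rfl
    · refine hex (H + n + b.toNat) _ _ (by omega) ?_ ?_
      · unfold rf
        rw [if_neg (by omega), if_neg (by omega), if_pos (by omega), Prod.mk.injEq]
        omega
      · unfold rg
        rw [if_neg (by omega), if_neg (by omega), if_pos (by omega)]
        rfl
    · refine hex (2 * H + 2 * n - a.toNat) _ _ (by omega) ?_ ?_
      · unfold rf
        rw [if_neg (by omega), if_neg (by omega), if_neg (by omega), Prod.mk.injEq]
        omega
      · unfold rg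
        rw [if_neg (by omega), if_neg (by omega), if_neg (by omega)]
        rfl
    · refine hex (H - b.toNat) _ _ (by omega) ?_ ?_
      · unfold rf
        rw [if_pos (by omega), Prod.mk.injEq]
        omega
      · unfold rg
        rw [if_pos (by omega)]
        rfl

end Vale.Agent.P167.H718
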