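import Vale.Agent.P167.H718.Par3

/-!
# P167, general `q`: reflection positivity of the sum over arrows

`D₁`, `D₂` two disjoint sets of squares exchanged by a reflection which fixes the medial edges between
them. The sum over arrows of `D₁ ∪ D₂` with phases which vanish on the common edges is a scalar product.
-/

namespace Vale.Agent.P167.H718

open Finset Complex
open Vale.Agent.P167.BR

variable {D D₁ D₂ : Finset (ℤ × ℤ)} {σ τ E E' E₁ E₂ : Finset Ed} {e : Ed} {v : ℤ × ℤ} {θ : ℝ}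
  {φ φ' : Ed → ℝ}

/-- The weight of a square. -/
noncomputable def lws (θ : ℝ) (σ : Finset Ed) (v : ℤ × ℤ) : ℂ := lw θ σ v true + lw θ σ v false

theorem Wf_conj (θ : ℝ) (p₁ p₂ r₁ r₂ : Prop) :
    (starRingEnd ℂ) (Wf θ p₁ p₂ r₁ r₂) = Wf θ p₁ p₂ r₁ r₂ := by
  unfold Wf
  by_cases h1 : p₁ <;> by_cases h2 : p₂ <;> by_cases h3 : r₁ <;> by_cases h4 : r₂ <;>
    simp [h1, h2, h3, h4, ← Complex.exp_conj, Complex.conj_ofNat] <;> ring_nf

theorem lws_conj (θ : ℝ) (σ : Finset Ed) (v : ℤ × ℤ) :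
    (starRingEnd ℂ) (lws θ σ v) = lws θ σ v := by
  unfold lws
  rw [lw_add, Wf_conj]

/-- The edges of a square. -/
theorem mem_eds_sq (hv : v ∈ D) : ia v ∈ eds D ∧ ib v ∈ eds D ∧ oa v ∈ eds D ∧ ob v ∈ eds D := by
  refine ⟨?_, ?_, ?_, ?_⟩ <;> rw [mem_eds]
  · left; rw [hdv_iff.2 (Or.inl rfl)]; exact hv
  · left; rw [hdv_iff.2 (Or.inr rfl)]; exact hv
  · right; rw [tlv_iff.2 (Or.inl rfl)]; exact hv
  · right; rw [tlv_iff.2 (Or.inr rfl)]; exact hv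

theorem lws_inter (hv : v ∈ D) (σ : Finset Ed) : lws θ (σ ∩ eds D) v = lws θ σ v := by
  obtain ⟨h1, h2, h3, h4⟩ := mem_eds_sq hv
  unfold lws
  rw [lw_add, lw_add]
  simp only [mem_inter, h1, h2, h3, h4, and_true]

theorem sn_inter (he : e ∈ E) (σ : Finset Ed) : sn (σ ∩ E) e = sn σ e := by
  unfold sn
  simp only [mem_inter, he, and_true]

/-- The sum over the arrows of `D` which are given on `E'`. -/
noncomputable def Lh (θ : ℝ) (D : Finset (ℤ × ℤ)) (E' : Finset Ed) (φ : Ed → ℝ) (τ : Finset Ed) : ℂ :=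
  ∑ σ ∈ (eds D).powerset with σ ∩ E' = τ, (∏ v ∈ D, lws θ σ v) *
    cexp (I * ((∑ x ∈ eds D, sn σ x * φ x : ℝ) : ℂ))

/-- Splitting of a sum over subsets. -/
theorem sum_splitE (E₁ E₂ : Finset Ed) (F G : Finset Ed → ℂ) :
    ∑ σ ∈ (E₁ ∪ E₂).powerset, F (σ ∩ E₁) * G (σ ∩ E₂) = ∑ τ ∈ (E₁ ∩ E₂).powerset,
      (∑ σ ∈ E₁.powerset with σ ∩ E₂ = τ, F σ) * (∑ σ ∈ E₂.powerset with σ ∩ E₁ = τ, G σ) := by
  rw [← sum_fiberwise_of_maps_to (g := fun σ => σ ∩ (E₁ ∩ E₂)) (t := (E₁ ∩ E₂).powerset)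
    fun σ _ => by rw [mem_powerset]; exact inter_subset_right]
  refine sum_congr rfl fun τ hτ => ?_
  rw [mem_powerset] at hτ
  rw [sum_mul_sum, ← sum_product']
  refine sum_nbij' (fun σ => (σ ∩ E₁, σ ∩ E₂)) (fun p => p.1 ∪ p.2) ?_ ?_ ?_ ?_ ?_
  · intro σ hσ
    rw [mem_filter, mem_powerset] at hσ
    rw [mem_product, mem_filter, mem_filter, mem_powerset, mem_powerset]
    refine ⟨⟨inter_subset_right, ?_⟩, inter_subset_right, ?_⟩
    · rw [← hσ.2, inter_assoc]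
    · rw [← hσ.2, inter_assoc, inter_comm E₂ E₁]
  · rintro ⟨σ₁, σ₂⟩ hp
    rw [mem_product, mem_filter, mem_filter, mem_powerset, mem_powerset] at hp
    obtain ⟨⟨h1, h2⟩, h3, h4⟩ := hp
    simp only at h1 h2 h3 h4
    rw [mem_filter, mem_powerset]
    refine ⟨union_subset_union h1 h3, ?_⟩
    simp only
    rw [union_inter_distrib_right]
    have e1 : σ₁ ∩ (E₁ ∩ E₂) = τ := by
      rw [← inter_assoc, inter_eq_left.2 h1, h2]
    have e2 : σ₂ ∩ (E₁ ∩ E₂) = τ := by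
      rw [inter_comm E₁ E₂, ← inter_assoc, inter_eq_left.2 h3, h4]
    rw [e1, e2, union_self]
  · intro σ hσ
    rw [mem_filter, mem_powerset] at hσ
    simp only
    rw [← inter_union_distrib_left, inter_eq_left.2 hσ.1]
  · rintro ⟨σ₁, σ₂⟩ hp
    rw [mem_product, mem_filter, mem_filter, mem_powerset, mem_powerset] at hp
    obtain ⟨⟨h1, h2⟩, h3, h4⟩ := hp
    simp only at h1 h2 h3 h4 ⊢
    rw [union_inter_distrib_right, union_inter_distrib_right, inter_eq_left.2 h1,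
      inter_eq_left.2 h3, h2, h4]
    have e1 : τ ⊆ σ₁ := by rw [← h2]; exact inter_subset_left
    have e2 : τ ⊆ σ₂ := by rw [← h4]; exact inter_subset_left
    rw [union_eq_left.2 e1, union_eq_right.2 e2]
  · intro σ _
    rfl

theorem eds_union (D₁ D₂ : Finset (ℤ × ℤ)) : eds (D₁ ∪ D₂) = eds D₁ ∪ eds D₂ := by
  ext e
  rw [mem_union, mem_eds, mem_eds, mem_eds, mem_union, mem_union]
  tauto

/-- **Cutting the domain.** -/
theorem AS_split (hD : Disjoint D₁ D₂) (hφ : ∀ x ∈ eds D₁ ∩ eds D₂, φ x = 0) :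
    AS θ (D₁ ∪ D₂) φ = ∑ τ ∈ (eds D₁ ∩ eds D₂).powerset,
      Lh θ D₁ (eds D₂) φ τ * Lh θ D₂ (eds D₁) φ τ := by
  unfold Lh
  rw [← sum_splitE (eds D₁) (eds D₂) (fun σ => (∏ v ∈ D₁, lws θ σ v) *
      cexp (I * ((∑ x ∈ eds D₁, sn σ x * φ x : ℝ) : ℂ)))
    (fun σ => (∏ v ∈ D₂, lws θ σ v) * cexp (I * ((∑ x ∈ eds D₂, sn σ x * φ x : ℝ) : ℂ)))]
  unfold AS
  rw [eds_union]
  refine sum_congr rfl fun σ _ => ?_
  have h1 : ∏ v ∈ D₁ ∪ D₂, (lw θ σ v true + lw θ σ v false) =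
      (∏ v ∈ D₁, lws θ (σ ∩ eds D₁) v) * ∏ v ∈ D₂, lws θ (σ ∩ eds D₂) v := by
    rw [prod_union hD]
    congr 1
    · exact prod_congr rfl fun v hv => (lws_inter hv σ).symm
    · exact prod_congr rfl fun v hv => (lws_inter hv σ).symm
  have h2 : ∑ x ∈ eds D₁ ∪ eds D₂, sn σ x * φ x =
      ∑ x ∈ eds D₁, sn (σ ∩ eds D₁) x * φ x + ∑ x ∈ eds D₂, sn (σ ∩ eds D₂) x * φ x := by
    have h3 := sum_union_inter (s₁ := eds D₁) (s₂ := eds D₂) (f := fun x => sn σ x * φ x)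
    have h4 : ∑ x ∈ eds D₁ ∩ eds D₂, sn σ x * φ x = 0 :=
      sum_eq_zero fun x hx => by rw [hφ x hx, mul_zero]
    rw [h4, add_zero] at h3
    rw [h3]
    congr 1
    · exact sum_congr rfl fun x hx => by rw [sn_inter hx]
    · exact sum_congr rfl fun x hx => by rw [sn_inter hx]
  rw [h1, h2]
  push_cast
  rw [mul_add, Complex.exp_add]
  ring

theorem Lh_conj (θ : ℝ) (D : Finset (ℤ × ℤ)) (E' : Finset Ed) (φ : Ed → ℝ) (τ : Finset Ed) :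
    (starRingEnd ℂ) (Lh θ D E' φ τ) = Lh θ D E' (fun x => - φ x) τ := by
  unfold Lh
  rw [map_sum]
  refine sum_congr rfl fun σ _ => ?_
  rw [map_mul, map_prod, ← Complex.exp_conj, map_mul, Complex.conj_I, Complex.conj_ofReal]
  congr 1
  · exact prod_congr rfl fun v _ => lws_conj θ σ v
  · congr 1
    push_cast
    rw [neg_mul, ← mul_neg, ← sum_neg_distrib]
    congr 1
    refine sum_congr rfl fun x _ => ?_
    rw [mul_neg]

/-- A reflection of the medial edges (`ρ`) and of the squares (`r`) which exchanges `D₁` and `D₂` and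
fixes the edges between them. -/
structure Rfl (ρ : Ed → Ed) (r : ℤ × ℤ → ℤ × ℤ) (D₁ D₂ : Finset (ℤ × ℤ)) : Prop where
  ρρ : ∀ e, ρ (ρ e) = e
  rr : ∀ v, r (r v) = v
  dom : D₂ = D₁.image r
  hd : ∀ e, hdv (ρ e) = r (tlv e)
  tl : ∀ e, tlv (ρ e) = r (hdv e)
  wt : ∀ θ σ v, lws θ (σ.image ρ) (r v) = lws θ σ v
  fix : ∀ e ∈ eds D₁ ∩ eds D₂, ρ e = e

variable {ρ : Ed → Ed} {r : ℤ × ℤ → ℤ × ℤ}

theorem Rfl.inj (h : Rfl ρ r D₁ D₂) : Function.Injective ρ := fun x y hxy => by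
  rw [← h.ρρ x, hxy, h.ρρ]

theorem Rfl.rinj (h : Rfl ρ r D₁ D₂) : Function.Injective r := fun x y hxy => by
  rw [← h.rr x, hxy, h.rr]

theorem Rfl.mem_img (h : Rfl ρ r D₁ D₂) {A : Finset Ed} {e : Ed} : e ∈ A.image ρ ↔ ρ e ∈ A := by
  rw [mem_image]
  constructor
  · rintro ⟨x, hx, rfl⟩
    rwa [h.ρρ]
  · exact fun hx => ⟨_, hx, h.ρρ e⟩

theorem Rfl.mem_dom (h : Rfl ρ r D₁ D₂) {v : ℤ × ℤ} : v ∈ D₂ ↔ r v ∈ D₁ := by
  rw [h.dom, mem_image]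
  constructor
  · rintro ⟨x, hx, rfl⟩
    rwa [h.rr]
  · exact fun hx => ⟨_, hx, h.rr v⟩

theorem Rfl.eds_eq (h : Rfl ρ r D₁ D₂) : eds D₂ = (eds D₁).image ρ := by
  ext e
  rw [h.mem_img, mem_eds, mem_eds, h.mem_dom, h.mem_dom, h.hd, h.tl]
  exact or_comm

theorem Rfl.symm (h : Rfl ρ r D₁ D₂) : Rfl ρ r D₂ D₁ where
  ρρ := h.ρρ
  rr := h.rr
  dom := by
    rw [h.dom, image_image]
    ext v
    simp [h.rr]
  hd := h.hd
  tl := h.tl
  wt := h.wt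
  fix := fun e he => h.fix e (by rwa [inter_comm])

/-- The reflected half. -/
theorem Rfl.Lh_eq (h : Rfl ρ r D₁ D₂) (hτ : τ ⊆ eds D₁ ∩ eds D₂) (φ : Ed → ℝ) :
    Lh θ D₂ (eds D₁) (fun x => φ (ρ x)) τ = Lh θ D₁ (eds D₂) φ τ := by
  have hE := h.eds_eq
  have hE' := h.symm.eds_eq
  have hτ' : τ.image ρ = τ := by
    ext e
    rw [h.mem_img]
    constructor
    · intro he
      have := h.fix _ (hτ he)
      rw [h.ρρ] at this
      rwa [this]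
    · intro he
      rwa [h.fix _ (hτ he)]
  have himg : ∀ A B : Finset Ed, (A ∩ B).image ρ = A.image ρ ∩ B.image ρ := fun A B =>
    image_inter _ _ h.inj
  have hid : ∀ A : Finset Ed, (A.image ρ).image ρ = A := fun A => by
    ext e
    rw [h.mem_img, h.mem_img, h.ρρ]
  unfold Lh
  symm
  refine sum_nbij' (fun σ => σ.image ρ) (fun σ => σ.image ρ) ?_ ?_ ?_ ?_ ?_
  · intro σ hσ
    rw [mem_filter, mem_powerset] at *
    refine ⟨by rw [hE]; exact image_subset_image hσ.1, ?_⟩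
    rw [hE', ← himg, hσ.2, hτ']
  · intro σ hσ
    rw [mem_filter, mem_powerset] at *
    refine ⟨by rw [hE']; exact image_subset_image hσ.1, ?_⟩
    rw [hE, ← himg, hσ.2, hτ']
  · intro σ _
    exact hid σ
  · intro σ _
    exact hid σ
  · intro σ _
    congr 1
    · rw [h.dom, prod_image fun x _ y _ hxy => h.rinj hxy]
      exact prod_congr rfl fun v _ => (h.wt θ σ v).symm
    · rw [hE, sum_image fun x _ y _ hxy => h.inj hxy]
      congr 3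
      refine sum_congr rfl fun x _ => ?_
      simp only [h.ρρ]
      congr 1
      unfold sn
      simp only [h.mem_img, h.ρρ]

/-- The phases of the first half and their mirror image. -/
noncomputable def dbl (ρ : Ed → Ed) (E₁ : Finset Ed) (φ : Ed → ℝ) (x : Ed) : ℝ :=
  if x ∈ E₁ then φ x else - φ (ρ x)

theorem Lh_congr (h : ∀ x ∈ eds D, φ x = φ' x) : Lh θ D E' φ τ = Lh θ D E' φ' τ := by
  unfold Lh
  refine sum_congr rfl fun σ _ => ?_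
  rw [sum_congr rfl fun x hx => by rw [h x hx]]

/-- The square of the norm. -/
theorem Rfl.AS_dbl (h : Rfl ρ r D₁ D₂) (hD : Disjoint D₁ D₂)
    (hφ : ∀ x ∈ eds D₁ ∩ eds D₂, φ x = 0) : AS θ (D₁ ∪ D₂) (dbl ρ (eds D₁) φ) =
      ((∑ τ ∈ (eds D₁ ∩ eds D₂).powerset, ‖Lh θ D₁ (eds D₂) φ τ‖ ^ 2 : ℝ) : ℂ) := by
  have h0 : ∀ x ∈ eds D₁ ∩ eds D₂, dbl ρ (eds D₁) φ x = 0 := fun x hx => by
    unfold dbl
    rw [if_pos (mem_inter.1 hx).1, hφ x hx]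
  rw [AS_split hD h0]
  push_cast
  refine sum_congr rfl fun τ hτ => ?_
  rw [mem_powerset] at hτ
  have h1 : Lh θ D₁ (eds D₂) (dbl ρ (eds D₁) φ) τ = Lh θ D₁ (eds D₂) φ τ :=
    Lh_congr fun x hx => by unfold dbl; rw [if_pos hx]
  have h2 : Lh θ D₂ (eds D₁) (dbl ρ (eds D₁) φ) τ = Lh θ D₁ (eds D₂) (fun x => - φ x) τ := by
    rw [← h.Lh_eq hτ]
    refine Lh_congr fun x hx => ?_
    unfold dbl
    split_ifs with hx1
    · rw [h.fix x (mem_inter.2 ⟨hx1, hx⟩), hφ x (mem_inter.2 ⟨hx1, hx⟩), neg_zero]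
    · rfl
  rw [h1, h2, ← Lh_conj, Complex.mul_conj, Complex.normSq_eq_norm_sq]
  push_cast
  rfl

/-- **Reflection positivity.** -/
theorem Rfl.rp (h : Rfl ρ r D₁ D₂) (hD : Disjoint D₁ D₂)
    (hφ : ∀ x ∈ eds D₁ ∩ eds D₂, φ x = 0) :
    ‖AS θ (D₁ ∪ D₂) φ‖ ^ 2 ≤ (AS θ (D₁ ∪ D₂) (dbl ρ (eds D₁) φ)).re *
      (AS θ (D₁ ∪ D₂) (dbl ρ (eds D₂) φ)).re := by
  have e2 : AS θ (D₁ ∪ D₂) (dbl ρ (eds D₂) φ) =
      ((∑ τ ∈ (eds D₁ ∩ eds D₂).powerset, ‖Lh θ D₂ (eds D₁) φ τ‖ ^ 2 : ℝ) : ℂ) := by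
    rw [union_comm D₁ D₂, h.symm.AS_dbl hD.symm fun x hx => hφ x (by rwa [inter_comm]),
      inter_comm (eds D₂) (eds D₁)]
  rw [h.AS_dbl hD hφ, e2, Complex.ofReal_re, Complex.ofReal_re, AS_split hD hφ]
  calc ‖∑ τ ∈ (eds D₁ ∩ eds D₂).powerset, Lh θ D₁ (eds D₂) φ τ * Lh θ D₂ (eds D₁) φ τ‖ ^ 2
      ≤ (∑ τ ∈ (eds D₁ ∩ eds D₂).powerset,
          ‖Lh θ D₁ (eds D₂) φ τ‖ * ‖Lh θ D₂ (eds D₁) φ τ‖) ^ 2 := by
        refine pow_le_pow_left₀ (norm_nonneg _) ((norm_sum_le _ _).trans ?_) 2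
        exact sum_le_sum fun τ _ => (norm_mul _ _).le
    _ ≤ _ := sum_mul_sq_le_sq_mul_sq _ _ _

end Vale.Agent.P167.H718
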