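import Vale.Agent.P167.H718.Rect
import Vale.Agent.P167.QX.Stag

/-!
# P167, general `q`: the reflection of the rectangle

The reflection in the line `y = c` of the sites. It exchanges the two halves of the rectangle of height
`2 c`.
-/

namespace Vale.Agent.P167.H718

open Finset Complex
open Vale.Agent.P167.BR
open Vale.Agent.P167.E6 (IsPolygon Encloses dir face)

variable {n c s k j : ℕ} {θ : ℝ} {φ φ' : Ed → ℝ} {D : Finset (ℤ × ℤ)}

/-- The reflection of the squares. -/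
def rr (c : ℕ) (v : ℤ × ℤ) : ℤ × ℤ := (v.1, 2 * (c : ℤ) - 1 - v.2)

/-- The reflection of the medial edges. -/
def rE (c : ℕ) : Ed → Ed
  | Sum.inl v => Sum.inl (v.1, 2 * (c : ℤ) - 1 - v.2)
  | Sum.inr v => Sum.inr (v.1, 2 * (c : ℤ) - 2 - v.2)

/-- The lower half. -/
noncomputable def Dlo (n c : ℕ) : Finset (ℤ × ℤ) := Finset.Ico 0 (n : ℤ) ×ˢ Finset.Ico 0 (c : ℤ)

/-- The upper half. -/
noncomputable def Dup (n c : ℕ) : Finset (ℤ × ℤ) :=
  Finset.Ico 0 (n : ℤ) ×ˢ Finset.Ico (c : ℤ) (2 * c)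

theorem mem_Dlo {v : ℤ × ℤ} : v ∈ Dlo n c ↔ 0 ≤ v.1 ∧ v.1 < n ∧ 0 ≤ v.2 ∧ v.2 < c := by
  unfold Dlo
  rw [mem_product, mem_Ico, mem_Ico]
  tauto

theorem mem_Dup {v : ℤ × ℤ} : v ∈ Dup n c ↔ 0 ≤ v.1 ∧ v.1 < n ∧ c ≤ v.2 ∧ v.2 < 2 * c := by
  unfold Dup
  rw [mem_product, mem_Ico, mem_Ico]
  tauto

theorem Dlo_union : Dlo n c ∪ Dup n c = Rt n (2 * c) := by
  ext v
  rw [mem_union, mem_Dlo, mem_Dup, mem_Rt]
  push_cast
  omega

theorem Dlo_disj : Disjoint (Dlo n c) (Dup n c) := by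
  rw [Finset.disjoint_left]
  intro v
  rw [mem_Dlo, mem_Dup]
  omega

theorem rr_edges (c : ℕ) (v : ℤ × ℤ) : ia (rr c v) = rE c (oa v) ∧ ib (rr c v) = rE c (ob v) ∧
    oa (rr c v) = rE c (ia v) ∧ ob (rr c v) = rE c (ib v) := by
  obtain ⟨x, y⟩ := v
  unfold ia ib oa ob rr
  by_cases h : Even (x + y)
  · have h1 : ¬ Even (x + (2 * (c : ℤ) - 1 - y)) := by rw [Int.even_iff] at *; omega
    simp only [h, h1, if_true, if_false, rE, Sum.inl.injEq, Sum.inr.injEq, Prod.mk.injEq, true_and,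
      and_true]
    omega
  · have h1 : Even (x + (2 * (c : ℤ) - 1 - y)) := by rw [Int.even_iff] at *; omega
    simp only [h, h1, if_true, if_false, rE, Sum.inl.injEq, Sum.inr.injEq, Prod.mk.injEq, true_and,
      and_true]
    omega

theorem Wf_swap (θ : ℝ) (p₁ p₂ r₁ r₂ : Prop) : Wf θ r₁ r₂ p₁ p₂ = Wf θ p₁ p₂ r₁ r₂ := by
  unfold Wf
  by_cases h1 : p₁ <;> by_cases h2 : p₂ <;> by_cases h3 : r₁ <;> by_cases h4 : r₂ <;>
    simp [h1, h2, h3, h4]

theorem rE_rE (c : ℕ) (e : Ed) : rE c (rE c e) = e := by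
  rcases e with ⟨x, y⟩ | ⟨x, y⟩
  · simp only [rE, Sum.inl.injEq, Prod.mk.injEq, true_and]; omega
  · simp only [rE, Sum.inr.injEq, Prod.mk.injEq, true_and]; omega

theorem hdv_rE (c : ℕ) (e : Ed) : hdv (rE c e) = rr c (tlv e) := by
  obtain ⟨h1, h2, -, -⟩ := rr_edges c (tlv e)
  rw [hdv_iff, h1, h2]
  rcases tlv_iff.1 (rfl : tlv e = tlv e) with h | h
  · left; rw [← h]
  · right; rw [← h]

theorem tlv_rE (c : ℕ) (e : Ed) : tlv (rE c e) = rr c (hdv e) := by
  obtain ⟨-, -, h1, h2⟩ := rr_edges c (hdv e)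
  rw [tlv_iff, h1, h2]
  rcases hdv_iff.1 (rfl : hdv e = hdv e) with h | h
  · left; rw [← h]
  · right; rw [← h]

theorem mem_image_rE {σ : Finset Ed} {e : Ed} : rE c e ∈ σ.image (rE c) ↔ e ∈ σ := by
  rw [mem_image]
  constructor
  · rintro ⟨x, hx, h⟩
    have := congrArg (rE c) h
    rw [rE_rE, rE_rE] at this
    rwa [← this]
  · exact fun h => ⟨e, h, rfl⟩

/-- **The reflection of the rectangle.** -/
theorem rfl_rect (n c : ℕ) : Rfl (rE c) (rr c) (Dlo n c) (Dup n c) where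
  ρρ := rE_rE c
  rr := fun v => by
    unfold H718.rr
    ext <;> simp
  dom := by
    ext v
    rw [mem_Dup, mem_image]
    constructor
    · intro h
      refine ⟨rr c v, ?_, ?_⟩
      · rw [mem_Dlo]
        simp only [H718.rr]
        omega
      · unfold H718.rr
        ext <;> simp
    · rintro ⟨w, hw, rfl⟩
      rw [mem_Dlo] at hw
      simp only [H718.rr]
      omega
  hd := hdv_rE c
  tl := tlv_rE c
  wt := fun θ σ v => by
    obtain ⟨h1, h2, h3, h4⟩ := rr_edges c v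
    unfold lws
    rw [lw_add, lw_add, h1, h2, h3, h4, mem_image_rE, mem_image_rE, mem_image_rE, mem_image_rE]
    exact Wf_swap _ _ _ _ _
  fix := fun e he => by
    rw [mem_inter, mem_eds, mem_eds, mem_Dlo, mem_Dlo, mem_Dup, mem_Dup] at he
    rcases e with ⟨x, y⟩ | ⟨x, y⟩
    · exfalso
      simp only [hdv, tlv] at he
      split_ifs at he <;> simp only at he <;> omega
    · simp only [rE, Sum.inr.injEq, Prod.mk.injEq, true_and]
      simp only [hdv, tlv] at he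
      split_ifs at he <;> simp only at he <;> omega

theorem AS_congr (h : ∀ x ∈ eds D, φ x = φ' x) : AS θ D φ = AS θ D φ' := by
  unfold AS
  refine sum_congr rfl fun σ _ => ?_
  rw [sum_congr rfl fun x hx => by rw [h x hx]]

end Vale.Agent.P167.H718
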