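import Vale.Agent.P167.H718.DobN
import Vale.Agent.P167.QX.Stag

/-!
# P167, general `q`: the constants of the Dobrushin weights

`LD` and `NC` differ by a constant; here the constant is bounded, for several outside configurations.
-/

namespace Vale.Agent.P167.H718

open Finset Relation Vale.Agent.P167.BR Vale.Agent.P167.FK
open Vale.Agent.P145.FB (PStep)
open Vale.Agent.P167.E6 (IsPolygon Encloses dir face)
open Vale.Agent.P167.QX (exists_xy)

variable {D : Finset (ℤ × ℤ)} {n k : ℕ} {q : ZMod n → ℤ × ℤ} {ω η : Cfg} {A B ℓ : Finset Ed} {e : Ed}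

/-! ### pieces and loops -/

theorem mem_loop_eqv (hℓ : IsLoop ω ℓ) {e e' : Ed} (h : Relation.EqvGen (Nxt ω D) e e') :
    e ∈ ℓ ↔ e' ∈ ℓ := by
  induction h with
  | rel a b hab =>
    obtain ⟨_, rfl⟩ := hab
    exact hℓ.nx_mem_iff.symm
  | refl a => exact Iff.rfl
  | symm a b _ ih => exact ih.symm
  | trans a b c _ _ ih1 ih2 => exact ih1.trans ih2

theorem piece_sub_loop (hℓ : IsLoop ω ℓ) (hA : A ∈ pcs ω D) (he : e ∈ A) (h : e ∈ ℓ) : A ⊆ ℓ := by
  intro x hx
  obtain rfl := eq_piece_of_mem hA he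
  exact (mem_loop_eqv hℓ (mem_piece.1 hx).2).1 h

/-- The loop of a piece. -/
theorem exists_lp (hω : Good ω) : ∃ F : Finset Ed → Finset Ed, ∀ A ∈ pcs ω D, IsLoop ω (F A) ∧ A ⊆ F A := by
  classical
  choose L hL using hω
  refine ⟨fun A => if h : A.Nonempty then L h.choose else ∅, fun A hA => ?_⟩
  have h := pcs_nonempty hA
  simp only [dif_pos h]
  exact ⟨(hL _).1, piece_sub_loop (hL _).1 hA h.choose_spec (hL _).2⟩

theorem LD_fin (D : Finset (ℤ × ℤ)) (ω : Cfg) : {ℓ | IsLoop ω ℓ ∧ ∃ v ∈ vs ℓ, v ∈ D}.Finite :=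
  H45.LV_fin s_two D ω

/-- If at most one piece is not closed. -/
theorem LD_le_NC (hω : Good ω) (h : ∀ A ∈ pcs ω D, ∀ B ∈ pcs ω D, ¬ IsCl D q k A → ¬ IsCl D q k B → A = B) :
    LD D ω ≤ NC ω D q k + 1 := by
  classical
  obtain ⟨F, hF⟩ := exists_lp (D := D) hω
  have h1 : LD D ω ≤ (pcs ω D).card := by
    unfold LD
    rw [← Set.ncard_coe_finset (pcs ω D)]
    refine (Set.ncard_le_ncard (t := F '' ((pcs ω D : Finset (Finset Ed)) : Set (Finset Ed))) ?_
      ((pcs ω D).finite_toSet.image F)).trans (Set.ncard_image_le (pcs ω D).finite_toSet)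
    rintro ℓ ⟨h1, v, hv, hvD⟩
    unfold vs at hv
    obtain ⟨e, he, rfl⟩ := mem_image.1 hv
    have h2 : e ∈ eds D := mem_eds.2 (Or.inl hvD)
    have h3 := piece_mem_pcs (ω := ω) h2
    exact ⟨piece ω D e, mem_coe.2 h3,
      (hF _ h3).1.eq_of_mem h1 ((hF _ h3).2 (self_mem_piece h2)) he⟩
  have h2 : (pcs ω D).card = NC ω D q k + ((pcs ω D).filter fun A => ¬ IsCl D q k A).card := by
    unfold NC
    rw [card_filter_add_card_filter_not]
  have h3 : ((pcs ω D).filter fun A => ¬ IsCl D q k A).card ≤ 1 := by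
    rw [card_le_one]
    intro A hA B hB
    rw [mem_filter] at hA hB
    exact h A hA.1 B hB.1 hA.2 hB.2
  omega

/-- If the closed pieces are in different loops. -/
theorem NC_le_LD (hω : Good ω) (h : ∀ A ∈ pcs ω D, ∀ B ∈ pcs ω D, ∀ ℓ, IsLoop ω ℓ → A ⊆ ℓ → B ⊆ ℓ →
    IsCl D q k A → IsCl D q k B → A = B) : NC ω D q k ≤ LD D ω := by
  classical
  obtain ⟨F, hF⟩ := exists_lp (D := D) hω
  unfold NC LD
  rw [← Set.ncard_coe_finset]
  refine Set.ncard_le_ncard_of_injOn F ?_ ?_ (LD_fin D ω)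
  · intro A hA
    rw [mem_coe, mem_filter] at hA
    obtain ⟨h1, h2⟩ := hF A hA.1
    refine ⟨h1, ?_⟩
    obtain ⟨e, he⟩ := pcs_nonempty hA.1
    rcases mem_eds.1 (subset_eds hA.1 he) with h3 | h3
    · exact ⟨hdv e, mem_image_of_mem _ (h2 he), h3⟩
    · obtain ⟨e', he', h4⟩ : ∃ e' ∈ F A, hdv e' = tlv e := by
        refine ⟨pv ω e, h1.pv_mem_iff.2 (h2 he), ?_⟩
        have := tlv_nx ω (pv ω e)
        rw [nx_pv] at this
        exact this.symm
      exact ⟨tlv e, mem_image.2 ⟨e', he', h4⟩, h3⟩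
  · intro A hA B hB hAB
    rw [mem_coe, mem_filter] at hA hB
    exact h A hA.1 B hB.1 (F A) (hF A hA.1).1 (hF A hA.1).2 (hAB ▸ (hF B hB.1).2) hA.2 hB.2

/-! ### all squares of `D` closed or all open -/

theorem ls_const (h0 : ∀ v ∈ D, ω v = false) (hA : A ∈ pcs ω D) {x y : Ed} (hx : x ∈ A)
    (hy : y ∈ A) : ls x = ls y := by
  obtain rfl := eq_piece_of_mem hA hx
  have h := (mem_piece.1 hy).2
  clear hx hy hA
  induction h with
  | rel a b hab =>
    obtain ⟨h1, rfl⟩ := hab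
    exact (ls_nx (h0 _ h1)).symm
  | refl a => rfl
  | symm a b _ ih => exact ih.symm
  | trans a b c _ _ ih1 ih2 => exact ih1.trans ih2

theorem rs_const (h0 : ∀ v ∈ D, ω v = true) (hA : A ∈ pcs ω D) {x y : Ed} (hx : x ∈ A)
    (hy : y ∈ A) : rs x = rs y := by
  obtain rfl := eq_piece_of_mem hA hx
  have h := (mem_piece.1 hy).2
  clear hx hy hA
  induction h with
  | rel a b hab =>
    obtain ⟨h1, rfl⟩ := hab
    exact (rs_nx (h0 _ h1)).symm
  | refl a => rfl
  | symm a b _ ih => exact ih.symm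
  | trans a b c _ _ ih1 ih2 => exact ih1.trans ih2

section

variable (hq : IsPolygon q) (hD : Encloses q D)
include hq hD

/-- Indices of consecutive sites. -/
theorem idx_succ {x y : ℕ} (hx : x < n) (hy : y < n) (h : q (x : ZMod n) = q ((y : ZMod n) + 1)) :
    x = y + 1 ∨ x = 0 ∧ y + 1 = n := by
  have h1 := hq.2.1 h
  have h2 : ((x : ℕ) : ZMod n) = ((y + 1 : ℕ) : ZMod n) := by rw [h1]; push_cast; rfl
  rw [ZMod.natCast_eq_natCast_iff'] at h2
  rw [Nat.mod_eq_of_lt hx] at h2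
  rcases Nat.lt_or_ge (y + 1) n with h3 | h3
  · left
    rw [Nat.mod_eq_of_lt h3] at h2
    exact h2
  · right
    have h4 : y + 1 = n := by omega
    rw [h4, Nat.mod_self] at h2
    exact ⟨h2, h4⟩

/-- All squares of `D` closed: a strand turns around one primal site. -/
theorem strand_closed (h0 : ∀ v ∈ D, ω v = false) (hA : A ∈ pcs ω D) {x y : ℕ} (h : IsXY q A x y) :
    x = y + 1 ∨ x = 0 ∧ y + 1 = n := by
  obtain ⟨h1, h2, h3, h4, h5, h6⟩ := h
  have h7 := ls_const h0 hA h3 h4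
  rw [(be_even hq hD h5).1, (be_odd hq hD h6).2.1] at h7
  exact idx_succ hq hD h1 h2 h7

/-- All squares of `D` open: a strand turns around one dual site. -/
theorem strand_open (h0 : ∀ v ∈ D, ω v = true) (hA : A ∈ pcs ω D) {x y : ℕ} (h : IsXY q A x y) :
    y = x + 1 ∨ y = 0 ∧ x + 1 = n := by
  obtain ⟨h1, h2, h3, h4, h5, h6⟩ := h
  have h7 := rs_const h0 hA h4 h3
  rw [(be_even hq hD h5).2.1, (be_odd hq hD h6).1] at h7
  exact idx_succ hq hD h2 h1 h7

theorem isCl_of_eq {x : ℕ} (hA : A ∈ pcs ω D) (hB : B ∈ pcs ω D) (h1 : be q (x : ZMod n) ∈ A)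
    (h2 : be q (x : ZMod n) ∈ B) : A = B := eq_of_mem_pcs hA hB h1 h2

/-- **(a)** Free boundary conditions. -/
theorem LD_le_free (hη : Dob η D q n) (S : Finset (ℤ × ℤ)) :
    LD D (cf D η S) ≤ NC (cf D η S) D q n + 1 := by
  have h1 := LD_eq hq hD le_rfl hη S
  have h0 : ∀ v ∈ D, cf D η ∅ v = false := fun v hv => by simp [cf, hv]
  have h2 : LD D (cf D η ∅) ≤ NC (cf D η ∅) D q n + 1 := by
    refine LD_le_NC (good_cf D hη.good ∅) fun A hA B hB hA' hB' => ?_
    have key : ∀ A ∈ pcs (cf D η ∅) D, ¬ IsCl D q n A → be q ((0 : ℕ) : ZMod n) ∈ A := by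
      intro A hA hA'
      have hl : ¬ IsLp D A := fun h => hA' (Or.inl h)
      obtain ⟨x, y, h⟩ := exists_xy hq hD hA hl
      have h3 := strand_closed hq hD h0 hA h
      rw [isCl_strand hq hD hA hl h] at hA'
      have h4 := h.1
      have h5 := h.2.1
      unfold Cl at hA'
      have h6 : x = 0 := by omega
      rw [← h6]
      exact h.2.2.1
    exact eq_of_mem_pcs hA hB (key A hA hA') (key B hB hB')
  omega

/-- **(b)** Wired boundary conditions. -/
theorem LD_le_wired (hη : Dob η D q 0) (S : Finset (ℤ × ℤ)) :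
    LD D (cf D η S) ≤ NC (cf D η S) D q 0 + 1 := by
  have h1 := LD_eq hq hD (Nat.zero_le _) hη S
  have h1' := LD_eq hq hD (Nat.zero_le _) hη D
  have h0 : ∀ v ∈ D, cf D η D v = true := fun v hv => by simp [cf, hv]
  have h2 : LD D (cf D η D) ≤ NC (cf D η D) D q 0 + 1 := by
    refine LD_le_NC (good_cf D hη.good D) fun A hA B hB hA' hB' => ?_
    have key : ∀ A ∈ pcs (cf D η D) D, ¬ IsCl D q 0 A → be q ((0 : ℕ) : ZMod n) ∈ A := by
      intro A hA hA'
      have hl : ¬ IsLp D A := fun h => hA' (Or.inl h)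
      obtain ⟨x, y, h⟩ := exists_xy hq hD hA hl
      have h3 := strand_open hq hD h0 hA h
      rw [isCl_strand hq hD hA hl h] at hA'
      have h4 := h.1
      have h5 := h.2.1
      unfold Cl at hA'
      have h6 : y = 0 := by omega
      rw [← h6]
      exact h.2.2.2.1
    exact eq_of_mem_pcs hA hB (key A hA hA') (key B hB hB')
  omega

/-- **(c)** Dobrushin boundary conditions: the squares around the free primal boundary sites are
closed. -/
theorem NC_le_dob (hk : k ≤ n) (hk0 : 0 < k) (hη : Dob η D q k)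
    (h : ∀ x : ℕ, 0 < x → x < k → Even ((q (x : ZMod n)).1 + (q (x : ZMod n)).2) →
      ∀ e : Ed, ls e = q (x : ZMod n) → hdv e ∉ D → η (hdv e) = false) (S : Finset (ℤ × ℤ)) :
    NC (cf D η S) D q k ≤ LD D (cf D η S) := by
  have h1 := LD_eq hq hD hk hη S
  have h0 : ∀ v ∈ D, cf D η ∅ v = false := fun v hv => by simp [cf, hv]
  have h2 : NC (cf D η ∅) D q k ≤ LD D (cf D η ∅) := by
    refine NC_le_LD (good_cf D hη.good ∅) fun A hA B hB ℓ hℓ hAℓ hBℓ hA' hB' => ?_
    -- the loop of a closed piece turns around one site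
    have key : ∀ A ∈ pcs (cf D η ∅) D, A ⊆ ℓ → IsCl D q k A → IsLp D A ∨
        ∃ x y : ℕ, IsXY q A x y ∧ 0 < x ∧ x < k ∧ ∀ e ∈ ℓ, ls e = q (x : ZMod n) := by
      intro A hA hAℓ hA'
      by_cases hl : IsLp D A
      · exact Or.inl hl
      · right
        obtain ⟨x, y, h3⟩ := exists_xy hq hD hA hl
        have h4 := strand_closed hq hD h0 hA h3
        rw [isCl_strand hq hD hA hl h3] at hA'
        have h5 := h3.1
        have h6 := h3.2.1
        unfold Cl at hA'
        refine ⟨x, y, h3, by omega, by omega, fun e he => ?_⟩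
        refine hℓ.induct (p := fun e => ls e = q (x : ZMod n)) (fun e he h7 => ?_)
          (hAℓ h3.2.2.1) he (be_even hq hD h3.2.2.2.2.1).1
        rw [ls_nx, h7]
        by_cases h8 : hdv e ∈ D
        · exact h0 _ h8
        · have h9 := h x (by omega) (by omega) h3.2.2.2.2.1 e h7 h8
          simp [cf, h8, h9]
    have hlp : ∀ A ∈ pcs (cf D η ∅) D, ∀ B ∈ pcs (cf D η ∅) D, A ⊆ ℓ → B ⊆ ℓ → IsLp D A → A = B := by
      intro A hA B hB hAℓ hBℓ hl
      obtain ⟨e, he⟩ := pcs_nonempty hA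
      have h3 : A = ℓ := (hl.isLoop hA).eq_of_mem hℓ he (hAℓ he)
      obtain ⟨e', he'⟩ := pcs_nonempty hB
      exact eq_of_mem_pcs hA hB (by rw [h3]; exact hBℓ he') he'
    rcases key A hA hAℓ hA' with h3 | ⟨x, y, h3, h4, h5, h6⟩
    · exact hlp A hA B hB hAℓ hBℓ h3
    · rcases key B hB hBℓ hB' with h7 | ⟨x', y', h7, h8, h9, h10⟩
      · exact (hlp B hB A hA hBℓ hAℓ h7).symm
      · have h11 : q (x : ZMod n) = q (x' : ZMod n) := by
          obtain ⟨e, he⟩ := pcs_nonempty hA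
          rw [← h6 e (hAℓ he), ← h10 e (hAℓ he)]
        have h12 := hq.2.1 h11
        have h13 := h3.2.2.1
        rw [h12] at h13
        exact eq_of_mem_pcs hA hB h13 h7.2.2.1
  omega

end

end Vale.Agent.P167.H718
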