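import Vale.Agent.P167.H718.Rp2
import Vale.Agent.P167.H718.Rp3
import Vale.Agent.P167.H452.SDefs

/-!
# P167, general `q`: Dobrushin structure of the strip

The outside configurations of `H452.et` and the ring give Dobrushin boundary conditions of the rectangle
`Rt n H`.
-/

namespace Vale.Agent.P167.H718

open Finset Relation Vale.Agent.P167.BR Vale.Agent.P167.FK
open Vale.Agent.P145.FB (PStep)
open Vale.Agent.P167.E6 (IsPolygon Encloses dir face)
open Vale.Agent.P167.H452 (et St)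

variable {D : Finset (ℤ × ℤ)} {N k : ℕ} {q : ZMod N → ℤ × ℤ} {ω ω' η : Cfg} {n H s : ℕ}

/-! ### Dobrushin structures -/

theorem OutC.mono {η η' : Cfg} (h : ∀ v ∉ D, η v = true → η' v = true) {s t : ℤ × ℤ}
    (hs : OutC η D s t) : OutC η' D s t := by
  unfold OutC at *
  induction hs with
  | refl => exact ReflTransGen.refl
  | tail _ h1 ih =>
    refine ih.tail ?_
    obtain ⟨h1, h2, h3, h4⟩ := h1
    exact ⟨h1, h2, h _ h4 h3, h4⟩

theorem OutC.symm' {s t : ℤ × ℤ} (h : OutC η D s t) : OutC η D t s := by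
  unfold OutC at h ⊢
  induction h with
  | refl => exact ReflTransGen.refl
  | tail _ h1 ih => exact ReflTransGen.head h1.symm ih

section

variable (hq : IsPolygon q) (hD : Encloses q D)
include hq hD

/-- The wired boundary sites are joined. -/
theorem join_etaW (i j : ℕ) (hi : k ≤ i) (hin : i ≤ N) (hj : k ≤ j) (hjn : j ≤ N)
    (hei : Even ((q i).1 + (q i).2)) (hej : Even ((q j).1 + (q j).2)) :
    OutC (etaW D q k) D (q i) (q j) := by
  have key : ∀ i m : ℕ, Even ((q i).1 + (q i).2) →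
      (Even ((q ((i + m : ℕ) : ZMod N)).1 + (q ((i + m : ℕ) : ZMod N)).2) ↔ Even m) := by
    intro i m hi
    induction m with
    | zero => simpa using hi
    | succ m ih =>
      have e : ((i + (m + 1) : ℕ) : ZMod N) = ((i + m : ℕ) : ZMod N) + 1 := by
        push_cast
        ring
      rw [e, par_succ hq, ih, Nat.even_add_one]
  have hfw : ∀ m i : ℕ, k ≤ i → i + 2 * m ≤ N → Even ((q i).1 + (q i).2) →
      OutC (etaW D q k) D (q i) (q ((i + 2 * m : ℕ) : ZMod N)) := by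
    intro m
    induction m with
    | zero => intro i _ _ _; exact ReflTransGen.refl
    | succ m ih =>
      intro i h1 h2 h3
      have h4 := ih i h1 (by omega) h3
      have hpar' : ¬ Even ((q ((i + 2 * m + 1 : ℕ) : ZMod N)).1 +
          (q ((i + 2 * m + 1 : ℕ) : ZMod N)).2) := by
        rw [add_assoc, key i _ h3]
        rw [Nat.not_even_iff_odd]
        exact ⟨m, rfl⟩
      have h5 := join_step (k := k) hq hD (j := i + 2 * m + 1) (by omega) (by omega) hpar'
      have e1 : (((i + 2 * m + 1 : ℕ) : ZMod N) - 1) = ((i + 2 * m : ℕ) : ZMod N) := by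
        push_cast
        ring
      have e2 : (((i + 2 * m + 1 : ℕ) : ZMod N) + 1) = ((i + 2 * (m + 1) : ℕ) : ZMod N) := by
        push_cast
        ring
      rw [e1, e2] at h5
      exact h4.trans h5
  have hle : ∀ i j : ℕ, k ≤ i → i ≤ j → j ≤ N → Even ((q i).1 + (q i).2) →
      Even ((q j).1 + (q j).2) → OutC (etaW D q k) D (q i) (q j) := by
    intro i j h1 h2 h3 h4 h5
    obtain ⟨m, rfl⟩ := Nat.exists_eq_add_of_le h2
    obtain ⟨m', hm'⟩ := (key i m h4).1 h5
    have h6 := hfw m' i h1 (by omega) h4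
    rw [hm', ← two_mul]
    exact h6
  rcases le_total i j with h | h
  · exact hle i j hi h hjn hei hej
  · exact (hle j i hj h hin hej hei).symm'

/-- **Dobrushin structure.** -/
theorem dob_of (hη : Good η) (h1 : ∀ v ∉ D, etaW D q k v = true → η v = true)
    (h2 : ∀ s ∈ sites D, Even (s.1 + s.2) → ∀ v ∉ D, η v = true →
      (s.1 = v.1 ∨ s.1 = v.1 + 1) → (s.2 = v.2 ∨ s.2 = v.2 + 1) →
      ∃ i : ℕ, k ≤ i ∧ i ≤ N ∧ q i = s) : Dob η D q k := by
  refine ⟨hη, fun i j hi hin hj hjn hei hej =>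
    (join_etaW hq hD i j hi hin hj hjn hei hej).mono h1, ?_⟩
  intro s hs t ht hev hst hne
  have hevt : Even (t.1 + t.2) := by
    clear hne ht hs
    induction hst with
    | refl => exact hev
    | tail _ h1 ih => exact even_step h1 ih
  have e1 : ∃ x, PStep (op η ∩ (↑D : Set (ℤ × ℤ))ᶜ) s x := by
    rcases ReflTransGen.cases_head hst with h | ⟨x, hx, -⟩
    · exact absurd h hne
    · exact ⟨x, hx⟩
  have e2 : ∃ x, PStep (op η ∩ (↑D : Set (ℤ × ℤ))ᶜ) t x := by
    rcases ReflTransGen.cases_tail hst with h | ⟨x, -, hx⟩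
    · exact absurd h.symm hne
    · exact ⟨x, hx.symm⟩
  obtain ⟨x, hx1, hx2, hx3, hx4⟩ := e1
  obtain ⟨y, hy1, hy2, hy3, hy4⟩ := e2
  obtain ⟨i, hi1, hi2, hi3⟩ := h2 s hs hev _ hx4 hx3 (by simp only; omega) (by simp only; omega)
  obtain ⟨j, hj1, hj2, hj3⟩ := h2 t ht hevt _ hy4 hy3 (by simp only; omega) (by simp only; omega)
  exact ⟨i, j, hi1, hi2, hj1, hj2, hi3, hj3⟩

end

/-! ### changes outside of `D` -/

theorem ncard_le_two (ω : Cfg) (a : ℤ × ℤ) : Set.ncard {ℓ | IsLoop ω ℓ ∧ a ∈ vs ℓ} ≤ 2 := by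
  classical
  by_cases h1 : ∃ ℓ, IsLoop ω ℓ ∧ FK.ia a ∈ ℓ
  · by_cases h2 : ∃ ℓ, IsLoop ω ℓ ∧ FK.ib a ∈ ℓ
    · obtain ⟨ℓ, hℓ, hℓa⟩ := h1
      obtain ⟨ℓ', hℓ', hℓ'a⟩ := h2
      by_cases hne : ℓ = ℓ'
      · subst hne
        rw [FK.ncard_one hℓ hℓa hℓ'a]
        omega
      · rw [FK.ncard_two hℓ hℓ' hℓa hℓ'a hne]
    · obtain ⟨ℓ, hℓ, hℓa⟩ := h1
      refine (Set.ncard_le_ncard (t := {ℓ}) ?_ (Set.finite_singleton _)).trans (by simp)
      rintro ℓ'' ⟨h3, h4⟩
      rcases FK.mem_vs_iff.1 h4 with h5 | h5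
      · exact h3.eq_of_mem hℓ h5 hℓa
      · exact absurd ⟨ℓ'', h3, h5⟩ h2
  · by_cases h2 : ∃ ℓ, IsLoop ω ℓ ∧ FK.ib a ∈ ℓ
    · obtain ⟨ℓ, hℓ, hℓa⟩ := h2
      refine (Set.ncard_le_ncard (t := {ℓ}) ?_ (Set.finite_singleton _)).trans (by simp)
      rintro ℓ'' ⟨h3, h4⟩
      rcases FK.mem_vs_iff.1 h4 with h5 | h5
      · exact absurd ⟨ℓ'', h3, h5⟩ h1
      · exact h3.eq_of_mem hℓ h5 hℓa
    · refine (Set.ncard_le_ncard (t := ∅) ?_ Set.finite_empty).trans (by simp)
      rintro ℓ'' ⟨h3, h4⟩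
      rcases FK.mem_vs_iff.1 h4 with h5 | h5
      · exact absurd ⟨ℓ'', h3, h5⟩ h1
      · exact absurd ⟨ℓ'', h3, h5⟩ h2

/-- One square. -/
theorem LD_update_le (D : Finset (ℤ × ℤ)) (ω : Cfg) (a : ℤ × ℤ) (b : Bool) :
    LD D ω ≤ LD D (Function.update ω a b) + 2 := by
  unfold LD
  have hf := LD_fin D ω
  have hf' := LD_fin D (Function.update ω a b)
  have h1 : {ℓ | IsLoop ω ℓ ∧ ∃ v ∈ vs ℓ, v ∈ D} ⊆
      {ℓ | IsLoop (Function.update ω a b) ℓ ∧ ∃ v ∈ vs ℓ, v ∈ D} ∪ {ℓ | IsLoop ω ℓ ∧ a ∈ vs ℓ} := by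
    rintro ℓ ⟨h1, h2⟩
    by_cases h : a ∈ vs ℓ
    · exact Or.inr ⟨h1, h⟩
    · left
      have h3 : ℓ ∈ {ℓ | IsLoop (Function.update ω a b) ℓ ∧ a ∉ vs ℓ ∧ ∃ v ∈ vs ℓ, v ∈ D} := by
        rw [FK.common_eq]
        exact ⟨h1, h, h2⟩
      exact ⟨h3.1, h3.2.2⟩
  have hfa : {ℓ | IsLoop ω ℓ ∧ a ∈ vs ℓ}.Finite := (LD_fin {a} ω).subset fun ℓ h =>
    ⟨h.1, a, h.2, mem_singleton_self a⟩
  calc _ ≤ _ := Set.ncard_le_ncard h1 (hf'.union hfa)
    _ ≤ _ := Set.ncard_union_le _ _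
    _ ≤ _ := Nat.add_le_add_left (ncard_le_two ω a) _

/-- Finitely many squares. -/
theorem LD_change_le (D L : Finset (ℤ × ℤ)) : ∀ ω ω' : Cfg, (∀ v ∉ L, ω v = ω' v) →
    LD D ω ≤ LD D ω' + 2 * L.card := by
  classical
  induction L using Finset.induction_on with
  | empty =>
    intro ω ω' h
    have : ω = ω' := funext fun v => h v (Finset.notMem_empty v)
    rw [this]
    simp
  | insert a L ha ih =>
    intro ω ω' h
    have h1 := LD_update_le D ω a (ω' a)
    have h2 := ih (Function.update ω a (ω' a)) ω' fun v hv => by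
      by_cases hva : v = a
      · subst hva
        rw [Function.update_self]
      · rw [Function.update_of_ne hva]
        exact h v (by rw [mem_insert]; tauto)
    rw [card_insert_of_notMem ha]
    omega

/-! ### the strip -/

theorem St_eq (n H : ℕ) : St n H = Rt n H := rfl

theorem good_fin (F : Finset (ℤ × ℤ)) (h : ∀ v, η v = decide (v ∈ F)) : Good η := by
  have h1 : η = cf F eta0 F := by
    funext v
    rw [h]
    unfold cf
    by_cases hv : v ∈ F
    · simp [hv]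
    · simp [hv, eta0]
  rw [h1]
  exact good_cf _ good_eta0 _

/-- The ring around the rectangle. -/
def rg1 (n H : ℕ) : Cfg := fun v =>
  decide ((-1 ≤ v.1 ∧ v.1 ≤ n ∧ -1 ≤ v.2 ∧ v.2 ≤ H) ∧ ¬ (0 ≤ v.1 ∧ v.1 < n ∧ 0 ≤ v.2 ∧ v.2 < H))

theorem good_et (n H : ℕ) (a b : Bool) : Good (et n H a b) := by
  refine good_fin ((Finset.Icc (-1 : ℤ) n ×ˢ Finset.Icc (-1 : ℤ) H).filter
    fun v => et n H a b v = true) fun v => ?_
  by_cases h : et n H a b v = true
  · rw [h]
    symm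
    rw [decide_eq_true_iff, mem_filter, mem_product, mem_Icc, mem_Icc]
    refine ⟨?_, h⟩
    unfold et at h
    split_ifs at h <;> first | omega | simp at h
  · symm
    rw [Bool.not_eq_true] at h
    rw [h, decide_eq_false_iff_not, mem_filter]
    simp [h]

theorem good_rg1 (n H : ℕ) : Good (rg1 n H) := by
  refine good_fin ((Finset.Icc (-1 : ℤ) n ×ˢ Finset.Icc (-1 : ℤ) H).filter
    fun v => ¬ (0 ≤ v.1 ∧ v.1 < n ∧ 0 ≤ v.2 ∧ v.2 < H)) fun v => ?_
  unfold rg1
  congr 1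
  rw [mem_filter, mem_product, mem_Icc, mem_Icc]
  apply propext
  tauto

theorem face_cases (s : ℤ × ℤ) (r : Fin 4) : face s r = s ∨ face s r = (s.1 - 1, s.2) ∨
    face s r = (s.1 - 1, s.2 - 1) ∨ face s r = (s.1, s.2 - 1) := by
  obtain ⟨a, b⟩ := s
  have f0 : face (a, b) 0 = (a + 0, b + 0) := rfl
  have f1 : face (a, b) 1 = (a + -1, b + 0) := rfl
  have f2 : face (a, b) 2 = (a + -1, b + -1) := rfl
  have f3 : face (a, b) 3 = (a + 0, b + -1) := rfl
  have hr : r = 0 ∨ r = 1 ∨ r = 2 ∨ r = 3 := by fin_cases r <;> simp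
  rcases hr with rfl | rfl | rfl | rfl
  · left; rw [f0]; simp
  · right; left; rw [f1]; simp only [Prod.mk.injEq]; omega
  · right; right; left; rw [f2]; simp only [Prod.mk.injEq]; omega
  · right; right; right; rw [f3]; simp only [Prod.mk.injEq]; omega

theorem mem_etaW {v : ℤ × ℤ} (h : etaW D q k v = true) : ∃ j : ℕ, k < j ∧ j < N ∧ v ∉ D ∧
    (v = q j ∨ v = ((q j).1 - 1, (q j).2) ∨ v = ((q j).1 - 1, (q j).2 - 1) ∨
      v = ((q j).1, (q j).2 - 1)) := by
  unfold etaW at h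
  rw [decide_eq_true_iff, mem_opW] at h
  obtain ⟨⟨j, h1, h2, -, r, h4⟩, h5⟩ := h
  refine ⟨j, h1, h2, h5, ?_⟩
  rw [h4]
  exact face_cases _ r

/-- The index of the vertex after one period. -/
theorem RP_N (j : ℕ) : RP n H (2 * n + 2 * H + j) = RP n H j := by
  rw [add_comm, RP_per]

/-- Free. -/
theorem dob_cc (hn : 1 ≤ n) (hH : 1 ≤ H) (s : ℕ) :
    Dob (et n H false false) (Rt n H) (rq n H s) (2 * n + 2 * H) := by
  refine dob_of (rq_poly hn hH s) (rq_encl hn hH s) (good_et n H _ _) ?_ ?_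
  · intro v _ h
    obtain ⟨j, h1, h2, -⟩ := mem_etaW h
    omega
  · intro s _ _ v _ h
    exfalso
    unfold et at h
    split_ifs at h <;> simp at h

/-- Wired. -/
theorem dob_rg (hn : 1 ≤ n) (hH : 1 ≤ H) : Dob (rg1 n H) (Rt n H) (rq n H 0) 0 := by
  have hne : NeZero (2 * n + 2 * H) := ⟨by omega⟩
  refine dob_of (rq_poly hn hH 0) (rq_encl hn hH 0) (good_rg1 n H) ?_ ?_
  · intro v hv h
    obtain ⟨j, h1, h2, h3, h4⟩ := mem_etaW h
    rw [rq_nat, add_zero, RP_lt h2] at h4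
    rw [mem_Rt] at h3
    unfold rg1
    rw [decide_eq_true_iff]
    refine ⟨?_, h3⟩
    unfold rf at h4
    split_ifs at h4 <;> rcases h4 with h4 | h4 | h4 | h4 <;> rw [h4] <;> simp only <;> omega
  · intro t ht _ v hv _ h1 h2
    have hr : ∃ r, face t r = v := by
      obtain ⟨a, b⟩ := t
      obtain ⟨c, d⟩ := v
      simp only at h1 h2
      have f0 : face (a, b) 0 = (a + 0, b + 0) := rfl
      have f1 : face (a, b) 1 = (a + -1, b + 0) := rfl
      have f2 : face (a, b) 2 = (a + -1, b + -1) := rfl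
      have f3 : face (a, b) 3 = (a + 0, b + -1) := rfl
      rcases h1 with h1 | h1 <;> rcases h2 with h2 | h2
      · exact ⟨0, by rw [f0]; simp only [Prod.mk.injEq]; omega⟩
      · exact ⟨3, by rw [f3]; simp only [Prod.mk.injEq]; omega⟩
      · exact ⟨1, by rw [f1]; simp only [Prod.mk.injEq]; omega⟩
      · exact ⟨2, by rw [f2]; simp only [Prod.mk.injEq]; omega⟩
    obtain ⟨r, hr⟩ := hr
    obtain ⟨i, hi⟩ := exists_bd (rq_poly hn hH 0) (rq_encl hn hH 0) ht (r := r) (by rw [hr]; exact hv)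
    exact ⟨i.val, Nat.zero_le _, (ZMod.val_lt i).le, by rw [ZMod.natCast_zmod_val]; exact hi⟩

/-- Free below, wired above. -/
theorem dob_co (hn : 1 ≤ n) (hH : 1 ≤ H) :
    Dob (et n H false true) (Rt n H) (rq n H 0) (2 * H + n) := by
  refine dob_of (rq_poly hn hH 0) (rq_encl hn hH 0) (good_et n H _ _) ?_ ?_
  · intro v hv h
    obtain ⟨j, h1, h2, h3, h4⟩ := mem_etaW h
    rw [rq_nat, add_zero, RP_lt h2] at h4
    rw [mem_Rt] at h3
    unfold rf at h4
    rw [if_neg (by omega), if_neg (by omega), if_neg (by omega)] at h4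
    unfold et
    rcases h4 with rfl | rfl | rfl | rfl <;> simp only at h3 ⊢
    · rw [if_pos (by omega), if_neg (by omega), if_pos trivial]
    · rw [if_pos (by omega), if_neg (by omega), if_pos trivial]
    · omega
    · omega
  · intro t ht _ v hv h1 h2 h3
    have hv' : 0 ≤ v.1 ∧ v.1 < n ∧ v.2 = H := by
      unfold et at h1
      split_ifs at h1 <;> first | omega | simp at h1
    obtain ⟨w, hw, hw1, hw2⟩ := mem_sites.1 ht
    rw [mem_Rt] at hw
    refine ⟨2 * H + 2 * n - t.1.toNat, by omega, by omega, ?_⟩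
    rw [rq_nat, add_zero]
    rcases Nat.eq_zero_or_pos t.1.toNat with h4 | h4
    · rw [h4, show 2 * H + 2 * n - 0 = 2 * n + 2 * H + 0 by omega, RP_N, RP_lt (by omega)]
      unfold rf
      rw [if_pos (by omega)]
      ext <;> simp only <;> omega
    · rw [RP_lt (by omega)]
      unfold rf
      rw [if_neg (by omega), if_neg (by omega)]
      split_ifs <;> ext <;> simp only <;> omega

/-- Wired below, free above. -/
theorem dob_oc (hn : 1 ≤ n) (hH : 1 ≤ H) :
    Dob (et n H true false) (Rt n H) (rq n H (H + n)) (2 * H + n) := by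
  refine dob_of (rq_poly hn hH _) (rq_encl hn hH _) (good_et n H _ _) ?_ ?_
  · intro v hv h
    obtain ⟨j, h1, h2, h3, h4⟩ := mem_etaW h
    rw [rq_nat, show j + (H + n) = 2 * n + 2 * H + (j - (H + n)) by omega, RP_N,
      RP_lt (by omega)] at h4
    rw [mem_Rt] at h3
    unfold rf at h4
    rw [if_neg (by omega), if_pos (by omega)] at h4
    unfold et
    rcases h4 with rfl | rfl | rfl | rfl <;> simp only at h3 ⊢
    · omega
    · omega
    · rw [if_pos (by omega), if_pos (by omega)]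
    · rw [if_pos (by omega), if_pos (by omega)]
  · intro t ht _ v hv h1 h2 h3
    have hv' : 0 ≤ v.1 ∧ v.1 < n ∧ v.2 = -1 := by
      unfold et at h1
      split_ifs at h1 <;> first | omega | simp at h1
    obtain ⟨w, hw, hw1, hw2⟩ := mem_sites.1 ht
    rw [mem_Rt] at hw
    refine ⟨2 * H + n + t.1.toNat, by omega, by omega, ?_⟩
    rw [rq_nat, show 2 * H + n + t.1.toNat + (H + n) = 2 * n + 2 * H + (H + t.1.toNat) by omega,
      RP_N, RP_lt (by omega)]
    unfold rf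
    rw [if_neg (by omega)]
    split_ifs <;> ext <;> simp only <;> omega

end Vale.Agent.P167.H718
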