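import Vale.Agent.P167.H718.Rp4

/-!
# P167, general `q`, block Q-SRSW: reflection positivity of the strip

`s_rp`: helper452's statement `S_RP θ` for `0 < θ ≤ π / 3`.
-/

namespace Vale.Agent.P167.H718

open Finset Vale.Agent.P167.BR Vale.Agent.P167.FK
open Vale.Agent.P167.E6 (IsPolygon Encloses dir face)
open Vale.Agent.P167.H871 (Bd)
open Vale.Agent.P167.Top (vec)
open Vale.Agent.P167.XDL (bS mem_bS)
open Vale.Agent.P167.QX (wQ XQ ZQ lo hi lo_xy hi_xy stag wB XB XQ_stag XB_zero exists_xy wQ_strand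
  gauge_two)
open Vale.Agent.P167.H452 (et St Zs nT S_RP)

variable {D : Finset (ℤ × ℤ)} {N k : ℕ} {q : ZMod N → ℤ × ℤ} {ω η : Cfg} {θ β : ℝ} {A : Finset Ed}
  {n c s : ℕ} {u : ℕ → ℤ} {ψ : ℕ → ℝ} {φ : Ed → ℝ}

/-! ### general polygons -/

theorem mass_zero' (D : Finset (ℤ × ℤ)) (p : ℤ × ℤ) (A : Finset Ed) : mass D p 0 A = 0 := by
  unfold mass
  simp

/-- The normalised weights for the phase `β = - θ / 2`. -/
theorem wB_half (hs : 0 < Real.sin θ) (hc : 0 < Real.cos θ) :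
    wB θ (-(θ / 2)) q D k A 0 =
      open Classical in if ¬ IsLp D A ∧ lo q A < k ∧ k ≤ hi q A then (Real.sin θ)⁻¹ else 1 := by
  classical
  have hs2 : Real.sin (2 * θ) ≠ 0 := by
    rw [Real.sin_two_mul]
    positivity
  unfold wB
  by_cases hl : IsLp D A
  · rw [if_pos hl, if_neg (by tauto), add_zero, div_self hc.ne']
  · rw [if_neg hl]
    by_cases h2 : lo q A < k ∧ k ≤ hi q A
    · rw [if_pos h2, if_pos ⟨hl, h2⟩]
      have : θ / 2 + -(θ / 2) + 0 = 0 := by ring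
      rw [this, Real.cos_zero, one_div]
    · have h3 : ¬ (¬ IsLp D A ∧ lo q A < k ∧ k ≤ hi q A) := fun h => h2 h.2
      rw [if_neg h2, if_neg h3]
      split_ifs
      · rw [add_zero, div_self hs2]
      · rw [sub_zero, div_self hs.ne']

/-- The pieces which meet a set of sides. -/
theorem card_meet_le (L : Finset ℕ) (ω : Cfg) (D : Finset (ℤ × ℤ)) (q : ZMod N → ℤ × ℤ)
    [DecidablePred fun A : Finset Ed => ∃ j ∈ L, be q (j : ZMod N) ∈ A] :
    ((pcs ω D).filter fun A => ∃ j ∈ L, be q (j : ZMod N) ∈ A).card ≤ L.card := by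
  classical
  refine (card_le_card (t := L.image fun j : ℕ => piece ω D (be q (j : ZMod N))) ?_).trans
    card_image_le
  intro A hA
  rw [mem_filter] at hA
  obtain ⟨hA, j, hj, h⟩ := hA
  exact mem_image.2 ⟨j, hj, (eq_piece_of_mem hA h).symm⟩

theorem XQ_abs_le (hq : IsPolygon q) (hD : Encloses q D) (hs : 0 < Real.sin θ)
    (hc : 1 ≤ 2 * Real.cos θ) {L : Finset ℕ} {a : ℝ}
    (hψ : ∀ j < N, j ∉ L → ψ j = a + stag θ (-(θ / 2)) q k j) (ω : Cfg) :
    |XQ θ q D ψ 0 ω| ≤ (Real.sin θ)⁻¹ ^ L.card * XQ θ q D (stag θ (-(θ / 2)) q k) 0 ω := by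
  classical
  have hc0 : 0 < Real.cos θ := by linarith
  have hs1 : 1 ≤ (Real.sin θ)⁻¹ := (one_le_inv₀ hs).2 (Real.sin_le_one θ)
  set g : Finset Ed → ℝ := fun A => if ∃ j ∈ L, be q (j : ZMod N) ∈ A then (Real.sin θ)⁻¹ else 1 with hg
  have hg1 : ∀ A, 1 ≤ g A := fun A => by
    simp only [hg]
    split_ifs
    · exact hs1
    · exact le_rfl
  have h0 : ∀ A ∈ pcs ω D, ¬ IsLp D A →
      2 * Real.sin θ ≤ wQ θ q D (stag θ (-(θ / 2)) q k) A 0 := by
    intro A hA hl
    rw [wQ_strand hq hD hA hl hs.ne' hc0.ne', wB_half hs hc0]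
    have e1 : (1 : ℝ) ≤ if IsCl D q k A then 2 * Real.cos θ else 1 := by
      split_ifs
      · exact hc
      · exact le_rfl
    have e2 : (1 : ℝ) ≤ if ¬ IsLp D A ∧ lo q A < k ∧ k ≤ hi q A then (Real.sin θ)⁻¹ else 1 := by
      split_ifs
      · exact hs1
      · exact le_rfl
    have e3 : 0 < 2 * Real.sin θ := by linarith
    calc 2 * Real.sin θ = 2 * Real.sin θ * 1 * 1 := by ring
      _ ≤ _ := mul_le_mul (mul_le_mul_of_nonneg_left e1 e3.le) e2 (by norm_num)
        (mul_nonneg e3.le (by linarith))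
  have h1 : ∀ A ∈ pcs ω D, |wQ θ q D ψ A 0| ≤ g A * wQ θ q D (stag θ (-(θ / 2)) q k) A 0 := by
    intro A hA
    by_cases hl : IsLp D A
    · have e1 : ∀ ψ : ℕ → ℝ, wQ θ q D ψ A 0 = 2 * Real.cos θ := fun ψ => by
        unfold wQ
        rw [if_pos hl, add_zero]
      rw [e1, e1, abs_of_nonneg (by linarith)]
      have := mul_le_mul_of_nonneg_right (hg1 A) (show 0 ≤ 2 * Real.cos θ by linarith)
      linarith
    · obtain ⟨x, y, h⟩ := exists_xy hq hD hA hl
      have hlo := lo_xy hq hD hA h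
      have hhi := hi_xy hq hD hA h
      have h2 := h0 A hA hl
      have h3 : 0 < 2 * Real.sin θ := by linarith
      by_cases hL : ∃ j ∈ L, be q (j : ZMod N) ∈ A
      · have e1 : g A = (Real.sin θ)⁻¹ := by simp only [hg]; rw [if_pos hL]
        have e2 : |wQ θ q D ψ A 0| ≤ 2 := by
          unfold wQ
          rw [if_neg hl, abs_mul, abs_two]
          have := Real.abs_cos_le_one (θ / 2 + ψ (hi q A) - ψ (lo q A) + 0)
          linarith
        rw [e1]
        calc |wQ θ q D ψ A 0| ≤ 2 := e2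
          _ = (Real.sin θ)⁻¹ * (2 * Real.sin θ) := by field_simp
          _ ≤ _ := mul_le_mul_of_nonneg_left h2 (by positivity)
      · have e1 : g A = 1 := by simp only [hg]; rw [if_neg hL]
        have hx : x ∉ L := fun hx => hL ⟨x, hx, h.2.2.1⟩
        have hy : y ∉ L := fun hy => hL ⟨y, hy, h.2.2.2.1⟩
        have e2 : wQ θ q D ψ A 0 = wQ θ q D (stag θ (-(θ / 2)) q k) A 0 := by
          unfold wQ
          rw [if_neg hl, if_neg hl, hlo, hhi]
          congr 2
          have f1 := hψ x h.1 hx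
          have f2 := hψ y h.2.1 hy
          rcases le_total x y with h4 | h4
          · rw [max_eq_right h4, min_eq_left h4, f1, f2]
            ring
          · rw [max_eq_left h4, min_eq_right h4, f1, f2]
            ring
        rw [e1, one_mul, e2, abs_of_nonneg (by linarith)]
  have hm : ∀ A, mass D (q 0) 0 A = 0 := fun A => mass_zero' D _ A
  unfold XQ
  simp only [hm]
  rw [abs_prod]
  refine (prod_le_prod (fun A _ => abs_nonneg _) h1).trans ?_
  rw [prod_mul_distrib]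
  refine mul_le_mul_of_nonneg_right ?_ (prod_nonneg fun A hA => ?_)
  · have e1 : ∏ A ∈ pcs ω D, g A =
        (Real.sin θ)⁻¹ ^ ((pcs ω D).filter fun A => ∃ j ∈ L, be q (j : ZMod N) ∈ A).card := by
      rw [prod_ite, prod_const, prod_const_one, mul_one]
    rw [e1]
    exact pow_le_pow_right₀ hs1 (card_meet_le L ω D q)
  · by_cases hl : IsLp D A
    · unfold wQ
      rw [if_pos hl, add_zero]
      linarith
    · have := h0 A hA hl
      linarith

/-- The arrows with given boundary phases. -/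
theorem AS_eq_ZQ (hq : IsPolygon q) (hD : Encloses q D)
    (hu : Bd (D : Set (ℤ × ℤ)) N (fun k => q (k : ZMod N)) u 1)
    (hφ : ∀ e ∈ eds D, e ∉ bS D → φ e = 0) {P : ℕ → ℝ}
    (hP : ∀ j < N, φ (be q (j : ZMod N)) = if hdv (be q (j : ZMod N)) ∈ D then P j else - P j) :
    AS θ D φ = ((ZQ θ q D (fun k => P k - θ / 4 * u k) 0 : ℝ) : ℂ) := by
  have hN : NeZero N := ⟨by have := hq.1; omega⟩
  have hg : Flw D (q 0) 0 0 := fun A w _ _ => by simp
  rw [ZQ_arrows hq hD hu hg]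
  refine AS_congr fun e he => ?_
  by_cases hb : e ∈ bS D
  · obtain ⟨i, rfl⟩ : ∃ i : ZMod N, e = be q i := by
      rw [mem_bS] at hb
      exact exists_be hq hD he (by tauto)
    have h1 := hP i.val (ZMod.val_lt i)
    have h2 := phi_be (D := D) hq (ZMod.val_lt i)
      (fun k => θ / 4 * (u k : ℝ) + (P k - θ / 4 * (u k : ℝ))) 0
    rw [ZMod.natCast_zmod_val] at h1 h2
    rw [h1, h2]
    simp
  · rw [hφ e he hb, phi_off hq hD _ _ hb]
    rfl

/-! ### the rectangle -/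

/-- Edges of the bottom. -/
def bot (n : ℕ) (e : Ed) : Prop := ∃ x : ℤ, 0 ≤ x ∧ x < n ∧ e = Sum.inr (x, -1)

/-- Edges of the top. -/
def top (n H : ℕ) (e : Ed) : Prop := ∃ x : ℤ, 0 ≤ x ∧ x < n ∧ e = Sum.inr (x, (H : ℤ) - 1)

theorem be_of (hq : IsPolygon q) {i : ZMod N} {r : Fin 4} (h : q (i + 1) = q i + dir r) :
    be q i = ce (q i) r := by
  unfold be
  rw [← E2.ro_unique hq h]

theorem be_rq {H : ℕ} (hn : 1 ≤ n) (hH : 1 ≤ H) {j m : ℕ} {i : ℕ} (hi : i < 2 * n + 2 * H)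
    (hj : j + s = (2 * n + 2 * H) * m + i) {r : Fin 4} (hr : vec (rg n H i) = dir r) :
    be (rq n H s) (j : ZMod (2 * n + 2 * H)) = ce (rf n H i) r := by
  have h1 : rq n H s (j : ZMod (2 * n + 2 * H)) = rf n H i := by
    rw [rq_nat, hj, RP_eq hi]
  rw [be_of (rq_poly hn hH s) (r := r), h1]
  have h2 : ((j : ℕ) : ZMod (2 * n + 2 * H)) + 1 = ((j + 1 : ℕ) : ZMod (2 * n + 2 * H)) := by
    push_cast; rfl
  rw [h2, rq_nat, rq_nat, show j + 1 + s = j + s + 1 by ring, (RP_step hn hH _).1, hj, RU_eq hi,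
    Top.vec_congr (show (rg n H i + 4 * (m : ℤ)) % 4 = rg n H i % 4 by omega), hr]

theorem be_bot {H : ℕ} (hn : 1 ≤ n) (hH : 1 ≤ H) {j m : ℕ} {i : ℕ}
    (hj : j + s = (2 * n + 2 * H) * m + i) (h1 : H ≤ i) (h2 : i < H + n) :
    bot n (be (rq n H s) (j : ZMod (2 * n + 2 * H))) := by
  refine ⟨(i : ℤ) - H, by omega, by omega, ?_⟩
  rw [be_rq hn hH (by omega) hj (r := 0) (by
    unfold rg
    rw [if_neg (by omega), if_pos (by omega)]
    rfl), ce0]
  unfold rf
  rw [if_neg (by omega), if_pos (by omega)]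
  simp

theorem be_top {H : ℕ} (hn : 1 ≤ n) (hH : 1 ≤ H) {j m : ℕ} {i : ℕ}
    (hj : j + s = (2 * n + 2 * H) * m + i) (h1 : 2 * H + n ≤ i) (h2 : i < 2 * n + 2 * H) :
    top n H (be (rq n H s) (j : ZMod (2 * n + 2 * H))) := by
  refine ⟨2 * (H : ℤ) + 2 * n - i - 1, by omega, by omega, ?_⟩
  rw [be_rq hn hH (by omega) hj (r := 2) (by
    unfold rg
    rw [if_neg (by omega), if_neg (by omega), if_neg (by omega)]
    rfl), ce2]
  unfold rf
  rw [if_neg (by omega), if_neg (by omega), if_neg (by omega)]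

/-- The sides of the rectangle which are neither below nor above. -/
def Lat (n H : ℕ) : Finset ℕ := Finset.range H ∪ Finset.Ico (H + n) (2 * H + n)

theorem card_Lat (n H : ℕ) : (Lat n H).card ≤ 2 * H := by
  unfold Lat
  refine (card_union_le _ _).trans ?_
  rw [card_range, Nat.card_Ico]
  omega

/-- The data of a polygon of the rectangle with a free and a wired flat side. -/
structure Fl (n H s : ℕ) (u₀ : ℤ) (p₁ p₂ : Ed → Prop) : Prop where
  b₁ : ∀ j : ℕ, H ≤ j → j < H + n → p₁ (be (rq n H s) (j : ZMod (2 * n + 2 * H)))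
  b₂ : ∀ j : ℕ, 2 * H + n ≤ j → j < 2 * n + 2 * H → p₂ (be (rq n H s) (j : ZMod (2 * n + 2 * H)))
  u₁ : ∀ j : ℕ, H ≤ j → j < H + n → RU n H (j + s) = u₀
  u₂ : ∀ j : ℕ, 2 * H + n ≤ j → j < 2 * n + 2 * H → RU n H (j + s) = u₀ + 2

theorem fl_zero {H : ℕ} (hn : 1 ≤ n) (hH : 1 ≤ H) : Fl n H 0 0 (bot n) (top n H) where
  b₁ := fun j h1 h2 => be_bot hn hH (m := 0) (i := j) (by ring) h1 h2
  b₂ := fun j h1 h2 => be_top hn hH (m := 0) (i := j) (by ring) h1 h2
  u₁ := fun j h1 h2 => by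
    rw [add_zero, RU_lt (by omega)]
    unfold rg
    rw [if_neg (by omega), if_pos (by omega)]
  u₂ := fun j h1 h2 => by
    rw [add_zero, RU_lt (by omega)]
    unfold rg
    rw [if_neg (by omega), if_neg (by omega), if_neg (by omega)]
    rfl

theorem fl_one {H : ℕ} (hn : 1 ≤ n) (hH : 1 ≤ H) : Fl n H (H + n) 2 (top n H) (bot n) where
  b₁ := fun j h1 h2 => be_top hn hH (m := 0) (i := j + (H + n)) (by ring) (by omega) (by omega)
  b₂ := fun j h1 h2 => be_bot hn hH (m := 1) (i := j - (H + n)) (by omega) (by omega) (by omega)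
  u₁ := fun j h1 h2 => by
    rw [RU_lt (by omega)]
    unfold rg
    rw [if_neg (by omega), if_neg (by omega), if_neg (by omega)]
  u₂ := fun j h1 h2 => by
    rw [show j + (H + n) = (2 * n + 2 * H) * 1 + (j - (H + n)) by omega, RU_eq (by omega)]
    unfold rg
    rw [if_neg (by omega), if_pos (by omega)]
    rfl

/-- The staggered phase. -/
noncomputable def kp (θ : ℝ) : ℝ := (3 * θ - Real.pi) / 4

theorem even_iff_hdv (hq : IsPolygon q) (hD : Encloses q D) (i : ZMod N) :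
    Even ((q i).1 + (q i).2) ↔ hdv (be q i) ∈ D := by
  constructor
  · exact fun h => (be_even hq hD h).2.2.1
  · intro h
    by_contra h'
    exact (be_odd hq hD h').2.2.2 h

/-- **Upper bound of the functional.** -/
theorem AS_le {H : ℕ} {u₀ : ℤ} {p₁ p₂ : Ed → Prop} (hn : 1 ≤ n) (hH : 1 ≤ H)
    (hF : Fl n H s u₀ p₁ p₂) (hs : 0 < Real.sin θ) (hc : 1 ≤ 2 * Real.cos θ)
    (hφ : ∀ e ∈ eds (Rt n H), e ∉ bS (Rt n H) → φ e = 0) {a : ℝ}
    (h1 : ∀ e, p₁ e → φ e = (if hdv e ∈ Rt n H then a else -a) + kp θ)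
    (h2 : ∀ e, p₂ e → φ e = (if hdv e ∈ Rt n H then a else -a) - kp θ) :
    (AS θ (Rt n H) φ).re ≤ (Real.sin θ)⁻¹ ^ (2 * H) *
      ZQ θ (rq n H s) (Rt n H) (stag θ (-(θ / 2)) (rq n H s) (2 * H + n)) 0 := by
  classical
  have hq := rq_poly hn hH s
  have hD := rq_encl hn hH s
  have hs1 : 1 ≤ (Real.sin θ)⁻¹ := (one_le_inv₀ hs).2 (Real.sin_le_one θ)
  set P : ℕ → ℝ := fun j => if hdv (be (rq n H s) (j : ZMod (2 * n + 2 * H))) ∈ Rt n H then
    φ (be (rq n H s) (j : ZMod (2 * n + 2 * H))) else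
    - φ (be (rq n H s) (j : ZMod (2 * n + 2 * H))) with hP
  have hP' : ∀ j < 2 * n + 2 * H, φ (be (rq n H s) (j : ZMod (2 * n + 2 * H))) =
      if hdv (be (rq n H s) (j : ZMod (2 * n + 2 * H))) ∈ Rt n H then P j else - P j := by
    intro j _
    simp only [hP]
    split_ifs
    · rfl
    · ring
  rw [AS_eq_ZQ hq hD (rq_bd hn hH s) hφ hP', Complex.ofReal_re]
  have hψ : ∀ j < 2 * n + 2 * H, j ∉ Lat n H → P j - θ / 4 * (RU n H (j + s) : ℝ) =
      (a - θ / 4 * u₀) + stag θ (-(θ / 2)) (rq n H s) (2 * H + n) j := by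
    intro j hj hL
    unfold Lat at hL
    rw [mem_union, mem_range, mem_Ico] at hL
    have hev := even_iff_hdv hq hD (j : ZMod (2 * n + 2 * H))
    by_cases hjk : j < 2 * H + n
    · have hj1 : H ≤ j := by omega
      have hj2 : j < H + n := by omega
      have e1 := h1 _ (hF.b₁ j hj1 hj2)
      rw [hF.u₁ j hj1 hj2]
      simp only [hP]
      unfold stag kp at *
      rw [if_pos hjk]
      by_cases h3 : hdv (be (rq n H s) (j : ZMod (2 * n + 2 * H))) ∈ Rt n H
      · rw [if_pos h3, if_pos (hev.2 h3), e1, if_pos h3]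
        ring
      · rw [if_neg h3, if_neg fun h => h3 (hev.1 h), e1, if_neg h3]
        ring
    · have hj1 : 2 * H + n ≤ j := by omega
      have e1 := h2 _ (hF.b₂ j hj1 hj)
      rw [hF.u₂ j hj1 hj]
      simp only [hP]
      unfold stag kp at *
      rw [if_neg hjk]
      by_cases h3 : hdv (be (rq n H s) (j : ZMod (2 * n + 2 * H))) ∈ Rt n H
      · rw [if_pos h3, if_pos (hev.2 h3), e1, if_pos h3]
        push_cast
        ring
      · rw [if_neg h3, if_neg fun h => h3 (hev.1 h), e1, if_neg h3]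
        push_cast
        ring
  unfold ZQ
  rw [mul_sum]
  refine sum_le_sum fun S _ => ?_
  have h3 := XQ_abs_le hq hD hs hc hψ (cf (Rt n H) eta0 S)
  refine (le_abs_self _).trans (h3.trans ?_)
  refine mul_le_mul_of_nonneg_right (pow_le_pow_right₀ hs1 (card_Lat n H)) ?_
  have h4 : 0 ≤ |XQ θ (rq n H s) (Rt n H) (fun k => P k - θ / 4 * (RU n H (k + s) : ℝ)) 0
    (cf (Rt n H) eta0 S)| := abs_nonneg _
  by_contra hneg
  push Not at hneg
  have h5 : (Real.sin θ)⁻¹ ^ (Lat n H).card * XQ θ (rq n H s) (Rt n H)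
      (stag θ (-(θ / 2)) (rq n H s) (2 * H + n)) 0 (cf (Rt n H) eta0 S) < 0 :=
    mul_neg_of_pos_of_neg (by positivity) hneg
  linarith

end Vale.Agent.P167.H718
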