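import Vale.Agent.P167.H718.Rp5

/-!
# P167, general `q`, block Q-SRSW: reflection positivity of the strip, assembly

`s_rp`: helper452's statement `S_RP θ` for `0 < θ ≤ π / 3`.
-/

namespace Vale.Agent.P167.H718

open Finset Vale.Agent.P167.BR Vale.Agent.P167.FK
open Vale.Agent.P167.E6 (IsPolygon Encloses dir face)
open Vale.Agent.P167.H871 (Bd)
open Vale.Agent.P167.XDL (bS mem_bS)
open Vale.Agent.P167.QX (wQ XQ ZQ lo hi lo_xy hi_xy stag wB XB XQ_stag XB_zero exists_xy wQ_strand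
  gauge_two)
open Vale.Agent.P167.H452 (et St Zs nT S_RP)

variable {D : Finset (ℤ × ℤ)} {N k : ℕ} {q : ZMod N → ℤ × ℤ} {ω η : Cfg} {θ β : ℝ} {A : Finset Ed}
  {n c s : ℕ} {u : ℕ → ℤ} {ψ : ℕ → ℝ} {φ : Ed → ℝ}

/-! ### the functional with a free and a wired side -/

/-- The number of the strands from the free to the wired part. -/
theorem card_thr_le {H : ℕ} {u₀ : ℤ} {p₁ p₂ : Ed → Prop} (hn : 1 ≤ n) (hH : 1 ≤ H)
    (hF : Fl n H s u₀ p₁ p₂) (hp : p₁ = bot n ∧ p₂ = top n H ∨ p₁ = top n H ∧ p₂ = bot n) (ω : Cfg)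
    [DecidablePred fun A : Finset Ed => ¬ IsLp (Rt n H) A ∧ lo (rq n H s) A < 2 * H + n ∧
      2 * H + n ≤ hi (rq n H s) A] :
    ((pcs ω (Rt n H)).filter fun A => ¬ IsLp (Rt n H) A ∧ lo (rq n H s) A < 2 * H + n ∧
      2 * H + n ≤ hi (rq n H s) A).card ≤ nT n H ω + 2 * H := by
  classical
  have hq := rq_poly hn hH s
  have hD := rq_encl hn hH s
  have h1 : (pcs ω (Rt n H)).filter (fun A => ¬ IsLp (Rt n H) A ∧ lo (rq n H s) A < 2 * H + n ∧
      2 * H + n ≤ hi (rq n H s) A) ⊆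
      ((pcs ω (St n H)).filter fun A => (∃ x : ℤ, 0 ≤ x ∧ x < n ∧ Sum.inr (x, -1) ∈ A) ∧
        ∃ x : ℤ, 0 ≤ x ∧ x < n ∧ Sum.inr (x, (H : ℤ) - 1) ∈ A) ∪
      ((pcs ω (Rt n H)).filter fun A => ∃ j ∈ Lat n H, be (rq n H s) (j : ZMod (2 * n + 2 * H)) ∈ A) := by
    intro A hA
    rw [mem_filter] at hA
    obtain ⟨hA, hl, h2, h3⟩ := hA
    obtain ⟨x, y, h⟩ := exists_xy hq hD hA hl
    rw [lo_xy hq hD hA h] at h2
    rw [hi_xy hq hD hA h] at h3
    have h4 : be (rq n H s) ((min x y : ℕ) : ZMod (2 * n + 2 * H)) ∈ A := by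
      rcases le_total x y with h5 | h5
      · rw [min_eq_left h5]; exact h.2.2.1
      · rw [min_eq_right h5]; exact h.2.2.2.1
    have h5 : be (rq n H s) ((max x y : ℕ) : ZMod (2 * n + 2 * H)) ∈ A := by
      rcases le_total x y with h5 | h5
      · rw [max_eq_right h5]; exact h.2.2.2.1
      · rw [max_eq_left h5]; exact h.2.2.1
    have h6 : max x y < 2 * n + 2 * H := max_lt h.1 h.2.1
    rw [mem_union]
    by_cases h7 : min x y ∈ Lat n H
    · right
      rw [mem_filter]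
      exact ⟨hA, _, h7, h4⟩
    · left
      unfold Lat at h7
      rw [mem_union, mem_range, mem_Ico] at h7
      have e1 := hF.b₁ (min x y) (by omega) (by omega)
      have e2 := hF.b₂ (max x y) h3 h6
      rw [mem_filter]
      refine ⟨hA, ?_⟩
      rcases hp with ⟨rfl, rfl⟩ | ⟨rfl, rfl⟩
      · obtain ⟨z, z1, z2, z3⟩ := e1
        obtain ⟨w, w1, w2, w3⟩ := e2
        exact ⟨⟨z, z1, z2, z3 ▸ h4⟩, ⟨w, w1, w2, w3 ▸ h5⟩⟩
      · obtain ⟨z, z1, z2, z3⟩ := e1
        obtain ⟨w, w1, w2, w3⟩ := e2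
        exact ⟨⟨w, w1, w2, w3 ▸ h5⟩, ⟨z, z1, z2, z3 ▸ h4⟩⟩
  refine (card_le_card h1).trans ((card_union_le _ _).trans ?_)
  refine Nat.add_le_add (le_of_eq ?_) ((card_meet_le _ _ _ _).trans (card_Lat n H))
  unfold nT
  congr!

/-- The number of the strands. -/
noncomputable def Mq (n H : ℕ) : ℕ := ((bS (Rt n H)).filter fun e => hdv e ∈ Rt n H).card

theorem Ex_mul {Q : ℝ} (hQ : 0 < Q) (D : Finset (ℤ × ℤ)) (η : Cfg) (F : Cfg → ℝ) :
    Zq Q D η * Ex Q D η F = ∑ S ∈ D.powerset, Q ^ LD D (cf D η S) * F (cf D η S) := by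
  unfold Ex
  rw [mul_div_cancel₀ _ (FKA.Zq_pos hQ D η).ne']

theorem prod_cl (D : Finset (ℤ × ℤ)) (q : ZMod N → ℤ × ℤ) (k : ℕ) (ω : Cfg) (Q : ℝ)
    [DecidablePred fun A : Finset Ed => IsCl D q k A] :
    (∏ A ∈ pcs ω D, if IsCl D q k A then Q else 1) = Q ^ NC ω D q k := by
  rw [prod_ite, prod_const, prod_const_one, mul_one]
  unfold NC
  congr!

theorem NC_congr {ω ω' : Cfg} (h : ∀ v ∈ D, ω v = ω' v) : NC ω D q k = NC ω' D q k := by
  unfold NC
  rw [pcs_congr h]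

/-- **The functional with a free and a wired side.** -/
theorem ZQ_le {H : ℕ} {u₀ : ℤ} {p₁ p₂ : Ed → Prop} (hn : 1 ≤ n) (hH : 1 ≤ H)
    (hF : Fl n H s u₀ p₁ p₂) (hp : p₁ = bot n ∧ p₂ = top n H ∨ p₁ = top n H ∧ p₂ = bot n)
    (hs : 0 < Real.sin θ) (hc : 1 ≤ 2 * Real.cos θ)
    (hη : Dob η (Rt n H) (rq n H s) (2 * H + n))
    (hcl : ∀ x : ℕ, 0 < x → x < 2 * H + n → ∀ e : Ed, ls e = RP n H (x + s) → hdv e ∉ Rt n H →
      η (hdv e) = false) :
    ZQ θ (rq n H s) (Rt n H) (stag θ (-(θ / 2)) (rq n H s) (2 * H + n)) 0 ≤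
      (2 * Real.sin θ) ^ Mq n H * ((Real.sin θ)⁻¹ ^ (2 * H) *
        (Zq (2 * Real.cos θ) (Rt n H) η *
          Ex (2 * Real.cos θ) (Rt n H) η fun ω => (Real.sin θ)⁻¹ ^ nT n H ω)) := by
  classical
  have hq := rq_poly hn hH s
  have hD := rq_encl hn hH s
  have hs1 : 1 ≤ (Real.sin θ)⁻¹ := (one_le_inv₀ hs).2 (Real.sin_le_one θ)
  have hc0 : 0 < Real.cos θ := by linarith
  have hQ0 : 0 < 2 * Real.cos θ := by linarith
  rw [Ex_mul hQ0, mul_sum, mul_sum]
  unfold ZQ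
  refine sum_le_sum fun S _ => ?_
  have hin : ∀ v ∈ Rt n H, cf (Rt n H) η S v = cf (Rt n H) eta0 S v := fun v hv => by simp [cf, hv]
  rw [XQ_stag hq hD hs.ne' hc0.ne', prod_cl]
  have e1 : QX.XB θ (-(θ / 2)) (rq n H s) (Rt n H) (2 * H + n) 0 (cf (Rt n H) eta0 S) ≤
      (Real.sin θ)⁻¹ ^ (nT n H (cf (Rt n H) η S) + 2 * H) := by
    unfold QX.XB
    simp only [mass_zero', wB_half hs hc0]
    rw [prod_ite, prod_const, prod_const_one, mul_one]
    refine pow_le_pow_right₀ hs1 ?_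
    refine (card_thr_le hn hH hF hp (cf (Rt n H) eta0 S)).trans (le_of_eq ?_)
    congr 1
    unfold nT
    rw [St_eq, pcs_congr hin]
  have e2 : (2 * Real.cos θ) ^ NC (cf (Rt n H) eta0 S) (Rt n H) (rq n H s) (2 * H + n) ≤
      (2 * Real.cos θ) ^ LD (Rt n H) (cf (Rt n H) η S) := by
    refine pow_le_pow_right₀ hc ?_
    rw [← NC_congr hin]
    refine NC_le_dob hq hD (by omega) (by omega) hη (fun x h1 h2 _ e he hv => ?_) S
    rw [rq_nat] at he
    exact hcl x h1 h2 e he hv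
  have e3 : 0 ≤ QX.XB θ (-(θ / 2)) (rq n H s) (Rt n H) (2 * H + n) 0 (cf (Rt n H) eta0 S) := by
    unfold QX.XB
    simp only [mass_zero', wB_half hs hc0]
    refine prod_nonneg fun A _ => ?_
    split_ifs
    · positivity
    · norm_num
  have e4 : 0 < (2 * Real.sin θ) ^ Mq n H := by positivity
  have e5 : 0 < (2 * Real.cos θ) ^ LD (Rt n H) (cf (Rt n H) η S) := by positivity
  calc _ ≤ (2 * Real.sin θ) ^ Mq n H * (2 * Real.cos θ) ^ LD (Rt n H) (cf (Rt n H) η S) *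
        (Real.sin θ)⁻¹ ^ (nT n H (cf (Rt n H) η S) + 2 * H) :=
        mul_le_mul (mul_le_mul_of_nonneg_left e2 e4.le) e1 e3 (by positivity)
    _ = _ := by rw [pow_add]; ring

/-! ### the free and the wired functional -/

/-- The functional with free boundary conditions. -/
noncomputable def fF (θ : ℝ) (n H : ℕ) : Ed → ℝ := phi (rq n H 0) (Rt n H)
  (fun k => θ / 4 * (RU n H (k + 0) : ℝ) + stag θ ((θ - Real.pi) / 2) (rq n H 0) (2 * n + 2 * H) k) 0

/-- The functional with wired boundary conditions. -/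
noncomputable def fW (θ : ℝ) (n H : ℕ) : Ed → ℝ := phi (rq n H 0) (Rt n H)
  (fun k => θ / 4 * (RU n H (k + 0) : ℝ) + stag θ ((θ - Real.pi) / 2) (rq n H 0) 0 k) 0

theorem ZQ_nat {H : ℕ} (hn : 1 ≤ n) (hH : 1 ≤ H) (hs : 0 < Real.sin θ) (hc : 1 ≤ 2 * Real.cos θ)
    (k : ℕ) : ZQ θ (rq n H s) (Rt n H) (stag θ ((θ - Real.pi) / 2) (rq n H s) k) 0 =
      (2 * Real.sin θ) ^ Mq n H * ∑ S ∈ (Rt n H).powerset,
        (2 * Real.cos θ) ^ NC (cf (Rt n H) eta0 S) (Rt n H) (rq n H s) k := by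
  classical
  have hq := rq_poly hn hH s
  have hD := rq_encl hn hH s
  have hc0 : 0 < Real.cos θ := by linarith
  unfold ZQ
  rw [mul_sum]
  refine sum_congr rfl fun S _ => ?_
  rw [XQ_stag hq hD hs.ne' hc0.ne', prod_cl, XB_zero hs.ne' hc0.ne' gauge_two, mul_one]
  rfl

theorem AS_fF {H : ℕ} (hn : 1 ≤ n) (hH : 1 ≤ H) (hs : 0 < Real.sin θ) (hc : 1 ≤ 2 * Real.cos θ) :
    (2 * Real.sin θ) ^ Mq n H * Zs (2 * Real.cos θ) n H false false ≤
      2 * Real.cos θ * ‖AS θ (Rt n H) (fF θ n H)‖ := by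
  have hq := rq_poly hn hH 0
  have hD := rq_encl hn hH 0
  have hg : Flw (Rt n H) (rq n H 0 0) 0 0 := fun A w _ _ => by simp
  have h1 := ZQ_arrows hq hD (rq_bd hn hH 0) hg θ
    (stag θ ((θ - Real.pi) / 2) (rq n H 0) (2 * n + 2 * H))
  unfold fF
  rw [← h1, Complex.norm_real, Real.norm_eq_abs]
  refine le_trans ?_ (mul_le_mul_of_nonneg_left (le_abs_self _) (by linarith))
  rw [ZQ_nat hn hH hs hc]
  have e4 : 0 < (2 * Real.sin θ) ^ Mq n H := by positivity
  have h2 : Zs (2 * Real.cos θ) n H false false ≤ 2 * Real.cos θ * ∑ S ∈ (Rt n H).powerset,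
      (2 * Real.cos θ) ^ NC (cf (Rt n H) eta0 S) (Rt n H) (rq n H 0) (2 * n + 2 * H) := by
    unfold Zs Zq
    rw [St_eq, mul_sum]
    refine sum_le_sum fun S _ => ?_
    have h3 := LD_le_free hq hD (dob_cc hn hH 0) S
    have hin : ∀ v ∈ Rt n H, cf (Rt n H) (et n H false false) S v = cf (Rt n H) eta0 S v :=
      fun v hv => by simp [cf, hv]
    rw [NC_congr hin] at h3
    rw [← pow_succ']
    exact pow_le_pow_right₀ hc h3
  calc _ ≤ (2 * Real.sin θ) ^ Mq n H * _ := mul_le_mul_of_nonneg_left h2 e4.le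
    _ = _ := by ring

/-- The squares where the ring and `et true true` are different. -/
noncomputable def Lr (n H : ℕ) : Finset (ℤ × ℤ) :=
  ({-1, (n : ℤ)} : Finset ℤ) ×ˢ Finset.Icc (-1 : ℤ) H

theorem card_Lr (n H : ℕ) : (Lr n H).card ≤ 2 * (H + 2) := by
  unfold Lr
  rw [card_product, Int.card_Icc]
  have h1 : ({-1, (n : ℤ)} : Finset ℤ).card ≤ 2 := card_le_two
  have h2 : ((H : ℤ) + 1 - -1).toNat = H + 2 := by omega
  rw [h2]
  exact Nat.mul_le_mul_right _ h1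

theorem AS_fW {H : ℕ} (hn : 1 ≤ n) (hH : 1 ≤ H) (hs : 0 < Real.sin θ) (hc : 1 ≤ 2 * Real.cos θ) :
    (2 * Real.sin θ) ^ Mq n H * Zs (2 * Real.cos θ) n H true true ≤
      (2 * Real.cos θ) ^ (4 * (H + 2) + 1) * ‖AS θ (Rt n H) (fW θ n H)‖ := by
  have hq := rq_poly hn hH 0
  have hD := rq_encl hn hH 0
  have hg : Flw (Rt n H) (rq n H 0 0) 0 0 := fun A w _ _ => by simp
  have h1 := ZQ_arrows hq hD (rq_bd hn hH 0) hg θ
    (stag θ ((θ - Real.pi) / 2) (rq n H 0) 0)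
  unfold fW
  rw [← h1, Complex.norm_real, Real.norm_eq_abs]
  refine le_trans ?_ (mul_le_mul_of_nonneg_left (le_abs_self _) (by positivity))
  rw [ZQ_nat hn hH hs hc]
  have e4 : 0 < (2 * Real.sin θ) ^ Mq n H := by positivity
  have h2 : Zs (2 * Real.cos θ) n H true true ≤ (2 * Real.cos θ) ^ (4 * (H + 2) + 1) *
      ∑ S ∈ (Rt n H).powerset,
      (2 * Real.cos θ) ^ NC (cf (Rt n H) eta0 S) (Rt n H) (rq n H 0) 0 := by
    unfold Zs Zq
    rw [St_eq, mul_sum]
    refine sum_le_sum fun S _ => ?_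
    have h3 := LD_le_wired hq hD (dob_rg hn hH) S
    have hin : ∀ v ∈ Rt n H, cf (Rt n H) (rg1 n H) S v = cf (Rt n H) eta0 S v :=
      fun v hv => by simp [cf, hv]
    rw [NC_congr hin] at h3
    have h4 := LD_change_le (Rt n H) (Lr n H) (cf (Rt n H) (et n H true true) S)
      (cf (Rt n H) (rg1 n H) S) (fun v hv => by
        unfold cf
        by_cases hvD : v ∈ Rt n H
        · rw [if_pos hvD, if_pos hvD]
        · rw [if_neg hvD, if_neg hvD]
          unfold Lr at hv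
          rw [mem_product, mem_insert, mem_singleton, mem_Icc] at hv
          rw [mem_Rt] at hvD
          unfold et rg1
          by_cases h5 : 0 ≤ v.1 ∧ v.1 < n
          · rw [if_pos h5]
            by_cases h6 : v.2 = -1
            · rw [if_pos h6]
              symm
              rw [decide_eq_true_iff]
              omega
            · rw [if_neg h6]
              by_cases h7 : v.2 = H
              · rw [if_pos h7]
                symm
                rw [decide_eq_true_iff]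
                omega
              · rw [if_neg h7]
                symm
                rw [decide_eq_false_iff_not]
                omega
          · rw [if_neg h5]
            symm
            rw [decide_eq_false_iff_not]
            omega)
    have h5 := card_Lr n H
    rw [← pow_add]
    exact pow_le_pow_right₀ hc (by omega)
  calc _ ≤ (2 * Real.sin θ) ^ Mq n H * _ := mul_le_mul_of_nonneg_left h2 e4.le
    _ = _ := by ring

/-! ### the values of the functionals -/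

theorem bS_rE (n c : ℕ) (e : Ed) : rE c e ∈ bS (Rt n (2 * c)) ↔ e ∈ bS (Rt n (2 * c)) := by
  rw [mem_bS, mem_bS, hdv_rE, tlv_rE, mem_Rt, mem_Rt, mem_Rt, mem_Rt]
  unfold rr
  simp only
  push_cast
  omega

theorem eds_rE (n c : ℕ) (e : Ed) : rE c e ∈ eds (Rt n (2 * c)) ↔ e ∈ eds (Rt n (2 * c)) := by
  rw [mem_eds, mem_eds, hdv_rE, tlv_rE, mem_Rt, mem_Rt, mem_Rt, mem_Rt]
  unfold rr
  simp only
  push_cast
  omega

/-- A functional with `σ a₁ + κ₁` below and `σ a₂ + κ₂` above. -/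
structure Vl (n H : ℕ) (φ : Ed → ℝ) (a₁ κ₁ a₂ κ₂ : ℝ) : Prop where
  off : ∀ e, e ∉ bS (Rt n H) → φ e = 0
  b : ∀ e, bot n e → φ e = (if hdv e ∈ Rt n H then a₁ else -a₁) + κ₁
  t : ∀ e, top n H e → φ e = (if hdv e ∈ Rt n H then a₂ else -a₂) + κ₂

theorem bot_in {H : ℕ} (hH : 1 ≤ H) {e : Ed} (h : bot n e) :
    (hdv e ∈ Rt n H ↔ tlv e ∉ Rt n H) := by
  obtain ⟨x, h1, h2, rfl⟩ := h
  rw [mem_Rt, mem_Rt]
  simp only [hdv, tlv]
  split_ifs <;> simp only <;> omega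

theorem top_in {H : ℕ} (hH : 1 ≤ H) {e : Ed} (h : top n H e) :
    (hdv e ∈ Rt n H ↔ tlv e ∉ Rt n H) := by
  obtain ⟨x, h1, h2, rfl⟩ := h
  rw [mem_Rt, mem_Rt]
  simp only [hdv, tlv]
  split_ifs <;> simp only <;> omega

theorem rE_bot {e : Ed} (h : bot n e) : top n (2 * c) (rE c e) := by
  obtain ⟨x, h1, h2, rfl⟩ := h
  refine ⟨x, h1, h2, ?_⟩
  simp only [rE, Sum.inr.injEq, Prod.mk.injEq, true_and]
  push_cast
  ring

theorem rE_top {e : Ed} (h : top n (2 * c) e) : bot n (rE c e) := by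
  obtain ⟨x, h1, h2, rfl⟩ := h
  refine ⟨x, h1, h2, ?_⟩
  simp only [rE, Sum.inr.injEq, Prod.mk.injEq, true_and]
  push_cast
  ring

theorem hdv_rE_in {e : Ed} (h : hdv e ∈ Rt n (2 * c) ↔ tlv e ∉ Rt n (2 * c)) :
    (hdv (rE c e) ∈ Rt n (2 * c) ↔ hdv e ∉ Rt n (2 * c)) := by
  have h1 : rr c (tlv e) ∈ Rt n (2 * c) ↔ tlv e ∈ Rt n (2 * c) := by
    rw [mem_Rt, mem_Rt]
    unfold rr
    simp only
    push_cast
    omega
  rw [hdv_rE, h1]
  tauto

theorem Vl.lower {a₁ κ₁ a₂ κ₂ : ℝ} (hc : 1 ≤ c) (h : Vl n (2 * c) φ a₁ κ₁ a₂ κ₂) :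
    Vl n (2 * c) (dbl (rE c) (eds (Dlo n c)) φ) a₁ κ₁ a₁ (-κ₁) where
  off := fun e he => by
    unfold dbl
    split_ifs
    · exact h.off e he
    · rw [h.off _ fun h' => he ((bS_rE n c e).1 h'), neg_zero]
  b := fun e he => by
    have h1 : e ∈ eds (Dlo n c) := by
      obtain ⟨x, h1, h2, rfl⟩ := he
      rw [mem_eds, mem_Dlo, mem_Dlo]
      simp only [hdv, tlv]
      split_ifs <;> simp only <;> omega
    unfold dbl
    rw [if_pos h1]
    exact h.b e he
  t := fun e he => by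
    have h1 : e ∉ eds (Dlo n c) := by
      obtain ⟨x, h1, h2, rfl⟩ := he
      rw [mem_eds, mem_Dlo, mem_Dlo]
      simp only [hdv, tlv]
      split_ifs <;> simp only <;> push_cast <;> omega
    unfold dbl
    rw [if_neg h1, h.b _ (rE_top he)]
    have h2 := hdv_rE_in (top_in (by omega) he)
    by_cases h3 : hdv e ∈ Rt n (2 * c)
    · rw [if_pos h3, if_neg fun h4 => (h2.1 h4) h3]
      ring
    · rw [if_neg h3, if_pos (h2.2 h3)]
      ring

theorem Vl.upper {a₁ κ₁ a₂ κ₂ : ℝ} (hc : 1 ≤ c) (h : Vl n (2 * c) φ a₁ κ₁ a₂ κ₂) :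
    Vl n (2 * c) (dbl (rE c) (eds (Dup n c)) φ) a₂ (-κ₂) a₂ κ₂ where
  off := fun e he => by
    unfold dbl
    split_ifs
    · exact h.off e he
    · rw [h.off _ fun h' => he ((bS_rE n c e).1 h'), neg_zero]
  b := fun e he => by
    have h1 : e ∉ eds (Dup n c) := by
      obtain ⟨x, h1, h2, rfl⟩ := he
      rw [mem_eds, mem_Dup, mem_Dup]
      simp only [hdv, tlv]
      split_ifs <;> simp only <;> omega
    unfold dbl
    rw [if_neg h1, h.t _ (rE_bot he)]
    have h2 := hdv_rE_in (bot_in (H := 2 * c) (by omega) he)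
    by_cases h3 : hdv e ∈ Rt n (2 * c)
    · rw [if_pos h3, if_neg fun h4 => (h2.1 h4) h3]
      ring
    · rw [if_neg h3, if_pos (h2.2 h3)]
      ring
  t := fun e he => by
    have h1 : e ∈ eds (Dup n c) := by
      obtain ⟨x, h1, h2, rfl⟩ := he
      rw [mem_eds, mem_Dup, mem_Dup]
      simp only [hdv, tlv]
      split_ifs <;> simp only <;> push_cast <;> omega
    unfold dbl
    rw [if_pos h1]
    exact h.t e he

/-- The indices of the bottom and of the top edges. -/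
theorem exists_bot {H : ℕ} (hn : 1 ≤ n) (hH : 1 ≤ H) {e : Ed} (h : bot n e) :
    ∃ j : ℕ, H ≤ j ∧ j < H + n ∧ e = be (rq n H 0) (j : ZMod (2 * n + 2 * H)) := by
  obtain ⟨x, h1, h2, rfl⟩ := h
  refine ⟨H + x.toNat, by omega, by omega, ?_⟩
  rw [be_rq hn hH (m := 0) (i := H + x.toNat) (by omega) (by ring) (r := 0) (by
    unfold rg
    rw [if_neg (by omega), if_pos (by omega)]
    rfl), ce0]
  unfold rf
  rw [if_neg (by omega), if_pos (by omega)]
  simp only [Sum.inr.injEq, Prod.mk.injEq]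
  omega

theorem exists_top {H : ℕ} (hn : 1 ≤ n) (hH : 1 ≤ H) {e : Ed} (h : top n H e) :
    ∃ j : ℕ, 2 * H + n ≤ j ∧ j < 2 * n + 2 * H ∧
      e = be (rq n H 0) (j : ZMod (2 * n + 2 * H)) := by
  obtain ⟨x, h1, h2, rfl⟩ := h
  refine ⟨2 * H + 2 * n - 1 - x.toNat, by omega, by omega, ?_⟩
  rw [be_rq hn hH (m := 0) (i := 2 * H + 2 * n - 1 - x.toNat) (by omega) (by ring) (r := 2) (by
    unfold rg
    rw [if_neg (by omega), if_neg (by omega), if_neg (by omega)]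
    rfl), ce2]
  unfold rf
  rw [if_neg (by omega), if_neg (by omega), if_neg (by omega)]
  have h3 : 2 * (H : ℤ) + 2 * n - ((2 * H + 2 * n - 1 - x.toNat : ℕ) : ℤ) - 1 = x := by omega
  simp only [h3]

theorem vl_fF {H : ℕ} (hn : 1 ≤ n) (hH : 1 ≤ H) (θ : ℝ) :
    Vl n H (fF θ n H) 0 (kp θ) (θ / 2) (kp θ) where
  off := fun e he => phi_off (rq_poly hn hH 0) (rq_encl hn hH 0) _ _ he
  b := fun e he => by
    obtain ⟨j, h1, h2, rfl⟩ := exists_bot hn hH he
    have hev := even_iff_hdv (rq_poly hn hH 0) (rq_encl hn hH 0) (j : ZMod (2 * n + 2 * H))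
    unfold fF
    rw [phi_be (rq_poly hn hH 0) (by omega), (fl_zero hn hH).u₁ j h1 h2]
    unfold stag kp
    have hk : j < 2 * n + 2 * H := by omega
    rw [if_pos hk]
    by_cases h3 : hdv (be (rq n H 0) (j : ZMod (2 * n + 2 * H))) ∈ Rt n H
    · rw [if_pos h3, if_pos (hev.2 h3), if_pos h3, Pi.zero_apply]
      push_cast
      ring
    · rw [if_neg h3, if_neg fun h => h3 (hev.1 h), if_neg h3, Pi.zero_apply]
      push_cast
      ring
  t := fun e he => by
    obtain ⟨j, h1, h2, rfl⟩ := exists_top hn hH he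
    have hev := even_iff_hdv (rq_poly hn hH 0) (rq_encl hn hH 0) (j : ZMod (2 * n + 2 * H))
    unfold fF
    rw [phi_be (rq_poly hn hH 0) (by omega), (fl_zero hn hH).u₂ j h1 h2]
    unfold stag kp
    have hk : j < 2 * n + 2 * H := by omega
    rw [if_pos hk]
    by_cases h3 : hdv (be (rq n H 0) (j : ZMod (2 * n + 2 * H))) ∈ Rt n H
    · rw [if_pos h3, if_pos (hev.2 h3), if_pos h3, Pi.zero_apply]
      push_cast
      ring
    · rw [if_neg h3, if_neg fun h => h3 (hev.1 h), if_neg h3, Pi.zero_apply]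
      push_cast
      ring

theorem vl_fW {H : ℕ} (hn : 1 ≤ n) (hH : 1 ≤ H) (θ : ℝ) :
    Vl n H (fW θ n H) ((θ - Real.pi) / 2) (-kp θ) (θ / 2 + (θ - Real.pi) / 2) (-kp θ) where
  off := fun e he => phi_off (rq_poly hn hH 0) (rq_encl hn hH 0) _ _ he
  b := fun e he => by
    obtain ⟨j, h1, h2, rfl⟩ := exists_bot hn hH he
    have hev := even_iff_hdv (rq_poly hn hH 0) (rq_encl hn hH 0) (j : ZMod (2 * n + 2 * H))
    unfold fW
    rw [phi_be (rq_poly hn hH 0) (by omega), (fl_zero hn hH).u₁ j h1 h2]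
    unfold stag kp
    have hk : ¬ j < 0 := by omega
    rw [if_neg hk]
    by_cases h3 : hdv (be (rq n H 0) (j : ZMod (2 * n + 2 * H))) ∈ Rt n H
    · rw [if_pos h3, if_pos (hev.2 h3), if_pos h3, Pi.zero_apply]
      push_cast
      ring
    · rw [if_neg h3, if_neg fun h => h3 (hev.1 h), if_neg h3, Pi.zero_apply]
      push_cast
      ring
  t := fun e he => by
    obtain ⟨j, h1, h2, rfl⟩ := exists_top hn hH he
    have hev := even_iff_hdv (rq_poly hn hH 0) (rq_encl hn hH 0) (j : ZMod (2 * n + 2 * H))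
    unfold fW
    rw [phi_be (rq_poly hn hH 0) (by omega), (fl_zero hn hH).u₂ j h1 h2]
    unfold stag kp
    have hk : ¬ j < 0 := by omega
    rw [if_neg hk]
    by_cases h3 : hdv (be (rq n H 0) (j : ZMod (2 * n + 2 * H))) ∈ Rt n H
    · rw [if_pos h3, if_pos (hev.2 h3), if_pos h3, Pi.zero_apply]
      push_cast
      ring
    · rw [if_neg h3, if_neg fun h => h3 (hev.1 h), if_neg h3, Pi.zero_apply]
      push_cast
      ring

end Vale.Agent.P167.H718
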